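import Crest.Agent.R94.FrameEst

/-! Row 94: reflection. -/

set_option autoImplicit false

open scoped RealInnerProductSpace
open Filter Topology Set

namespace Crest.Agent.R94

variable {E : Type*} [NormedAddCommGroup E] [InnerProductSpace ℝ E]

theorem Real.iInf_neg_eq' {ι : Type*} (f : ι → ℝ) : ⨅ i, -f i = -⨆ i, f i := by
  have h : Set.range (fun i => -f i) = -Set.range f := by
    ext x
    simp only [Set.mem_range, Set.mem_neg]
    constructor
    · rintro ⟨i, rfl⟩; exact ⟨i, by simp⟩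
    · rintro ⟨i, hi⟩; exact ⟨i, by rw [hi]; simp⟩
  unfold iInf iSup
  rw [h, Real.sInf_neg]

/-- Reflection in space, time and value preserves the class. -/
theorem ZCls.refl {W : E × ℝ → ℝ} (hW : ZCls W) :
    ZCls (fun z : E × ℝ => -W (-z.1, -z.2)) := by
  have hup : ∀ (s : ℝ) (z : E × ℝ), Tup (fun z : E × ℝ => -W (-z.1, -z.2)) s z =
      -Tdn W s (-z.1, -z.2) := by
    intro s z
    unfold Tup Tdn
    rw [← neg_neg (⨆ V : E, _), ← Real.iInf_neg_eq' ]
    congr 2
    funext V
    simp only [neg_add_rev]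
    rw [show -(s • V) + -z.1 = -z.1 - s • V by abel, show -s + -z.2 = -z.2 - s by ring]
    ring
  have hdn : ∀ (s : ℝ) (z : E × ℝ), Tdn (fun z : E × ℝ => -W (-z.1, -z.2)) s z =
      -Tup W s (-z.1, -z.2) := by
    intro s z
    unfold Tup Tdn
    rw [← Real.iInf_neg_eq']
    congr 1
    funext V
    simp only [neg_sub]
    rw [show s • V - z.1 = -z.1 + s • V by abel, show s - z.2 = -z.2 + s by ring]
    ring
  refine ⟨fun z r hr => ?_, fun z => ?_, fun z => ?_⟩
  · obtain ⟨V, h, β, hF⟩ := hW.flat (-z.1, -z.2) r hr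
    refine ⟨V, h, -β, fun τ ξ hτ => ?_⟩
    have := hF (-τ) (-ξ) (by rwa [abs_neg])
    simp only [norm_neg, inner_neg_right, neg_smul] at this
    rw [← abs_neg]
    convert this using 2
    simp only [neg_add_rev]
    rw [show -ξ + (-(τ • V) + -z.1) = -z.1 + -(τ • V) + -ξ by abel,
      show -τ + -z.2 = -z.2 + -τ by ring]
    ring
  · simp only [hup]
    exact (hW.ccv (-z.1, -z.2)).neg
  · simp only [hdn]
    exact (hW.cvx (-z.1, -z.2)).neg

end Crest.Agent.R94
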