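import Crest.Agent.R94.GapZero
import Crest.Agent.R94.Refl

/-! Row 94: the Liouville theorem and the improvement of flatness. -/

set_option autoImplicit false

open scoped RealInnerProductSpace
open Filter Topology Set

namespace Crest.Agent.R94

variable {E : Type*} [NormedAddCommGroup E] [InnerProductSpace ℝ E]

namespace AffineAux

/-- a function which is convex and concave is affine -/
theorem affine_of_comb {F : Type*} [AddCommGroup F] [Module ℝ F] (f : F → ℝ)
    (h : ∀ (x z : F) (a b : ℝ), 0 ≤ a → 0 ≤ b → a + b = 1 → f (a • x + b • z) = a * f x + b * f z) :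
    ∃ L : F →ₗ[ℝ] ℝ, ∀ x, f x = f 0 + L x := by
  have h1 : ∀ (x : F) (a : ℝ), 0 ≤ a → a ≤ 1 → f (a • x) - f 0 = a * (f x - f 0) := by
    intro x a h0 h1
    have := h x 0 a (1 - a) h0 (by linarith) (by ring)
    rw [smul_zero, add_zero] at this
    rw [this]
    ring
  have h2 : ∀ (x : F) (a : ℝ), 0 ≤ a → f (a • x) - f 0 = a * (f x - f 0) := by
    intro x a h0
    rcases le_or_gt a 1 with ha | ha
    · exact h1 x a h0 ha
    · have ha0 : a ≠ 0 := by linarith
      have := h1 (a • x) a⁻¹ (inv_nonneg.2 h0) (inv_le_one_of_one_le₀ ha.le)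
      rw [smul_smul, inv_mul_cancel₀ ha0, one_smul] at this
      rw [this]
      field_simp
  have h3 : ∀ x z : F, f (x + z) - f 0 = (f x - f 0) + (f z - f 0) := by
    intro x z
    have e1 := h x z (1 / 2) (1 / 2) (by norm_num) (by norm_num) (by norm_num)
    have e2 := h1 (x + z) (1 / 2) (by norm_num) (by norm_num)
    rw [smul_add] at e2
    linarith
  have h4 : ∀ x : F, f (-x) - f 0 = -(f x - f 0) := by
    intro x
    have := h3 x (-x)
    rw [add_neg_cancel] at this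
    linarith
  refine ⟨⟨⟨fun x => f x - f 0, h3⟩, fun a x => ?_⟩, fun x => ?_⟩
  · change f (a • x) - f 0 = a * (f x - f 0)
    rcases le_total 0 a with ha | ha
    · exact h2 x a ha
    · have e1 := h2 (-x) (-a) (by linarith)
      rw [smul_neg, neg_smul, neg_neg, h4] at e1
      rw [e1]
      ring
  · change f x = f 0 + (f x - f 0)
    ring

theorem slice_convex [FiniteDimensional ℝ E] {W : E × ℝ → ℝ} (hW : ZCls W) (t : ℝ) (x z : E)
    {a b : ℝ} (ha : 0 ≤ a) (hb : 0 ≤ b) (hab : a + b = 1) :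
    W (a • x + b • z, t) ≤ a * W (x, t) + b * W (z, t) := by
  set y := a • x + b • z with hy
  set C := a * ‖x - y‖ ^ 2 + b * ‖z - y‖ ^ 2 with hC
  have hC0 : 0 ≤ C := by positivity
  refine le_of_forall_pos_le_add fun ε hε => ?_
  have hs : 0 < (C + 1) / ε := by positivity
  have h1 : W (y, t) - env ((C + 1) / ε) (fun y' => W (y', t)) y ≤ 0 * ((C + 1) / ε) :=
    hW.gapLe_zero (y, t) _ hs
  have h2 := env_le (hW.envBdd_zero hs y t) (ι := Fin 2) ![a, b] ![x - y, z - y]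
    (fun i => by fin_cases i <;> assumption) (by rw [Fin.sum_univ_two]; exact hab) (by
      rw [Fin.sum_univ_two]
      change a • (x - y) + b • (z - y) = 0
      rw [smul_sub, smul_sub, sub_add_sub_comm, ← add_smul, hab, one_smul, sub_self])
  rw [Fin.sum_univ_two] at h2
  change _ ≤ a * (W (y + (x - y), t) + ‖x - y‖ ^ 2 / (2 * ((C + 1) / ε))) +
    b * (W (y + (z - y), t) + ‖z - y‖ ^ 2 / (2 * ((C + 1) / ε))) at h2
  rw [add_sub_cancel, add_sub_cancel] at h2
  have h3 : a * (‖x - y‖ ^ 2 / (2 * ((C + 1) / ε))) + b * (‖z - y‖ ^ 2 / (2 * ((C + 1) / ε))) =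
      ε * (C / (2 * (C + 1))) := by
    rw [hC]
    field_simp
  have h4 : C / (2 * (C + 1)) ≤ 1 := by
    rw [div_le_one (by positivity)]
    linarith
  have h5 := mul_le_mul_of_nonneg_left h4 hε.le
  linarith

theorem slice_affine [FiniteDimensional ℝ E] {W : E × ℝ → ℝ} (hW : ZCls W) (t : ℝ) :
    ∃ V : E, ∀ y, W (y, t) = W (0, t) + ⟪V, y⟫ := by
  have : CompleteSpace E := FiniteDimensional.complete ℝ E
  obtain ⟨L, hL⟩ := affine_of_comb (fun y => W (y, t)) fun x z a b ha hb hab => by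
    refine le_antisymm (slice_convex hW t x z ha hb hab) ?_
    have h := slice_convex hW.refl (-t) (-x) (-z) ha hb hab
    simp only [smul_neg, ← neg_add, neg_neg] at h
    linarith
  refine ⟨(InnerProductSpace.toDual ℝ E).symm (LinearMap.toContinuousLinearMap L), fun y => ?_⟩
  rw [InnerProductSpace.toDual_symm_apply]
  exact hL y

theorem inner_le_half (V U : E) : ⟪V, U⟫ ≤ ‖V‖ ^ 2 / 2 + ‖U‖ ^ 2 / 2 := by
  have := real_inner_le_norm V U
  nlinarith [sq_nonneg (‖V‖ - ‖U‖)]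

variable {W : E × ℝ → ℝ} {a : ℝ → ℝ} {V : ℝ → E}

theorem Tup_eq (h : ∀ y t, W (y, t) = a t + ⟪V t, y⟫) {s : ℝ} (hs : 0 ≤ s) (y : E) (t : ℝ) :
    Tup W s (y, t) = a (t + s) + ⟪V (t + s), y⟫ + s * ‖V (t + s)‖ ^ 2 / 2 := by
  have h1 : ∀ U : E, W (y + s • U, t + s) - s * ‖U‖ ^ 2 / 2 ≤
      a (t + s) + ⟪V (t + s), y⟫ + s * ‖V (t + s)‖ ^ 2 / 2 := fun U => by
    rw [h, inner_add_right, real_inner_smul_right]
    have := mul_le_mul_of_nonneg_left (inner_le_half (V (t + s)) U) hs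
    linarith
  refine le_antisymm (Tup_le h1) (le_trans (le_of_eq ?_) (le_Tup (upBdd_of_le h1) (V (t + s))))
  rw [h, inner_add_right, real_inner_smul_right, real_inner_self_eq_norm_sq]
  ring

theorem Tdn_eq (h : ∀ y t, W (y, t) = a t + ⟪V t, y⟫) {s : ℝ} (hs : 0 ≤ s) (y : E) (t : ℝ) :
    Tdn W s (y, t) = a (t - s) + ⟪V (t - s), y⟫ - s * ‖V (t - s)‖ ^ 2 / 2 := by
  have h1 : ∀ U : E, a (t - s) + ⟪V (t - s), y⟫ - s * ‖V (t - s)‖ ^ 2 / 2 ≤
      W (y - s • U, t - s) + s * ‖U‖ ^ 2 / 2 := fun U => by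
    rw [h, inner_sub_right, real_inner_smul_right]
    have := mul_le_mul_of_nonneg_left (inner_le_half (V (t - s)) U) hs
    linarith
  refine le_antisymm (le_trans (Tdn_le (dnBdd_of_le h1) (V (t - s))) (le_of_eq ?_)) (le_Tdn h1)
  rw [h, inner_sub_right, real_inner_smul_right, real_inner_self_eq_norm_sq]
  ring

theorem eq_zero_of_inner_le {D : E} {C : ℝ} (h : ∀ y : E, ⟪D, y⟫ ≤ C) : D = 0 := by
  by_contra hD
  have h0 : 0 < ‖D‖ ^ 2 := pow_pos (norm_pos_iff.2 hD) 2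
  have := h (((C + 1) / ‖D‖ ^ 2) • D)
  rw [real_inner_smul_right, real_inner_self_eq_norm_sq, div_mul_cancel₀ _ h0.ne'] at this
  linarith

theorem vel_double (hW : ZCls W) (h : ∀ y t, W (y, t) = a t + ⟪V t, y⟫) (t : ℝ) {s : ℝ}
    (hs : 0 ≤ s) : V (t + 2 * s) - V t = (2 : ℝ) • (V (t + s) - V t) := by
  have key : (2 : ℝ) • V (t + s) - V t - V (t + 2 * s) = 0 := by
    refine eq_zero_of_inner_le (C := a t + a (t + 2 * s) + 2 * s * ‖V (t + 2 * s)‖ ^ 2 / 2 -
      2 * a (t + s) - s * ‖V (t + s)‖ ^ 2) fun y => ?_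
    have h1 := (hW.cvx (y, t)).2 (mem_Ici.2 le_rfl) (mem_Ici.2 (show (0 : ℝ) ≤ 2 * s by linarith))
      (show (0 : ℝ) ≤ 1 / 2 by norm_num) (show (0 : ℝ) ≤ 1 / 2 by norm_num) (by norm_num)
    have e : (1 / 2 : ℝ) • (0 : ℝ) + (1 / 2 : ℝ) • (2 * s) = s := by
      rw [smul_eq_mul, smul_eq_mul]
      ring
    rw [e] at h1
    simp only [smul_eq_mul] at h1
    rw [Tup_eq h hs, Tup_eq h le_rfl, Tup_eq h (by linarith), add_zero] at h1
    rw [inner_sub_left, inner_sub_left, real_inner_smul_left]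
    linarith
  rw [sub_eq_zero] at key
  rw [← key]
  module

theorem vel_frame (h : ∀ y t, W (y, t) = a t + ⟪V t, y⟫) {r : ℝ} (hr : 0 < r) {V₀ : E} {k β : ℝ}
    (hF : IsFrame W (0, 0) r 1 V₀ k β) {τ : ℝ} (hτ : |τ| ≤ r) : ‖V τ - V₀‖ ≤ 2 := by
  have h1 := (abs_le.1 (hF τ ((r / 2) • (V τ - V₀)) hτ)).2
  have h2 := (abs_le.1 (hF τ (-((r / 2) • (V τ - V₀))) hτ)).1
  simp only [h, zero_add, inner_add_right, inner_neg_right, norm_neg] at h1 h2
  have h3 : ⟪V τ, (r / 2) • (V τ - V₀)⟫ - ⟪V₀, (r / 2) • (V τ - V₀)⟫ = r / 2 * ‖V τ - V₀‖ ^ 2 := by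
    rw [← inner_sub_left, real_inner_smul_right, real_inner_self_eq_norm_sq]
  have h4 : ‖(r / 2) • (V τ - V₀)‖ ^ 2 / r = r / 4 * ‖V τ - V₀‖ ^ 2 := by
    rw [norm_smul, Real.norm_of_nonneg (by positivity)]
    field_simp
    ring
  rw [h4] at h1 h2
  have h5 : r * ‖V τ - V₀‖ ^ 2 ≤ r * 4 := by linarith
  have h6 := le_of_mul_le_mul_left h5 hr
  nlinarith [norm_nonneg (V τ - V₀)]

theorem vel_bdd (hW : ZCls W) (h : ∀ y t, W (y, t) = a t + ⟪V t, y⟫) (t τ : ℝ) :
    ‖V τ - V t‖ ≤ 4 := by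
  have hr : 0 < |t| + |τ| + 1 := by positivity
  obtain ⟨V₀, k, β, hF⟩ := hW.flat (0, 0) _ hr
  have h1 := vel_frame h hr hF (τ := τ) (by linarith [abs_nonneg t])
  have h2 := vel_frame h hr hF (τ := t) (by linarith [abs_nonneg τ])
  have h3 := norm_sub_le (V τ - V₀) (V t - V₀)
  rw [sub_sub_sub_cancel_right] at h3
  linarith

theorem vel_const (hW : ZCls W) (h : ∀ y t, W (y, t) = a t + ⟪V t, y⟫) (t : ℝ) : V t = V 0 := by
  have h1 : ∀ (t : ℝ) (n : ℕ) (s : ℝ), 0 ≤ s → 2 ^ n * ‖V (t + s) - V t‖ ≤ 4 := by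
    intro t n
    induction n with
    | zero =>
      intro s _
      rw [pow_zero, one_mul]
      exact vel_bdd hW h _ _
    | succ n ih =>
      intro s hs
      have := ih (2 * s) (by linarith)
      rw [vel_double hW h t hs, norm_smul, Real.norm_two] at this
      rw [pow_succ]
      linarith
  have h2 : ∀ t s : ℝ, 0 ≤ s → V (t + s) = V t := by
    intro t s hs
    by_contra hne
    have h0 : 0 < ‖V (t + s) - V t‖ := norm_pos_iff.2 (sub_ne_zero.2 hne)
    obtain ⟨n, hn⟩ := pow_unbounded_of_one_lt (4 / ‖V (t + s) - V t‖) (one_lt_two (α := ℝ))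
    rw [div_lt_iff₀ h0] at hn
    exact absurd (h1 t n s hs) (not_le.2 hn)
  rcases le_total 0 t with ht | ht
  · simpa using h2 0 t ht
  · simpa using (h2 t (-t) (by linarith)).symm

end AffineAux

open AffineAux in
theorem ZCls.affine [FiniteDimensional ℝ E] {W : E × ℝ → ℝ} (hW : ZCls W) :
    ∃ (V : E) (γ β : ℝ), ∀ (ξ : E) (τ : ℝ), W (ξ, τ) = β + ⟪V, ξ⟫ + γ * τ := by
  choose V hV using slice_affine hW
  have h0 : ∀ y t, W (y, t) = (fun t => W (0, t)) t + ⟪V t, y⟫ := fun y t => hV t y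
  generalize (fun t => W (0, t)) = a at h0
  have hc := vel_const hW h0
  obtain ⟨L, hL⟩ := affine_of_comb a fun x z p q hp hq hpq => by
    have hq' : q = 1 - p := by linarith
    simp only [smul_eq_mul]
    refine le_antisymm ?_ ?_
    · have hx : 0 ≤ x - min x z := sub_nonneg.2 (min_le_left _ _)
      have hz : 0 ≤ z - min x z := sub_nonneg.2 (min_le_right _ _)
      have h1 := (hW.cvx (0, min x z)).2 (mem_Ici.2 hx) (mem_Ici.2 hz) hp hq hpq
      simp only [smul_eq_mul] at h1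
      rw [Tup_eq h0 (by positivity), Tup_eq h0 hx, Tup_eq h0 hz] at h1
      simp only [hc, inner_zero_right, add_sub_cancel] at h1
      rw [show min x z + (p * (x - min x z) + q * (z - min x z)) = p * x + q * z by
        rw [hq']; ring] at h1
      linarith
    · have hx : 0 ≤ max x z - x := sub_nonneg.2 (le_max_left _ _)
      have hz : 0 ≤ max x z - z := sub_nonneg.2 (le_max_right _ _)
      have h1 := (hW.ccv (0, max x z)).2 (mem_Ici.2 hx) (mem_Ici.2 hz) hp hq hpq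
      simp only [smul_eq_mul] at h1
      rw [Tdn_eq h0 hx, Tdn_eq h0 hz, Tdn_eq h0 (by positivity)] at h1
      simp only [hc, inner_zero_right, sub_sub_cancel] at h1
      rw [show max x z - (p * (max x z - x) + q * (max x z - z)) = p * x + q * z by
        rw [hq']; ring] at h1
      linarith
  refine ⟨V 0, L 1, a 0, fun ξ τ => ?_⟩
  have h1 : L τ = L 1 * τ := by
    rw [mul_comm, ← smul_eq_mul, ← map_smul, smul_eq_mul, mul_one]
  rw [h0, hc, hL τ, h1]
  ring

end Crest.Agent.R94
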