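import Crest.Agent.R94.Modulus

/-! Row 94: the extrema in Tup and Tdn are attained; one-step inequalities. -/

set_option autoImplicit false

open scoped RealInnerProductSpace
open Filter Topology Set

namespace Crest.Agent.R94

variable {E : Type*} [NormedAddCommGroup E] [InnerProductSpace ℝ E]

theorem exists_max_aux [FiniteDimensional ℝ E] {W : E × ℝ → ℝ} (hc : Continuous W) (hq : SubQ W)
    {s : ℝ} (hs : 0 ≤ s) (y : E) (t : ℝ) :
    ∃ V : E, ∀ V' : E, W (y + s • V', t) - s * ‖V'‖ ^ 2 / 2 ≤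
      W (y + s • V, t) - s * ‖V‖ ^ 2 / 2 := by
  rcases hs.eq_or_lt with rfl | hs
  · exact ⟨0, fun V' => by simp⟩
  haveI : ProperSpace E := FiniteDimensional.proper_real E
  obtain ⟨C, hC⟩ := hq |t| (1 / (8 * s)) (by positivity)
  set F : E → ℝ := fun V => W (y + s • V, t) - s * ‖V‖ ^ 2 / 2 with hF
  have hFc : Continuous F := by
    refine (hc.comp ?_).sub (by fun_prop)
    fun_prop
  have hFle : ∀ V : E, F V ≤ C + ‖y‖ ^ 2 / (4 * s) - s * ‖V‖ ^ 2 / 4 := by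
    intro V
    have h1 := (le_abs_self _).trans (hC (y + s • V) t le_rfl)
    have h2 : ‖y + s • V‖ ^ 2 ≤ 2 * ‖y‖ ^ 2 + 2 * (s * ‖V‖) ^ 2 := by
      have h3 : ‖y + s • V‖ ≤ ‖y‖ + s * ‖V‖ := by
        refine (norm_add_le _ _).trans ?_
        rw [norm_smul, Real.norm_of_nonneg hs.le]
      nlinarith [norm_nonneg (y + s • V), norm_nonneg y, mul_nonneg hs.le (norm_nonneg V),
        sq_nonneg (‖y‖ - s * ‖V‖)]
    have h4 : 1 / (8 * s) * ‖y + s • V‖ ^ 2 ≤ ‖y‖ ^ 2 / (4 * s) + s * ‖V‖ ^ 2 / 4 := by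
      calc 1 / (8 * s) * ‖y + s • V‖ ^ 2 ≤ 1 / (8 * s) * (2 * ‖y‖ ^ 2 + 2 * (s * ‖V‖) ^ 2) :=
            mul_le_mul_of_nonneg_left h2 (by positivity)
        _ = ‖y‖ ^ 2 / (4 * s) + s * ‖V‖ ^ 2 / 4 := by field_simp; ring
    simp only [hF]
    linarith
  set D : ℝ := C + ‖y‖ ^ 2 / (4 * s) - F 0 with hD
  obtain ⟨V, -, hV⟩ := (isCompact_closedBall (0 : E) (4 * |D| / s + 1)).exists_isMaxOn
    ⟨0, Metric.mem_closedBall_self (by positivity)⟩ hFc.continuousOn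
  refine ⟨V, fun V' => ?_⟩
  by_cases hV' : ‖V'‖ ≤ 4 * |D| / s + 1
  · exact hV (by simpa using hV')
  · have h0 : F 0 ≤ F V := hV (Metric.mem_closedBall_self (by positivity))
    push Not at hV'
    have h1 := hFle V'
    have h2 : 0 ≤ 4 * |D| / s := by positivity
    have h3 : 4 * |D| / s ≤ ‖V'‖ ^ 2 := by nlinarith
    rw [div_le_iff₀ hs] at h3
    have h4 := le_abs_self D
    show F V' ≤ F V
    nlinarith

theorem exists_Tup_eq [FiniteDimensional ℝ E] {W : E × ℝ → ℝ} (hc : Continuous W) (hq : SubQ W)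
    {s : ℝ} (hs : 0 ≤ s) (y : E) (t : ℝ) :
    ∃ V : E, Tup W s (y, t) = W (y + s • V, t + s) - s * ‖V‖ ^ 2 / 2 := by
  obtain ⟨V, hV⟩ := exists_max_aux hc hq hs y (t + s)
  exact ⟨V, le_antisymm (Tup_le hV) (le_Tup (upBdd_of_le hV) V)⟩

theorem exists_Tdn_eq [FiniteDimensional ℝ E] {W : E × ℝ → ℝ} (hc : Continuous W) (hq : SubQ W)
    {s : ℝ} (hs : 0 ≤ s) (y : E) (t : ℝ) :
    ∃ U : E, Tdn W s (y, t) = W (y - s • U, t - s) + s * ‖U‖ ^ 2 / 2 := by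
  obtain ⟨V, hV⟩ := exists_max_aux (W := fun z => -W z) hc.neg
    (fun R η hη => by simpa using hq R η hη) hs y (t - s)
  have hV' : ∀ U : E, W (y - s • (-V), t - s) + s * ‖-V‖ ^ 2 / 2 ≤
      W (y - s • U, t - s) + s * ‖U‖ ^ 2 / 2 := by
    intro U
    have := hV (-U)
    simp only [smul_neg, norm_neg, sub_neg_eq_add, ← sub_eq_add_neg] at this ⊢
    linarith
  exact ⟨-V, le_antisymm (Tdn_le (dnBdd_of_le hV') (-V)) (le_Tdn hV')⟩

theorem ZCls.exists_Tup_eq [FiniteDimensional ℝ E] {W : E × ℝ → ℝ} (hW : ZCls W)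
    {s : ℝ} (hs : 0 ≤ s) (y : E) (t : ℝ) :
    ∃ V : E, Tup W s (y, t) = W (y + s • V, t + s) - s * ‖V‖ ^ 2 / 2 :=
  Crest.Agent.R94.exists_Tup_eq hW.continuous hW.subQ hs y t

theorem ZCls.exists_Tdn_eq [FiniteDimensional ℝ E] {W : E × ℝ → ℝ} (hW : ZCls W)
    {s : ℝ} (hs : 0 ≤ s) (y : E) (t : ℝ) :
    ∃ U : E, Tdn W s (y, t) = W (y - s • U, t - s) + s * ‖U‖ ^ 2 / 2 :=
  Crest.Agent.R94.exists_Tdn_eq hW.continuous hW.subQ hs y t

end Crest.Agent.R94
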