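import Crest.Agent.R94.Defs

/-! Row 94: elementary API for Tup, Tdn, env. -/

set_option autoImplicit false

open scoped RealInnerProductSpace
open Filter Topology Set

namespace Crest.Agent.R94

variable {E : Type*} [NormedAddCommGroup E] [InnerProductSpace ℝ E]

@[simp] theorem Tup_zero (W : E × ℝ → ℝ) (z : E × ℝ) : Tup W 0 z = W z := by
  simp [Tup]

@[simp] theorem Tdn_zero (W : E × ℝ → ℝ) (z : E × ℝ) : Tdn W 0 z = W z := by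
  simp [Tdn]

@[simp] theorem Gf_zero (W : E × ℝ → ℝ) (s : ℝ) (z : E × ℝ) : Gf W 0 s z = gap W s z := by
  simp [Gf, gap]

theorem le_Tup {W : E × ℝ → ℝ} {s : ℝ} {y : E} {t : ℝ} (hb : UpBdd W s (y, t)) (V : E) :
    W (y + s • V, t + s) - s * ‖V‖ ^ 2 / 2 ≤ Tup W s (y, t) :=
  le_ciSup hb V

theorem Tup_le {W : E × ℝ → ℝ} {s : ℝ} {y : E} {t c : ℝ}
    (h : ∀ V : E, W (y + s • V, t + s) - s * ‖V‖ ^ 2 / 2 ≤ c) : Tup W s (y, t) ≤ c :=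
  ciSup_le h

theorem Tdn_le {W : E × ℝ → ℝ} {s : ℝ} {y : E} {t : ℝ} (hb : DnBdd W s (y, t)) (U : E) :
    Tdn W s (y, t) ≤ W (y - s • U, t - s) + s * ‖U‖ ^ 2 / 2 :=
  ciInf_le hb U

theorem le_Tdn {W : E × ℝ → ℝ} {s : ℝ} {y : E} {t c : ℝ}
    (h : ∀ U : E, c ≤ W (y - s • U, t - s) + s * ‖U‖ ^ 2 / 2) : c ≤ Tdn W s (y, t) :=
  le_ciInf h

theorem upBdd_of_le {W : E × ℝ → ℝ} {s : ℝ} {y : E} {t c : ℝ}
    (h : ∀ V : E, W (y + s • V, t + s) - s * ‖V‖ ^ 2 / 2 ≤ c) : UpBdd W s (y, t) :=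
  ⟨c, by rintro _ ⟨V, rfl⟩; exact h V⟩

theorem dnBdd_of_le {W : E × ℝ → ℝ} {s : ℝ} {y : E} {t c : ℝ}
    (h : ∀ U : E, c ≤ W (y - s • U, t - s) + s * ‖U‖ ^ 2 / 2) : DnBdd W s (y, t) :=
  ⟨c, by rintro _ ⟨U, rfl⟩; exact h U⟩

theorem self_mem_envSet (s : ℝ) (f : E → ℝ) (y : E) : f y ∈ envSet s f y :=
  ⟨Unit, inferInstance, fun _ => 1, fun _ => 0, by simp, by simp, by simp, by simp⟩

theorem envSet_nonempty (s : ℝ) (f : E → ℝ) (y : E) : (envSet s f y).Nonempty :=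
  ⟨_, self_mem_envSet s f y⟩

theorem env_le {s : ℝ} {f : E → ℝ} {y : E} (hb : EnvBdd s f y) {ι : Type} [Fintype ι]
    (w : ι → ℝ) (ξ : ι → E) (hw : ∀ i, 0 ≤ w i) (h1 : ∑ i, w i = 1) (h0 : ∑ i, w i • ξ i = 0) :
    env s f y ≤ ∑ i, w i * (f (y + ξ i) + ‖ξ i‖ ^ 2 / (2 * s)) :=
  csInf_le hb ⟨ι, inferInstance, w, ξ, hw, h1, h0, rfl⟩

theorem env_le_self {s : ℝ} {f : E → ℝ} {y : E} (hb : EnvBdd s f y) : env s f y ≤ f y :=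
  csInf_le hb (self_mem_envSet s f y)

theorem le_env {s : ℝ} {f : E → ℝ} {y : E} {c : ℝ}
    (h : ∀ (ι : Type) [Fintype ι] (w : ι → ℝ) (ξ : ι → E), (∀ i, 0 ≤ w i) → ∑ i, w i = 1 →
      ∑ i, w i • ξ i = 0 → c ≤ ∑ i, w i * (f (y + ξ i) + ‖ξ i‖ ^ 2 / (2 * s))) :
    c ≤ env s f y := by
  refine le_csInf (envSet_nonempty s f y) ?_
  rintro _ ⟨ι, _, w, ξ, hw, h1, h0, rfl⟩
  exact h ι w ξ hw h1 h0

theorem env_approx (s : ℝ) (f : E → ℝ) (y : E) {δ : ℝ} (hδ : 0 < δ) :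
    ∃ (ι : Type) (_ : Fintype ι) (w : ι → ℝ) (ξ : ι → E), (∀ i, 0 ≤ w i) ∧ ∑ i, w i = 1 ∧
      ∑ i, w i • ξ i = 0 ∧
      ∑ i, w i * (f (y + ξ i) + ‖ξ i‖ ^ 2 / (2 * s)) ≤ env s f y + δ := by
  obtain ⟨c, ⟨ι, hι, w, ξ, hw, h1, h0, rfl⟩, hc⟩ :=
    exists_lt_of_csInf_lt (envSet_nonempty s f y) (lt_add_of_pos_right (env s f y) hδ)
  exact ⟨ι, hι, w, ξ, hw, h1, h0, hc.le⟩

/-- An affine minorant of `f (y + ·) + |·|²/2s` bounds every member of `envSet` from below. -/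
theorem le_envSum_of_affine {s : ℝ} {f : E → ℝ} {y : E} {c : ℝ} {p : E}
    (h : ∀ ξ : E, c + ⟪p, ξ⟫ ≤ f (y + ξ) + ‖ξ‖ ^ 2 / (2 * s)) {ι : Type} [Fintype ι]
    (w : ι → ℝ) (ξ : ι → E) (hw : ∀ i, 0 ≤ w i) (h1 : ∑ i, w i = 1) (h0 : ∑ i, w i • ξ i = 0) :
    c ≤ ∑ i, w i * (f (y + ξ i) + ‖ξ i‖ ^ 2 / (2 * s)) := by
  have h2 : ∑ i, w i * (c + ⟪p, ξ i⟫) = c := by
    have : ∑ i, w i * ⟪p, ξ i⟫ = ⟪p, ∑ i, w i • ξ i⟫ := by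
      rw [inner_sum]; exact Finset.sum_congr rfl fun i _ => by rw [real_inner_smul_right]
    simp only [mul_add, Finset.sum_add_distrib, ← Finset.sum_mul, h1, this, h0]
    simp
  rw [← h2]
  exact Finset.sum_le_sum fun i _ => mul_le_mul_of_nonneg_left (h _) (hw i)

theorem envBdd_of_affine {s : ℝ} {f : E → ℝ} {y : E} {c : ℝ} {p : E}
    (h : ∀ ξ : E, c + ⟪p, ξ⟫ ≤ f (y + ξ) + ‖ξ‖ ^ 2 / (2 * s)) : EnvBdd s f y :=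
  ⟨c, by
    rintro _ ⟨ι, _, w, ξ, hw, h1, h0, rfl⟩
    exact le_envSum_of_affine h w ξ hw h1 h0⟩

theorem le_env_of_affine {s : ℝ} {f : E → ℝ} {y : E} {c : ℝ} {p : E}
    (h : ∀ ξ : E, c + ⟪p, ξ⟫ ≤ f (y + ξ) + ‖ξ‖ ^ 2 / (2 * s)) : c ≤ env s f y :=
  le_env fun _ _ w ξ hw h1 h0 => le_envSum_of_affine h w ξ hw h1 h0

theorem Normed.abs_le {W : E × ℝ → ℝ} (hW : Normed W) (ξ : E) {τ : ℝ} (hτ : |τ| ≤ 8) :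
    |W (ξ, τ)| ≤ 8 + ‖ξ‖ ^ 2 / 8 := by
  have := hW τ ξ hτ
  simpa using this

theorem normed_of_abs_le {W : E × ℝ → ℝ}
    (h : ∀ (ξ : E) (τ : ℝ), |τ| ≤ 8 → |W (ξ, τ)| ≤ 8 + ‖ξ‖ ^ 2 / 8) : Normed W := by
  intro τ ξ hτ
  simpa using h ξ τ hτ

theorem ZCls.toZLoc {W : E × ℝ → ℝ} (hW : ZCls W) (R : ℝ) : ZLoc W R :=
  ⟨fun z r _ _ hr _ => hW.flat z r hr,
   fun z _ _ => (hW.cvx z).subset Set.Icc_subset_Ici_self (convex_Icc _ _),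
   fun z _ _ => (hW.ccv z).subset Set.Icc_subset_Ici_self (convex_Icc _ _)⟩

theorem ZLoc.mono {W : E × ℝ → ℝ} {R R' : ℝ} (hW : ZLoc W R) (h : R' ≤ R) : ZLoc W R' :=
  ⟨fun z r h1 h2 hr h3 => hW.flat z r (h1.trans h) (h2.trans h) hr (h3.trans h),
   fun z h1 h2 => (hW.cvx z (h1.trans h) (h2.trans h)).subset
     (Set.Icc_subset_Icc_right h) (convex_Icc _ _),
   fun z h1 h2 => (hW.ccv z (h1.trans h) (h2.trans h)).subset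
     (Set.Icc_subset_Icc_right h) (convex_Icc _ _)⟩

/-- `|a + b|²/(s + σ) ≤ |a|²/s + |b|²/σ`. -/
theorem norm_add_sq_div_le (a b : E) {s σ : ℝ} (hs : 0 < s) (hσ : 0 < σ) :
    ‖a + b‖ ^ 2 / (s + σ) ≤ ‖a‖ ^ 2 / s + ‖b‖ ^ 2 / σ := by
  have h1 : ‖a + b‖ ^ 2 ≤ (‖a‖ + ‖b‖) ^ 2 :=
    pow_le_pow_left₀ (norm_nonneg _) (norm_add_le a b) 2
  rw [div_add_div _ _ hs.ne' hσ.ne', div_le_div_iff₀ (by positivity) (by positivity)]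
  have h2 : (‖a‖ + ‖b‖) ^ 2 * (s * σ) ≤ (‖a‖ ^ 2 * σ + s * ‖b‖ ^ 2) * (s + σ) := by
    nlinarith [sq_nonneg (‖a‖ * σ - ‖b‖ * s)]
  have h3 : ‖a + b‖ ^ 2 * (s * σ) ≤ (‖a‖ + ‖b‖) ^ 2 * (s * σ) :=
    mul_le_mul_of_nonneg_right h1 (by positivity)
  linarith

end Crest.Agent.R94
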