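import Crest.Agent.R94.Basic

/-! Row 94: Campanato's criterion for a Hoelder gradient. -/

set_option autoImplicit false

open scoped RealInnerProductSpace
open Filter Topology Set

namespace Crest.Agent.R94

variable {E : Type*} [NormedAddCommGroup E] [InnerProductSpace ℝ E]

open scoped Gradient

theorem campanato_two {f : E → ℝ} {ρ β β' e e' : ℝ} {V V' : E} (hρ : 0 < ρ)
    (h : ∀ ξ : E, ‖ξ‖ ≤ ρ → |f ξ - β - ⟪V, ξ⟫| ≤ e)
    (h' : ∀ ξ : E, ‖ξ‖ ≤ ρ → |f ξ - β' - ⟪V', ξ⟫| ≤ e') : ρ * ‖V - V'‖ ≤ e + e' := by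
  rcases eq_or_ne (V - V') 0 with hD | hD
  · have h1 := (abs_nonneg _).trans (h 0 (by simpa using hρ.le))
    have h2 := (abs_nonneg _).trans (h' 0 (by simpa using hρ.le))
    rw [hD, norm_zero, mul_zero]; linarith
  · have h0 : 0 < ‖V - V'‖ := norm_pos_iff.2 hD
    set ξ : E := (ρ / ‖V - V'‖) • (V - V') with hξ
    have hn : ‖ξ‖ ≤ ρ := by
      rw [hξ, norm_smul, Real.norm_eq_abs, abs_of_pos (by positivity), div_mul_cancel₀ _ h0.ne']
    have hi : ⟪V, ξ⟫ - ⟪V', ξ⟫ = ρ * ‖V - V'‖ := by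
      rw [← inner_sub_left, hξ, inner_smul_right, real_inner_self_eq_norm_sq]
      field_simp
    have h1 := abs_le.1 (h ξ hn)
    have h2 := abs_le.1 (h' ξ hn)
    have h3 := abs_le.1 (h (-ξ) (by rwa [norm_neg]))
    have h4 := abs_le.1 (h' (-ξ) (by rwa [norm_neg]))
    rw [inner_neg_right] at h3 h4
    linarith [h1.1, h2.2, h3.2, h4.1]

theorem campanato_near {q Q ρ₀ r : ℝ} (hq0 : 0 < q) (hq1 : q < 1) (hQ : 1 < Q) (hρ₀ : 0 < ρ₀)
    (hr : 0 < r) (hr' : r ≤ ρ₀) : ∃ k : ℕ, r ≤ ρ₀ / Q ^ k ∧ ρ₀ / Q ^ k ≤ Q * r ∧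
      q ^ k ≤ (Q * r / ρ₀) ^ (-Real.log q / Real.log Q) := by
  obtain ⟨k, h1, h2⟩ := exists_nat_pow_near ((one_le_div hr).2 hr') hQ
  have hQ0 : 0 < Q := by linarith
  have hk : 0 < Q ^ k := by positivity
  have h3 : ρ₀ / Q ^ k ≤ Q * r := by
    rw [div_lt_iff₀ hr, pow_succ] at h2
    rw [div_le_iff₀ hk]; nlinarith
  refine ⟨k, ?_, h3, ?_⟩
  · rw [le_div_iff₀ hr] at h1
    rw [le_div_iff₀ hk]; linarith
  · have hl : 0 < Real.log Q := Real.log_pos hQ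
    have ha : 0 ≤ -Real.log q / Real.log Q :=
      div_nonneg (by linarith [Real.log_neg hq0 hq1]) hl.le
    have e : q ^ k = ((Q ^ k)⁻¹) ^ (-Real.log q / Real.log Q) := by
      rw [Real.rpow_def_of_pos (by positivity), Real.log_inv, Real.log_pow,
        show -(k * Real.log Q) * (-Real.log q / Real.log Q) = k * Real.log q by field_simp,
        Real.exp_nat_mul, Real.exp_log hq0]
    rw [e]
    refine Real.rpow_le_rpow (by positivity) ?_ ha
    rw [le_div_iff₀ hρ₀, mul_comm, ← div_eq_mul_inv]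
    exact h3

theorem campanato [CompleteSpace E] (q Q ρ₀ : ℝ) (hq0 : 0 < q) (hq1 : q < 1) (hQ : 1 < Q)
    (hρ₀ : 0 < ρ₀) : ∃ α C : ℝ, 0 < α ∧ α ≤ 1 / 3 ∧ ∀ v : E → ℝ, LipschitzWith 1 v →
      (∀ y ∈ Metric.ball (0 : E) 2⁻¹, ∀ k : ℕ, ∃ (β : ℝ) (V : E), ∀ ξ : E, ‖ξ‖ ≤ ρ₀ / Q ^ k →
        |v (y + ξ) - β - ⟪V, ξ⟫| ≤ q ^ k * (ρ₀ / Q ^ k)) →
      (∀ x ∈ Metric.ball (0 : E) 2⁻¹, DifferentiableAt ℝ v x) ∧
      ∀ x ∈ Metric.ball (0 : E) 2⁻¹, ∀ y ∈ Metric.ball (0 : E) 2⁻¹,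
        ‖∇ v x‖ ≤ C ∧ ‖∇ v x - ∇ v y‖ ≤ C * ‖x - y‖ ^ α := by
  have hQ0 : 0 < Q := by linarith
  set a := -Real.log q / Real.log Q with ha
  have ha0 : 0 < a := div_pos (by linarith [Real.log_neg hq0 hq1]) (Real.log_pos hQ)
  set M := 2 * Q / (1 - q) with hM
  have hM0 : 0 < M := div_pos (by positivity) (by linarith)
  refine ⟨min a (1 / 3), 1 + (4 + 2 * M) * (Q * 2 / ρ₀) ^ a, lt_min ha0 (by norm_num),
    min_le_right _ _, fun v hv h => ?_⟩
  choose! β V hV using h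
  have hρ : ∀ k : ℕ, 0 < ρ₀ / Q ^ k := fun k => by positivity
  have hG : ∀ y ∈ Metric.ball (0 : E) 2⁻¹, ∃ G : E, ∀ k, ‖V y k - G‖ ≤ M * q ^ k := by
    intro y hy
    have hstep : ∀ k, dist (V y k) (V y (k + 1)) ≤ 2 * Q * q ^ k := by
      intro k
      have e : ρ₀ / Q ^ k = Q * (ρ₀ / Q ^ (k + 1)) := by rw [pow_succ]; field_simp
      have hle : ρ₀ / Q ^ (k + 1) ≤ ρ₀ / Q ^ k := by rw [e]; nlinarith [hρ (k + 1)]
      have h1 := campanato_two (f := fun ξ => v (y + ξ)) (hρ (k + 1))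
        (fun ξ hξ => hV y hy k ξ (hξ.trans hle)) (hV y hy (k + 1))
      have h2 : q ^ (k + 1) * (ρ₀ / Q ^ (k + 1)) ≤ q ^ k * (ρ₀ / Q ^ k) :=
        mul_le_mul (pow_le_pow_of_le_one hq0.le hq1.le (Nat.le_succ k)) hle (hρ _).le
          (by positivity)
      rw [dist_eq_norm]
      refine le_of_mul_le_mul_left ?_ (hρ (k + 1))
      rw [e] at h1 h2
      linarith
    obtain ⟨G, hG⟩ := cauchySeq_tendsto_of_complete (cauchySeq_of_le_geometric q _ hq1 hstep)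
    refine ⟨G, fun k => ?_⟩
    have := dist_le_of_le_geometric_of_tendsto q _ hq1 hstep hG k
    rw [dist_eq_norm] at this
    refine this.trans (le_of_eq ?_)
    rw [hM]; ring
  choose! G hG using hG
  have hgrad : ∀ y ∈ Metric.ball (0 : E) 2⁻¹, HasGradientAt v (G y) y := by
    intro y hy
    have hb : ∀ ξ : E, ‖ξ‖ ≤ ρ₀ →
        |v (y + ξ) - v y - ⟪G y, ξ⟫| ≤ (2 * Q + M) * (Q * ‖ξ‖ / ρ₀) ^ a * ‖ξ‖ := by
      intro ξ hξ
      rcases eq_or_ne ξ 0 with rfl | h0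
      · simp
      have hξ0 : 0 < ‖ξ‖ := norm_pos_iff.2 h0
      obtain ⟨k, h1, h2, h3⟩ := campanato_near hq0 hq1 hQ hρ₀ hξ0 hξ
      have h4 := abs_le.1 (hV y hy k ξ h1)
      have h5 := abs_le.1 (hV y hy k 0 (by simpa using (hρ k).le))
      rw [add_zero, inner_zero_right] at h5
      have h6 := abs_le.1 ((abs_real_inner_le_norm (V y k - G y) ξ).trans
        (mul_le_mul_of_nonneg_right (hG y hy k) hξ0.le))
      rw [inner_sub_left] at h6
      have h7 : q ^ k * (ρ₀ / Q ^ k) ≤ q ^ k * (Q * ‖ξ‖) :=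
        mul_le_mul_of_nonneg_left h2 (by positivity)
      have h8 : (2 * Q + M) * q ^ k * ‖ξ‖ ≤ (2 * Q + M) * (Q * ‖ξ‖ / ρ₀) ^ a * ‖ξ‖ := by
        gcongr
      rw [abs_le]
      constructor <;> nlinarith [h4.1, h4.2, h5.1, h5.2, h6.1, h6.2]
    have hc : Tendsto (fun ξ : E => (2 * Q + M) * (Q * ‖ξ‖ / ρ₀) ^ a) (𝓝 0) (𝓝 0) := by
      have h1 : Continuous fun ξ : E => (2 * Q + M) * (Q * ‖ξ‖ / ρ₀) ^ a :=
        continuous_const.mul (Continuous.rpow_const (by fun_prop) fun _ => Or.inr ha0.le)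
      simpa [Real.zero_rpow ha0.ne'] using h1.tendsto 0
    rw [HasGradientAt, HasGradientAtFilter, ← HasFDerivAt, hasFDerivAt_iff_isLittleO_nhds_zero,
      Asymptotics.isLittleO_iff]
    intro c hc0
    filter_upwards [hc.eventually (ge_mem_nhds hc0), Metric.closedBall_mem_nhds (0 : E) hρ₀]
      with ξ h1 h2
    rw [InnerProductSpace.toDual_apply_apply, Real.norm_eq_abs]
    exact (hb ξ (mem_closedBall_zero_iff.1 h2)).trans
      (mul_le_mul_of_nonneg_right h1 (norm_nonneg _))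
  have hG1 : ∀ y ∈ Metric.ball (0 : E) 2⁻¹, ‖G y‖ ≤ 1 := by
    intro y hy
    have h1 := (hgrad y hy).hasFDerivAt.le_of_lipschitz hv
    simpa using h1
  have hC0 : 0 ≤ (4 + 2 * M) * (Q * 2 / ρ₀) ^ a := by positivity
  refine ⟨fun x hx => (hgrad x hx).differentiableAt, fun x hx y hy => ?_⟩
  rw [(hgrad x hx).gradient, (hgrad y hy).gradient]
  refine ⟨(hG1 x hx).trans (by linarith), ?_⟩
  rcases eq_or_ne x y with rfl | hxy
  · rw [sub_self, norm_zero]; positivity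
  have hd : 0 < ‖x - y‖ := norm_pos_iff.2 (sub_ne_zero.2 hxy)
  have hd1 : ‖x - y‖ ≤ 1 := by
    have := norm_sub_le x y
    linarith [mem_ball_zero_iff.1 hx, mem_ball_zero_iff.1 hy]
  have key : ‖G x - G y‖ ≤ (4 + 2 * M) * (Q * (2 * ‖x - y‖) / ρ₀) ^ a := by
    rcases le_or_gt (2 * ‖x - y‖) ρ₀ with hle | hlt
    · obtain ⟨k, h1, -, h3⟩ := campanato_near hq0 hq1 hQ hρ₀ (by positivity) hle
      have h4 := campanato_two (f := fun ξ => v (x + ξ)) (β' := β y k + ⟪V y k, x - y⟫)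
        (V' := V y k) (e' := q ^ k * (ρ₀ / Q ^ k)) (half_pos (hρ k))
        (fun ξ hξ => hV x hx k ξ (hξ.trans (half_le_self (hρ k).le))) (fun ξ hξ => by
          have := hV y hy k (x - y + ξ) ((norm_add_le _ _).trans (by linarith))
          rwa [inner_add_right, ← add_assoc, add_sub_cancel, ← sub_sub, sub_sub (v _)] at this)
      have h5 : ‖V x k - V y k‖ ≤ 4 * q ^ k := by
        refine le_of_mul_le_mul_left ?_ (half_pos (hρ k))
        linarith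
      have h6 : G x - G y = (V x k - V y k) - (V x k - G x) + (V y k - G y) := by abel
      have h7 := (norm_add_le _ _).trans
        (add_le_add_left (norm_sub_le (V x k - V y k) (V x k - G x)) ‖V y k - G y‖)
      rw [← h6] at h7
      refine le_trans ?_ (mul_le_mul_of_nonneg_left h3 (by positivity))
      linarith [hG x hx k, hG y hy k]
    · have h1 : 1 ≤ (Q * (2 * ‖x - y‖) / ρ₀) ^ a := by
        refine Real.one_le_rpow ?_ ha0.le
        rw [one_le_div hρ₀]; nlinarith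
      have h2 := norm_sub_le (G x) (G y)
      nlinarith [hG1 x hx, hG1 y hy]
  have e : (Q * (2 * ‖x - y‖) / ρ₀) ^ a = (Q * 2 / ρ₀) ^ a * ‖x - y‖ ^ a := by
    rw [← Real.mul_rpow (by positivity) hd.le]; congr 1; ring
  have h9 : ‖x - y‖ ^ a ≤ ‖x - y‖ ^ min a (1 / 3) :=
    Real.rpow_le_rpow_of_exponent_ge hd hd1 (min_le_left _ _)
  have h10 : 0 ≤ ‖x - y‖ ^ min a (1 / 3) := by positivity
  rw [e, ← mul_assoc] at key
  nlinarith [mul_le_mul_of_nonneg_left h9 hC0]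

end Crest.Agent.R94
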