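import Crest.Agent.R94.Frames

/-! Row 94: growth of the frame parameters. -/

set_option autoImplicit false

open scoped RealInnerProductSpace
open Filter Topology Set

namespace Crest.Agent.R94

variable {E : Type*} [NormedAddCommGroup E] [InnerProductSpace ℝ E]

private theorem growth_sq_le (n : ℕ) : ((n : ℝ) + 1) ^ 2 ≤ 4 * 2 ^ n := by
  have h : ∀ k : ℕ, (k + 1) ^ 2 ≤ 4 * 2 ^ k := by
    intro k
    induction k with
    | zero => norm_num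
    | succ k ih =>
      rcases Nat.lt_or_ge k 2 with h | h
      · interval_cases k <;> norm_num
      · rw [pow_succ 2 k]
        nlinarith
  exact_mod_cast h n

/-- Logarithmic growth of the frame parameters, local form. -/
theorem frame_growth : ∃ (C : ℝ) (c : ℕ), 0 < C ∧ ∀ (W : E × ℝ → ℝ) (R : ℝ) (m M : ℕ)
    (z : E × ℝ) (r : ℝ) (V : E) (h β : ℝ), ZLoc W R → Normed W → 2 ^ (2 * m + c) ≤ R →
    ‖z.1‖ ≤ 2 ^ m → |z.2| ≤ 2 ^ m → (1 / 2) ^ M ≤ r → r ≤ 2 ^ m → IsFrame W z r 1 V h β →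
    ‖V‖ ≤ C * (m + M + 1) ∧ |h| ≤ C * (m + M + 1) := by
  obtain ⟨C1, hC1, H1⟩ := frame_cmp (E := E)
  obtain ⟨C2, hC2, H2⟩ := frame_chain (E := E)
  obtain ⟨c, hc⟩ := exists_nat_ge (4 * (1 + 2 * C2))
  have hc3 : 3 ≤ c := by
    have : (3 : ℝ) ≤ c := by linarith
    exact_mod_cast this
  refine ⟨C1 + C2 * (2 * c + 6), c, by positivity, ?_⟩
  intro W R m M z r V h β hW hN hR hz1 hz2 hr1 hr2 hF
  have hm0 : (0 : ℝ) ≤ m := Nat.cast_nonneg m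
  have hM0 : (0 : ℝ) ≤ M := Nat.cast_nonneg M
  have hc0 : (0 : ℝ) ≤ c := Nat.cast_nonneg c
  have hr0 : 0 < r := lt_of_lt_of_le (by positivity) hr1
  set ρ : ℝ := 2 ^ (2 * m + c) with hρ
  have hρ0 : 0 < ρ := by positivity
  have hm1 : (0 : ℝ) < 2 ^ m := by positivity
  have hρ8 : 8 ≤ ρ := by
    calc (8 : ℝ) = 2 ^ 3 := by norm_num
      _ ≤ ρ := pow_le_pow_right₀ one_le_two (by omega)
  have hmρ : (2 : ℝ) ^ m ≤ ρ / 2 := by
    have : (2 : ℝ) ^ (m + 1) ≤ ρ := pow_le_pow_right₀ one_le_two (by omega)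
    rw [pow_succ] at this
    linarith
  have hkey : 1 + C2 * (2 * m + c + 1) ≤ 2 ^ (m + c) := by
    have h1 := growth_sq_le (m + c)
    push_cast at h1
    have h2 : 4 * (1 + 2 * C2) * ((m : ℝ) + c + 1) ≤ ((m : ℝ) + c + 1) * ((m : ℝ) + c + 1) :=
      mul_le_mul_of_nonneg_right (by linarith) (by positivity)
    nlinarith [mul_nonneg hC2.le hc0]
  have hR0 : 0 ≤ R := hρ0.le.trans hR
  have hf0 : ∀ s : ℝ, 0 < s → s ≤ ρ → Flat W ((0 : E), (0 : ℝ)) s 1 := fun s hs hs' =>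
    hW.flat _ s (by simpa using hR0) (by simpa using hR0) hs (hs'.trans hR)
  have hfz : ∀ s : ℝ, 0 < s → s ≤ ρ / 2 → Flat W z s 1 := fun s hs hs' =>
    hW.flat z s (by linarith) (by linarith) hs (by linarith)
  obtain ⟨V1, h1, β1, hF1⟩ := hf0 ρ hρ0 le_rfl
  obtain ⟨V2, h2, β2, hF2⟩ := hfz (ρ / 2) (by positivity) le_rfl
  obtain ⟨a1, a2⟩ := H2 W (0, 0) (2 * m + c) 8 ρ 0 V1 0 h1 0 β1 (by norm_num) hρ8
    (by rw [← hρ]; linarith) hf0 hN hF1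
  rw [sub_zero] at a1 a2
  push_cast at a1 a2
  obtain ⟨b1, b2⟩ := H1 W (0, 0) z ρ (ρ / 2) V1 V2 h1 h2 β1 β2 hρ0 hF1 hF2
    (by simpa using hz2.trans hmρ) (by
      simp only [sub_zero]
      calc ‖z.1 - z.2 • V1‖ ≤ ‖z.1‖ + ‖z.2 • V1‖ := norm_sub_le _ _
        _ = ‖z.1‖ + |z.2| * ‖V1‖ := by rw [norm_smul, Real.norm_eq_abs]
        _ ≤ 2 ^ m + 2 ^ m * (C2 * (2 * m + c + 1)) :=
          add_le_add hz1 (mul_le_mul hz2 a1 (norm_nonneg _) hm1.le)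
        _ = 2 ^ m * (1 + C2 * (2 * m + c + 1)) := by ring
        _ ≤ 2 ^ m * 2 ^ (m + c) := mul_le_mul_of_nonneg_left hkey hm1.le
        _ = ρ := by rw [hρ, ← pow_add]; congr 1; ring)
    (by linarith) le_rfl
  obtain ⟨d1, d2⟩ := H2 W z (2 * m + c + M) r (ρ / 2) V V2 h h2 β β2 hr0 (hr2.trans hmρ) (by
      have h3 : (1 : ℝ) ≤ 2 ^ M * r := by
        calc (1 : ℝ) = 2 ^ M * (1 / 2) ^ M := by rw [← mul_pow]; norm_num
          _ ≤ 2 ^ M * r := mul_le_mul_of_nonneg_left hr1 (by positivity)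
      rw [pow_add, ← hρ, mul_assoc]
      nlinarith) hfz hF hF2
  push_cast at d1 d2
  have hfin : C2 * (2 * m + c + M + 1) + C1 + C2 * (2 * m + c + 1) ≤
      (C1 + C2 * (2 * c + 6)) * (m + M + 1) := by
    have e1 := mul_nonneg hC1.le (add_nonneg hm0 hM0)
    have e2 := mul_nonneg hC2.le hm0
    have e3 := mul_nonneg hC2.le hM0
    have e4 := mul_nonneg (mul_nonneg hC2.le hc0) (add_nonneg hm0 hM0)
    nlinarith
  constructor
  · have e : V = -(V2 - V) + (V2 - V1) + V1 := by abel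
    calc ‖V‖ = ‖-(V2 - V) + (V2 - V1) + V1‖ := by rw [← e]
      _ ≤ ‖-(V2 - V)‖ + ‖V2 - V1‖ + ‖V1‖ := norm_add₃_le
      _ ≤ _ := by rw [norm_neg]; linarith
  · rw [abs_le] at a2 b2 d2 ⊢
    constructor <;> linarith [a2.1, a2.2, b2.1, b2.2, d2.1, d2.2]

/-- Growth of the frame parameters in the entire class. -/
theorem frame_growth_sqrt : ∃ C : ℝ, 0 < C ∧ ∀ (W : E × ℝ → ℝ) (M : ℕ) (y : E) (t r : ℝ)
    (V : E) (h β : ℝ), ZCls W → Normed W → |t| ≤ 2 → (1 / 2) ^ M ≤ r → r ≤ 16 →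
    IsFrame W (y, t) r 1 V h β →
    ‖V‖ ≤ C * (M + √(1 + ‖y‖)) ∧ |h| ≤ C * (M + √(1 + ‖y‖)) := by
  obtain ⟨C, c, hC, H⟩ := frame_growth (E := E)
  refine ⟨12 * C, by positivity, ?_⟩
  intro W M y t r V h β hW hN ht hr1 hr2 hF
  have hy := norm_nonneg y
  obtain ⟨n, hn1, hn2⟩ := exists_nat_pow_near (x := 16 + ‖y‖) (y := (2 : ℝ)) (by linarith)
    one_lt_two
  obtain ⟨a1, a2⟩ := H W (2 ^ (2 * (n + 1) + c)) (n + 1) M (y, t) r V h β (hW.toZLoc _) hN le_rfl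
    (by simp only; linarith) (by simp only; linarith) hr1 (by linarith) hF
  have h1 : ((n + 1 : ℕ) : ℝ) + 1 ≤ 12 * √(1 + ‖y‖) := by
    have h2 := growth_sq_le (n + 1)
    rw [pow_succ 2 n] at h2
    refine (pow_le_pow_iff_left₀ (by positivity) (by positivity) two_ne_zero).1 ?_
    rw [mul_pow, Real.sq_sqrt (by positivity)]
    linarith
  have h3 : C * (((n + 1 : ℕ) : ℝ) + M + 1) ≤ 12 * C * (M + √(1 + ‖y‖)) := by
    have hM0 : (0 : ℝ) ≤ M := Nat.cast_nonneg M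
    nlinarith [mul_le_mul_of_nonneg_left h1 hC.le, mul_nonneg hC.le hM0]
  exact ⟨a1.trans h3, a2.trans h3⟩

end Crest.Agent.R94
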