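import Crest.Agent.R94.FrameEst

/-! Row 94: Galilean change of frame and rescaling. -/

set_option autoImplicit false

open scoped RealInnerProductSpace
open Filter Topology Set

namespace Crest.Agent.R94

variable {E : Type*} [NormedAddCommGroup E] [InnerProductSpace ℝ E]

theorem resc_ciSup {f g : E → ℝ} {e : E → E} (he : Function.Surjective e) {k c : ℝ} (hc : 0 < c)
    (hb : BddAbove (Set.range f)) (hg : ∀ D, g D = (f (e D) - k) / c) :
    ⨆ D, g D = ((⨆ D, f D) - k) / c := by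
  have h1 : ∀ D, g D ≤ ((⨆ D, f D) - k) / c := fun D => by
    rw [hg]
    exact div_le_div_of_nonneg_right (sub_le_sub_right (le_ciSup hb _) _) hc.le
  refine le_antisymm (ciSup_le h1) ?_
  rw [div_le_iff₀ hc, sub_le_iff_le_add]
  refine ciSup_le fun D => ?_
  obtain ⟨D, rfl⟩ := he D
  have h2 : g D ≤ ⨆ D, g D := le_ciSup ⟨_, by rintro _ ⟨D, rfl⟩; exact h1 D⟩ D
  rwa [hg, div_le_iff₀ hc, sub_le_iff_le_add] at h2

theorem resc_ciInf {f g : E → ℝ} {e : E → E} (he : Function.Surjective e) {k c : ℝ} (hc : 0 < c)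
    (hb : BddBelow (Set.range f)) (hg : ∀ D, g D = (f (e D) - k) / c) :
    ⨅ D, g D = ((⨅ D, f D) - k) / c := by
  have h1 : ∀ D, ((⨅ D, f D) - k) / c ≤ g D := fun D => by
    rw [hg]
    exact div_le_div_of_nonneg_right (sub_le_sub_right (ciInf_le hb _) _) hc.le
  refine le_antisymm ?_ (le_ciInf h1)
  rw [le_div_iff₀ hc, le_sub_iff_add_le]
  refine le_ciInf fun D => ?_
  obtain ⟨D, rfl⟩ := he D
  have h2 : ⨅ D, g D ≤ g D := ciInf_le ⟨_, by rintro _ ⟨D, rfl⟩; exact h1 D⟩ D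
  rwa [hg, le_div_iff₀ hc, le_sub_iff_add_le] at h2

theorem resc_surj (V : E) {l : ℝ} (hl : 0 < l) : Function.Surjective fun D : E => V + l • D :=
  fun U => ⟨l⁻¹ • (U - V), by simp [smul_smul, mul_inv_cancel₀ hl.ne']⟩

theorem resc_norm_sq (V D : E) (l : ℝ) :
    ‖V + l • D‖ ^ 2 = ‖V‖ ^ 2 + 2 * (l * ⟪V, D⟫) + l ^ 2 * ‖D‖ ^ 2 := by
  rw [norm_add_sq_real, real_inner_smul_right, norm_smul, mul_pow, Real.norm_eq_abs, sq_abs]

section
variable {W : E × ℝ → ℝ} {z : E × ℝ} {r l : ℝ} {V : E} {h β : ℝ}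

theorem resc_move (p : E × ℝ) (τ : ℝ) (D ξ : E) :
    resc W z r l V h β (p.1 + τ • D + ξ, p.2 + τ) =
      (W ((pt z r l V p).1 + (r * τ) • (V + l • D) + (r * l) • ξ, (pt z r l V p).2 + r * τ) -
        (aff r l V h β p + r * l * (τ * ⟪V, D⟫ + ⟪V, ξ⟫) + (h + ‖V‖ ^ 2 / 2) * (r * τ))) /
        (l ^ 2 * r) := by
  have e1 : pt z r l V (p.1 + τ • D + ξ, p.2 + τ) =
      ((pt z r l V p).1 + (r * τ) • (V + l • D) + (r * l) • ξ, (pt z r l V p).2 + r * τ) := by
    refine Prod.ext ?_ ?_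
    · simp only [pt]
      module
    · simp only [pt]
      ring
  rw [resc, e1]
  simp only [aff, inner_add_right, real_inner_smul_right]
  ring

theorem isFrame_resc_iff (hr : 0 < r) (hl : 0 < l) {p : E × ℝ} {r₁ a : ℝ} (hr₁ : 0 < r₁) {V₁ : E}
    {h₁ β₁ : ℝ} : IsFrame (resc W z r l V h β) p r₁ a V₁ h₁ β₁ ↔
    IsFrame W (pt z r l V p) (r * r₁) (a * l ^ 2) (V + l • V₁) (h + l ^ 2 * h₁)
      (aff r l V h β p + l ^ 2 * r * β₁) := by
  have hc : 0 < l ^ 2 * r := by positivity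
  have key : ∀ (τ : ℝ) (ξ : E),
      |resc W z r l V h β (p.1 + τ • V₁ + ξ, p.2 + τ) - β₁ - ⟪V₁, ξ⟫ - (h₁ + ‖V₁‖ ^ 2 / 2) * τ| ≤
        a * r₁ + ‖ξ‖ ^ 2 / r₁ ↔
      |W ((pt z r l V p).1 + (r * τ) • (V + l • V₁) + (r * l) • ξ, (pt z r l V p).2 + r * τ) -
        (aff r l V h β p + l ^ 2 * r * β₁) - ⟪V + l • V₁, (r * l) • ξ⟫ -
        (h + l ^ 2 * h₁ + ‖V + l • V₁‖ ^ 2 / 2) * (r * τ)| ≤
        a * l ^ 2 * (r * r₁) + ‖(r * l) • ξ‖ ^ 2 / (r * r₁) := by
    intro τ ξ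
    rw [resc_move, resc_norm_sq, norm_smul, mul_pow, Real.norm_eq_abs, sq_abs,
      real_inner_smul_right, inner_add_left, real_inner_smul_left]
    generalize W _ = w
    rw [← mul_le_mul_iff_right₀ hc, ← abs_of_pos hc, ← abs_mul, abs_of_pos hc]
    refine iff_of_eq (congrArg₂ _ (congrArg _ ?_) ?_)
    · field_simp
      ring
    · field_simp
  constructor
  · intro hF τ ξ hτ
    have h1 := (key (τ / r) ((r * l)⁻¹ • ξ)).1 (hF _ _ (by
      rwa [abs_div, abs_of_pos hr, div_le_iff₀' hr]))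
    rwa [smul_smul, mul_inv_cancel₀ (by positivity), one_smul, mul_div_cancel₀ _ hr.ne'] at h1
  · intro hF τ ξ hτ
    refine (key τ ξ).2 (hF _ _ ?_)
    rw [abs_mul, abs_of_pos hr]
    exact mul_le_mul_of_nonneg_left hτ hr.le

theorem Tup_resc (hr : 0 < r) (hl : 0 < l) {s : ℝ} (hs : 0 ≤ s) {p : E × ℝ}
    (hb : UpBdd W (r * s) (pt z r l V p)) :
    Tup (resc W z r l V h β) s p =
      (Tup W (r * s) (pt z r l V p) - aff r l V h β p - h * (r * s)) / (l ^ 2 * r) := by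
  rw [sub_sub]
  refine resc_ciSup (resc_surj V hl) (by positivity) hb fun D => ?_
  have h1 := resc_move (W := W) (z := z) (r := r) (l := l) (V := V) (h := h) (β := β) p s D 0
  simp only [smul_zero, add_zero, inner_zero_right] at h1
  rw [h1, resc_norm_sq]
  field_simp
  ring

theorem Tdn_resc (hr : 0 < r) (hl : 0 < l) {s : ℝ} (hs : 0 ≤ s) {p : E × ℝ}
    (hb : DnBdd W (r * s) (pt z r l V p)) :
    Tdn (resc W z r l V h β) s p =
      (Tdn W (r * s) (pt z r l V p) - aff r l V h β p + h * (r * s)) / (l ^ 2 * r) := by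
  rw [sub_add]
  refine resc_ciInf (resc_surj V hl) (by positivity) hb fun D => ?_
  have h1 := resc_move (W := W) (z := z) (r := r) (l := l) (V := V) (h := h) (β := β) p (-s) D 0
  simp only [smul_zero, add_zero, inner_zero_right, mul_neg, neg_smul, ← sub_eq_add_neg] at h1
  rw [h1, resc_norm_sq]
  field_simp
  ring

theorem IsFrame.to_resc (hr : 0 < r) (hl : 0 < l) {p : E × ℝ} {r₁ a : ℝ} (hr₁ : 0 < r₁) {V₁ : E}
    {h₁ β₁ : ℝ} (hF : IsFrame W (pt z r l V p) (r * r₁) a V₁ h₁ β₁) :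
    IsFrame (resc W z r l V h β) p r₁ (a / l ^ 2) (l⁻¹ • (V₁ - V)) ((h₁ - h) / l ^ 2)
      ((β₁ - aff r l V h β p) / (l ^ 2 * r)) := by
  rw [isFrame_resc_iff hr hl hr₁, smul_smul, mul_inv_cancel₀ hl.ne', one_smul, add_sub_cancel,
    div_mul_cancel₀ _ (by positivity), mul_div_cancel₀ _ (by positivity),
    mul_div_cancel₀ _ (by positivity), add_sub_cancel, add_sub_cancel]
  exact hF

theorem IsFrame.normed_resc (hr : 0 < r) (hl : 0 < l)
    (hF : IsFrame W z (8 * r) (l ^ 2) V h β) : Normed (resc W z r l V h β) := by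
  rw [Normed, isFrame_resc_iff hr hl (by norm_num), mul_comm r]
  simpa [pt, aff] using hF

theorem IsFrame.of_resc (hr : 0 < r) (hl : 0 < l) {p : E × ℝ} {r₁ a : ℝ} (hr₁ : 0 < r₁) {V₁ : E}
    {h₁ β₁ : ℝ} (hF : IsFrame (resc W z r l V h β) p r₁ a V₁ h₁ β₁) :
    IsFrame W (pt z r l V p) (r * r₁) (a * l ^ 2) (V + l • V₁) (h + l ^ 2 * h₁)
      (aff r l V h β p + l ^ 2 * r * β₁) :=
  (isFrame_resc_iff hr hl hr₁).1 hF

theorem pt_zero : pt z r l V (0, 0) = z := by
  simp [pt]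

theorem ZCls.resc (hW : ZCls W) (hr : 0 < r) (z : E × ℝ) (V : E) (h β : ℝ) :
    ZCls (resc W z r 1 V h β) := by
  refine ⟨fun p r₁ hr₁ => ?_, fun p => ⟨convex_Ici 0, fun x hx y hy a b ha hb hab => ?_⟩,
    fun p => ⟨convex_Ici 0, fun x hx y hy a b ha hb hab => ?_⟩⟩
  · obtain ⟨V₁, h₁, β₁, hF⟩ := hW.flat (pt z r 1 V p) (r * r₁) (by positivity)
    have h1 := hF.to_resc (h := h) (β := β) hr one_pos hr₁
    rw [one_pow, div_one] at h1
    exact ⟨_, _, _, h1⟩
  all_goals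
    have hx' : 0 ≤ x := hx
    have hy' : 0 ≤ y := hy
    have hxy : 0 ≤ a * x + b * y := by positivity
    have e : r * (a * x + b * y) = a * (r * x) + b * (r * y) := by ring
    have hb' : b = 1 - a := by linarith
    simp only [smul_eq_mul]
  · have h1 := (hW.cvx (pt z r 1 V p)).2 (show r * x ∈ Set.Ici 0 from mul_nonneg hr.le hx')
      (show r * y ∈ Set.Ici 0 from mul_nonneg hr.le hy') ha hb hab
    simp only [smul_eq_mul] at h1
    rw [Tup_resc hr one_pos hx' (hW.upBdd (by positivity) _),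
      Tup_resc hr one_pos hy' (hW.upBdd (by positivity) _),
      Tup_resc hr one_pos hxy (hW.upBdd (by positivity) _), ← mul_div_assoc, ← mul_div_assoc,
      ← add_div, e]
    refine div_le_div_of_nonneg_right ?_ (by positivity)
    rw [hb'] at h1 ⊢
    linarith
  · have h1 := (hW.ccv (pt z r 1 V p)).2 (show r * x ∈ Set.Ici 0 from mul_nonneg hr.le hx')
      (show r * y ∈ Set.Ici 0 from mul_nonneg hr.le hy') ha hb hab
    simp only [smul_eq_mul] at h1
    rw [Tdn_resc hr one_pos hx' (hW.dnBdd (by positivity) _),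
      Tdn_resc hr one_pos hy' (hW.dnBdd (by positivity) _),
      Tdn_resc hr one_pos hxy (hW.dnBdd (by positivity) _), ← mul_div_assoc, ← mul_div_assoc,
      ← add_div, e]
    refine div_le_div_of_nonneg_right ?_ (by positivity)
    rw [hb'] at h1 ⊢
    linarith

theorem ZCls.gap_resc (hW : ZCls W) (hr : 0 < r) {s : ℝ} (hs : 0 < s) (p : E × ℝ) :
    gap (Crest.Agent.R94.resc W z r 1 V h β) s p = gap W (r * s) (pt z r 1 V p) / r := by
  have key : ∀ (ι : Type) [Fintype ι] (w : ι → ℝ) (ξ : ι → E), ∑ i, w i = 1 →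
      ∑ i, w i • ξ i = 0 →
      ∑ i, w i * (Crest.Agent.R94.resc W z r 1 V h β (p.1 + ξ i, p.2) + ‖ξ i‖ ^ 2 / (2 * s)) =
        (∑ i, w i * (W ((pt z r 1 V p).1 + r • ξ i, (pt z r 1 V p).2) +
          ‖r • ξ i‖ ^ 2 / (2 * (r * s))) - aff r 1 V h β p) / r := by
    intro ι _ w ξ h1 h0
    have h2 : ∑ i, w i * (aff r 1 V h β p + r * ⟪V, ξ i⟫) = aff r 1 V h β p := by
      have : ∑ i, w i * (r * ⟪V, ξ i⟫) = r * ⟪V, ∑ i, w i • ξ i⟫ := by
        rw [inner_sum, Finset.mul_sum]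
        exact Finset.sum_congr rfl fun i _ => by rw [real_inner_smul_right]; ring
      simp only [mul_add, Finset.sum_add_distrib, ← Finset.sum_mul, h1, this, h0]
      simp
    rw [← h2, ← Finset.sum_sub_distrib, Finset.sum_div]
    refine Finset.sum_congr rfl fun i _ => ?_
    have h3 := resc_move (W := W) (z := z) (r := r) (l := 1) (V := V) (h := h) (β := β) p 0 0 (ξ i)
    simp only [smul_zero, add_zero, mul_zero, zero_smul, mul_one, zero_mul, zero_add, one_pow,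
      one_mul] at h3
    rw [h3, norm_smul, mul_pow, Real.norm_eq_abs, sq_abs]
    field_simp
    ring
  have h1 : env s (fun y => Crest.Agent.R94.resc W z r 1 V h β (y, p.2)) p.1 =
      (env (r * s) (fun y => W (y, (pt z r 1 V p).2)) (pt z r 1 V p).1 - aff r 1 V h β p) / r := by
    refine le_antisymm ?_ (le_env fun ι _ w ξ hw h1 h0 => ?_)
    · rw [le_div_iff₀ hr, le_sub_iff_add_le]
      refine le_env fun ι _ w ξ hw h1 h0 => ?_
      have h0' : ∑ i, w i • r⁻¹ • ξ i = 0 := by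
        simp only [smul_comm (w _) r⁻¹, ← Finset.smul_sum, h0, smul_zero]
      have h2 := env_le ((hW.resc hr z V h β).envBdd_zero hs p.1 p.2) w (fun i => r⁻¹ • ξ i) hw h1
        h0'
      rw [key ι w _ h1 h0'] at h2
      simp only [smul_smul, mul_inv_cancel₀ hr.ne', one_smul] at h2
      rwa [le_div_iff₀ hr, le_sub_iff_add_le] at h2
    · rw [key ι w ξ h1 h0]
      refine div_le_div_of_nonneg_right (sub_le_sub_right ?_ _) hr.le
      refine env_le (hW.envBdd_zero (by positivity) _ _) w (fun i => r • ξ i) hw h1 ?_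
      simp only [smul_comm (w _) r, ← Finset.smul_sum, h0, smul_zero]
  rw [gap, gap, h1, Crest.Agent.R94.resc]
  field_simp
  ring

theorem ZCls.gapLe_resc (hW : ZCls W) (hr : 0 < r) {Λ : ℝ} (hΛ : GapLe W Λ) :
    GapLe (Crest.Agent.R94.resc W z r 1 V h β) Λ := by
  intro p s hs
  rw [hW.gap_resc hr hs, div_le_iff₀ hr]
  exact (hΛ _ _ (by positivity)).trans_eq (by ring)

theorem ZCls.bslope_resc (hW : ZCls W) (hr : 0 < r) {ρ : ℝ} (hρ : 0 < ρ) (p : E × ℝ) :
    bslope (Crest.Agent.R94.resc W z r 1 V h β) p ρ = bslope W (pt z r 1 V p) (r * ρ) - h := by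
  rw [bslope, bslope, Tdn_resc hr one_pos hρ.le (hW.dnBdd (by positivity) _),
    Tdn_resc hr one_pos (by positivity) (hW.dnBdd (by positivity) _), mul_left_comm r 2]
  field_simp
  ring

end

end Crest.Agent.R94
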