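import Crest.Agent.R94.StepAB
import Crest.Agent.R94.Resc
import Crest.Agent.R94.Growth

/-! Row 94: the backward chain of near-contact points. -/

set_option autoImplicit false

open scoped RealInnerProductSpace
open Filter Topology Set

namespace Crest.Agent.R94

variable {E : Type*} [NormedAddCommGroup E] [InnerProductSpace ℝ E]

/-- Step A iterated. -/
theorem chainA [FiniteDimensional ℝ E] : ∃ R₀ : ℝ, 0 < R₀ ∧ ∀ (j : ℕ) (η : ℝ), 0 < η →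
    ∃ μ : ℝ, 0 < μ ∧ ∀ (W : E × ℝ → ℝ) (Λ : ℝ), ZCls W → Λ ≤ 16 → GapLe W Λ →
      ∀ (z : E × ℝ) (s : ℝ), 0 < s → (Λ - μ) * s ≤ gap W s z →
      ∀ (V : E) (h β : ℝ), IsFrame W z (8 * (2 ^ j * s)) 1 V h β →
      ∃ y : E, ‖y - z.1 + ((2 ^ j - 1) * s) • V‖ ≤ R₀ * (2 ^ j * s) ∧
        (Λ - η) * (2 ^ j * s) ≤ gap W (2 ^ j * s) (y, z.2 - (2 ^ j - 1) * s) := by
  obtain ⟨R₁, hR₁, hA⟩ := stepA (E := E)
  obtain ⟨C₁, hC₁, hch⟩ := frame_chain (E := E)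
  obtain ⟨C₂, hC₂, hgr⟩ := frame_growth_sqrt (E := E)
  obtain ⟨R₀, hR₀, hR⟩ : ∃ R₀ : ℝ, 0 < R₀ ∧ 4 * C₁ + C₂ * √(1 + R₀) + R₁ ≤ R₀ := by
    refine ⟨8 * C₁ + 2 * R₁ + C₂ ^ 2 + 1, by positivity, ?_⟩
    have h := Real.sq_sqrt (show 0 ≤ 1 + (8 * C₁ + 2 * R₁ + C₂ ^ 2 + 1) by positivity)
    nlinarith [sq_nonneg (C₂ - √(1 + (8 * C₁ + 2 * R₁ + C₂ ^ 2 + 1)))]
  refine ⟨R₀, hR₀, fun j => ?_⟩
  induction j with
  | zero =>
    intro η hη
    refine ⟨η, hη, fun W Λ _ _ _ z s hs hg V h β _ => ⟨z.1, ?_, ?_⟩⟩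
    · simp only [pow_zero, sub_self, zero_mul, zero_smul, add_zero, norm_zero]
      positivity
    · simpa using hg
  | succ j ih =>
    intro η hη
    obtain ⟨μA, hμA, hA'⟩ := hA η hη
    obtain ⟨μ, hμ, ih'⟩ := ih μA hμA
    refine ⟨μ, hμ, fun W Λ hW hΛ hG z s hs hg V h β hF => ?_⟩
    have h2j : (1 : ℝ) ≤ 2 ^ j := one_le_pow₀ one_le_two
    obtain ⟨σ, hσ⟩ : ∃ σ : ℝ, σ = 2 ^ j * s := ⟨_, rfl⟩
    have hσs : s ≤ σ := by rw [hσ]; nlinarith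
    have hσ0 : 0 < σ := hs.trans_le hσs
    have e1 : (2 : ℝ) ^ (j + 1) * s = σ * 2 := by rw [hσ]; ring
    have e2 : ((2 : ℝ) ^ (j + 1) - 1) * s = σ * 2 - s := by rw [hσ]; ring
    have e3 : ((2 : ℝ) ^ j - 1) * s = σ - s := by rw [hσ]; ring
    rw [e1] at hF
    rw [e1, e2]
    obtain ⟨V₀, h₀, β₀, hF₀⟩ := hW.flat z (8 * σ) (by positivity)
    have b0 : ‖V - V₀‖ ≤ C₁ * 2 := by
      have := (hch W z 1 (8 * σ) (8 * (σ * 2)) V₀ V h₀ h β₀ β (by positivity) (by linarith)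
        (by linarith) (fun ρ hρ _ => hW.flat z ρ hρ) hF₀ hF).1
      norm_num at this
      linarith
    obtain ⟨y, hy1, hy2⟩ := ih' W Λ hW hΛ hG z s hs hg V₀ h₀ β₀ (by rw [← hσ]; exact hF₀)
    rw [← hσ, e3] at hy1 hy2
    obtain ⟨V₁, h₁, β₁, hF₁⟩ := hW.flat (y, z.2 - (σ - s)) (8 * σ) (by positivity)
    obtain ⟨ξ, hξ1, hξ2⟩ := hA' _ Λ (hW.resc hσ0 (y, z.2 - (σ - s)) V₁ h₁ β₁)
      (IsFrame.normed_resc hσ0 one_pos (by rw [one_pow]; exact hF₁)) hΛ (hW.gapLe_resc hσ0 hG)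
      (by rw [hW.gap_resc hσ0 one_pos, pt_zero, mul_one, le_div_iff₀ hσ0]; exact hy2)
    rw [hW.gap_resc hσ0 two_pos, le_div_iff₀ hσ0] at hξ2
    have b1 : ‖V₁ - V₀‖ ≤ C₂ * √(1 + R₀) := by
      have ep : pt z σ 1 V₀ (σ⁻¹ • (y - z.1 + (σ - s) • V₀), -(σ - s) / σ) =
          (y, z.2 - (σ - s)) := by
        have : σ * (-(σ - s) / σ) = -(σ - s) := by field_simp
        simp only [pt, this, mul_one, smul_inv_smul₀ hσ0.ne']
        refine Prod.ext ?_ (by simp only; ring)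
        simp only
        module
      have hF₂ := IsFrame.to_resc (h := h₀) (β := β₀) hσ0 one_pos (r₁ := 8) (by norm_num)
        (show IsFrame W (pt z σ 1 V₀ (σ⁻¹ • (y - z.1 + (σ - s) • V₀), -(σ - s) / σ)) (σ * 8) 1
          V₁ h₁ β₁ by rw [ep, mul_comm]; exact hF₁)
      rw [one_pow, div_one, inv_one, one_smul] at hF₂
      have := (hgr _ 0 _ _ 8 _ _ _ (hW.resc hσ0 z V₀ h₀ β₀)
        (IsFrame.normed_resc hσ0 one_pos (by rw [one_pow]; exact hF₀))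
        (by rw [abs_div, abs_neg, abs_of_nonneg (by linarith), abs_of_pos hσ0, div_le_iff₀ hσ0]
            linarith) (by norm_num) (by norm_num) hF₂).1
      rw [Nat.cast_zero, zero_add] at this
      refine this.trans ?_
      gcongr
      rw [norm_smul, norm_inv, Real.norm_of_nonneg hσ0.le, inv_mul_le_iff₀ hσ0, mul_comm]
      exact hy1
    refine ⟨y - σ • V₁ + σ • ξ, ?_, ?_⟩
    · have e : y - σ • V₁ + σ • ξ - z.1 + (σ * 2 - s) • V = (y - z.1 + (σ - s) • V₀) +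
          (σ * 2 - s) • (V - V₀) - σ • (V₁ - V₀) + σ • ξ := by module
      rw [e]
      have n1 : ‖(σ * 2 - s) • (V - V₀)‖ ≤ σ * 2 * (C₁ * 2) := by
        rw [norm_smul, Real.norm_of_nonneg (by linarith)]
        gcongr
        linarith
      have n2 : ‖σ • (V₁ - V₀)‖ ≤ σ * (C₂ * √(1 + R₀)) := by
        rw [norm_smul, Real.norm_of_nonneg hσ0.le]
        gcongr
      have n3 : ‖σ • ξ‖ ≤ σ * R₁ := by
        rw [norm_smul, Real.norm_of_nonneg hσ0.le]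
        gcongr
      have n4 := mul_le_mul_of_nonneg_left hR hσ0.le
      refine (norm_add_le _ _).trans ?_
      have n5 := norm_sub_le (y - z.1 + (σ - s) • V₀ + (σ * 2 - s) • (V - V₀)) (σ • (V₁ - V₀))
      have n6 := norm_add_le (y - z.1 + (σ - s) • V₀) ((σ * 2 - s) • (V - V₀))
      linarith
    · have ep : pt (y, z.2 - (σ - s)) σ 1 V₁ (ξ, -1) =
          (y - σ • V₁ + σ • ξ, z.2 - (σ * 2 - s)) := by
        simp only [pt]
        refine Prod.ext ?_ (by simp only; ring)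
        simp only
        module
      rw [ep] at hξ2
      nlinarith [mul_pos hη hσ0]

end Crest.Agent.R94
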