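import Crest.Agent.R94.Basic

/-! Row 94: flatness passes to the limit. -/

set_option autoImplicit false

open scoped RealInnerProductSpace
open Filter Topology Set

namespace Crest.Agent.R94

variable {E : Type*} [NormedAddCommGroup E] [InnerProductSpace ℝ E]

theorem lf_tendsto_pt {l : Filter ℕ} {Wk : ℕ → E × ℝ → ℝ} {W : E × ℝ → ℝ}
    (hc : WConv l Wk W) (p : E × ℝ) : Tendsto (fun k => Wk k p) l (𝓝 (W p)) := by
  refine Metric.tendsto_nhds.2 fun ε hε => ?_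
  have h0 : 0 < 1 + ‖p.1‖ ^ 2 := by positivity
  filter_upwards [hc |p.2| (ε / 2 / (1 + ‖p.1‖ ^ 2)) (by positivity)] with k hk
  have h := hk p.1 p.2 le_rfl
  rw [div_mul_cancel₀ _ h0.ne'] at h
  rw [Real.dist_eq]
  exact h.trans_lt (by linarith)

/-- A priori bounds for the parameters of a frame. -/
theorem lf_frame_bdd (z : E × ℝ) {r : ℝ} (hr : 0 < r) (C : ℝ) : ∃ M : ℝ,
    ∀ (W : E × ℝ → ℝ) (V : E) (h β : ℝ),
      (∀ (ξ : E) (τ : ℝ), |τ| ≤ |z.2| + r → |W (ξ, τ)| ≤ C + 2 * ‖ξ‖ ^ 2) →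
      IsFrame W z r 1 V h β → ‖V‖ ≤ M ∧ |h + ‖V‖ ^ 2 / 2| ≤ M ∧ |β| ≤ M := by
  set M1 : ℝ := r + (C + 2 * ‖z.1‖ ^ 2) with hM1
  set M2 : ℝ := r + 1 / r + M1 + (C + 2 * (‖z.1‖ + 1) ^ 2) with hM2
  set M3 : ℝ := (r + M1 + (C + 2 * (‖z.1‖ + r * M2) ^ 2)) / r with hM3
  refine ⟨max M2 (max M3 M1), fun W V h β hW hF => ?_⟩
  have h1 : |β| ≤ M1 := by
    have a := hF 0 0 (by simpa using hr.le)
    have b := hW z.1 z.2 (by linarith)
    simp only [zero_smul, add_zero, inner_zero_right, sub_zero, mul_zero, one_mul, norm_zero,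
      ne_eq, OfNat.ofNat_ne_zero, not_false_eq_true, zero_pow, zero_div] at a
    rw [abs_le] at a b ⊢
    constructor <;> linarith [a.1, a.2, b.1, b.2]
  have h2 : ‖V‖ ≤ M2 := by
    have hn : ‖‖V‖⁻¹ • V‖ ≤ 1 := by
      rw [norm_smul, norm_inv, norm_norm]
      exact inv_mul_le_one
    have a := hF 0 (‖V‖⁻¹ • V) (by simpa using hr.le)
    have b := hW (z.1 + ‖V‖⁻¹ • V) z.2 (by linarith)
    have e : ⟪V, ‖V‖⁻¹ • V⟫ = ‖V‖ := by
      rw [real_inner_smul_right, real_inner_self_eq_norm_sq]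
      rcases eq_or_ne ‖V‖ 0 with h0 | h0
      · simp [h0]
      · field_simp
    have c : ‖z.1 + ‖V‖⁻¹ • V‖ ^ 2 ≤ (‖z.1‖ + 1) ^ 2 :=
      pow_le_pow_left₀ (norm_nonneg _) ((norm_add_le _ _).trans (by linarith)) 2
    have d : ‖‖V‖⁻¹ • V‖ ^ 2 / r ≤ 1 / r := by
      gcongr
      exact pow_le_one₀ (norm_nonneg _) hn
    simp only [zero_smul, add_zero, mul_zero, sub_zero, one_mul, e] at a
    rw [abs_le] at a b h1
    linarith [a.1, a.2, b.1, b.2, h1.1, h1.2]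
  have h3 : |h + ‖V‖ ^ 2 / 2| ≤ M3 := by
    have a := hF r 0 (abs_of_pos hr).le
    have b := hW (z.1 + r • V) (z.2 + r) ((abs_add_le _ _).trans (by rw [abs_of_pos hr]))
    have c : ‖z.1 + r • V‖ ^ 2 ≤ (‖z.1‖ + r * M2) ^ 2 := by
      refine pow_le_pow_left₀ (norm_nonneg _) ((norm_add_le _ _).trans ?_) 2
      rw [norm_smul, Real.norm_of_nonneg hr.le]
      gcongr
    simp only [add_zero, inner_zero_right, sub_zero, one_mul, norm_zero,
      ne_eq, OfNat.ofNat_ne_zero, not_false_eq_true, zero_pow, zero_div] at a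
    rw [hM3, le_div_iff₀ hr, ← abs_of_pos hr, ← abs_mul, abs_of_pos hr]
    rw [abs_le] at a b h1 ⊢
    constructor <;> linarith [a.1, a.2, b.1, b.2, h1.1, h1.2]
  exact ⟨h2.trans (le_max_left _ _), h3.trans (le_max_of_le_right (le_max_left _ _)),
    h1.trans (le_max_of_le_right (le_max_right _ _))⟩

theorem WConv.flat [FiniteDimensional ℝ E] {Wk : ℕ → E × ℝ → ℝ} {W : E × ℝ → ℝ}
    (hc : WConv (hyperfilter ℕ : Filter ℕ) Wk W) (hq : SubQ W) {z : E × ℝ} {r : ℝ} (hr : 0 < r)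
    (hF : ∀ᶠ k in (hyperfilter ℕ : Filter ℕ), Flat (Wk k) z r 1) : Flat W z r 1 := by
  have := FiniteDimensional.proper_real E
  have h0 : ∀ k, ∃ q : E × ℝ × ℝ, Flat (Wk k) z r 1 →
      IsFrame (Wk k) z r 1 q.1 (q.2.1 - ‖q.1‖ ^ 2 / 2) q.2.2 := by
    intro k
    by_cases h : Flat (Wk k) z r 1
    · obtain ⟨V, h', β, hV⟩ := h
      exact ⟨(V, h' + ‖V‖ ^ 2 / 2, β), fun _ => by simpa using hV⟩
    · exact ⟨0, fun h' => absurd h' h⟩
  choose q hq' using h0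
  obtain ⟨C, hC⟩ := hq (|z.2| + r) 1 one_pos
  obtain ⟨M, hM⟩ := lf_frame_bdd z hr (C + 1)
  have hK : IsCompact (Metric.closedBall (0 : E) M ×ˢ Metric.closedBall (0 : ℝ) M ×ˢ
      Metric.closedBall (0 : ℝ) M) :=
    (isCompact_closedBall _ _).prod ((isCompact_closedBall _ _).prod (isCompact_closedBall _ _))
  have hmem : ∀ᶠ k in (hyperfilter ℕ : Filter ℕ), q k ∈ Metric.closedBall (0 : E) M ×ˢ
      Metric.closedBall (0 : ℝ) M ×ˢ Metric.closedBall (0 : ℝ) M := by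
    filter_upwards [hF, hc (|z.2| + r) 1 one_pos] with k hk hk'
    have h := hM (Wk k) _ _ _ (fun ξ τ hτ => ?_) (hq' k hk)
    · simpa using h
    · have a := hk' ξ τ hτ
      have b := hC ξ τ hτ
      rw [abs_le] at a b ⊢
      constructor <;> linarith [a.1, a.2, b.1, b.2]
  obtain ⟨⟨V, g, β⟩, -, hl⟩ := hK.ultrafilter_le_nhds ((hyperfilter ℕ).map q)
    (le_principal_iff.2 hmem)
  have hl' : Tendsto q (hyperfilter ℕ : Filter ℕ) (𝓝 (V, g, β)) := hl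
  have hV : Tendsto (fun k => (q k).1) (hyperfilter ℕ : Filter ℕ) (𝓝 V) := hl'.fst_nhds
  have hg : Tendsto (fun k => (q k).2.1) (hyperfilter ℕ : Filter ℕ) (𝓝 g) :=
    hl'.snd_nhds.fst_nhds
  have hβ : Tendsto (fun k => (q k).2.2) (hyperfilter ℕ : Filter ℕ) (𝓝 β) :=
    hl'.snd_nhds.snd_nhds
  refine ⟨V, g - ‖V‖ ^ 2 / 2, β, fun τ ξ hτ => ?_⟩
  have hξ : Tendsto (fun k => ξ + τ • (V - (q k).1)) (hyperfilter ℕ : Filter ℕ) (𝓝 ξ) := by
    simpa using ((hV.const_sub V).const_smul τ).const_add ξ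
  rw [sub_add_cancel]
  refine le_of_tendsto_of_tendsto
    (((((lf_tendsto_pt hc _).sub hβ).sub (hV.inner hξ)).sub (hg.mul_const τ)).abs)
    (((hξ.norm.pow 2).div_const r).const_add (1 * r)) ?_
  filter_upwards [hF] with k hk
  have h := hq' k hk τ (ξ + τ • (V - (q k).1)) hτ
  have e : z.1 + τ • (q k).1 + (ξ + τ • (V - (q k).1)) = z.1 + τ • V + ξ := by
    rw [smul_sub]; abel
  rw [e, sub_add_cancel] at h
  exact h

end Crest.Agent.R94
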