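import Crest.Agent.R94.Basic

/-! Row 94: passing to the limit in Tup, Tdn and in frames. -/

set_option autoImplicit false

open scoped RealInnerProductSpace
open Filter Topology Set

namespace Crest.Agent.R94

variable {E : Type*} [NormedAddCommGroup E] [InnerProductSpace ℝ E]

/-- Convergence of suprema under weighted uniform convergence with a coercive limit. -/
theorem Limits_tendsto_iSup {ι : Type*} [Nonempty ι] {l : Filter ℕ} {Fk : ℕ → ι → ℝ} {F N : ι → ℝ}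
    (hN : ∀ V, 0 ≤ N V) {C : ℝ} (hF : ∀ V, F V ≤ C - N V)
    (hc : ∀ η : ℝ, 0 < η → ∀ᶠ k in l, ∀ V, |Fk k V - F V| ≤ η * (1 + N V)) :
    Tendsto (fun k => ⨆ V, Fk k V) l (𝓝 (⨆ V, F V)) := by
  have hb : BddAbove (range F) := ⟨C, by
    rintro _ ⟨V, rfl⟩
    linarith [hF V, hN V]⟩
  set M := ⨆ V, F V with hM
  have hFM : ∀ V, F V ≤ M := fun V => le_ciSup hb V
  have hup : ∀ η : ℝ, 0 < η → η ≤ 1 → ∀ k, (∀ V, |Fk k V - F V| ≤ η * (1 + N V)) →
      ∀ V, Fk k V ≤ M + η * (|C - M| + 1) := by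
    intro η h0 h1 k hk V
    have a1 := (abs_le.1 (hk V)).2
    have a2 := mul_le_mul_of_nonneg_left (hFM V) (sub_nonneg.2 h1)
    have a3 := mul_le_mul_of_nonneg_left (hF V) h0.le
    have a4 := mul_le_mul_of_nonneg_left (le_abs_self (C - M)) h0.le
    nlinarith
  refine Metric.tendsto_nhds.2 fun ε hε => ?_
  obtain ⟨V₀, hV₀⟩ := exists_lt_of_lt_ciSup (show M - ε / 2 < ⨆ V, F V by linarith)
  have hK : 0 < |C - M| + 1 + N V₀ := by
    have := hN V₀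
    positivity
  set η := min 1 (ε / 2 / (|C - M| + 1 + N V₀)) with hη
  have h0 : 0 < η := lt_min one_pos (by positivity)
  have h2 : η * (|C - M| + 1 + N V₀) ≤ ε / 2 := by
    rw [← le_div_iff₀ hK]
    exact min_le_right _ _
  filter_upwards [hc η h0] with k hk
  have u := hup η h0 (min_le_left _ _) k hk
  have b1 : ⨆ V, Fk k V ≤ M + η * (|C - M| + 1) := ciSup_le u
  have b2 : Fk k V₀ ≤ ⨆ V, Fk k V := le_ciSup ⟨_, by rintro _ ⟨V, rfl⟩; exact u V⟩ V₀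
  have b3 := (abs_le.1 (hk V₀)).1
  have b4 := mul_nonneg h0.le (hN V₀)
  have b5 := mul_nonneg h0.le (abs_nonneg (C - M))
  rw [Real.dist_eq, abs_lt]
  constructor <;> nlinarith

theorem Limits_iInf_eq {ι : Type*} (f : ι → ℝ) : ⨅ i, f i = -⨆ i, -f i := by
  have h : Set.range (fun i => -f i) = -Set.range f := by
    ext x
    simp only [Set.mem_range, Set.mem_neg]
    constructor
    · rintro ⟨i, rfl⟩
      exact ⟨i, by simp⟩
    · rintro ⟨i, hi⟩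
      exact ⟨i, by rw [hi]; simp⟩
  unfold iInf iSup
  rw [h, Real.sSup_neg, neg_neg]

theorem Limits_norm_sq (y V : E) (s : ℝ) : ‖y + s • V‖ ^ 2 ≤ 2 * ‖y‖ ^ 2 + 2 * s ^ 2 * ‖V‖ ^ 2 := by
  have h1 : ‖y + s • V‖ ^ 2 ≤ (‖y‖ + ‖s • V‖) ^ 2 :=
    pow_le_pow_left₀ (norm_nonneg _) (norm_add_le _ _) 2
  have h2 : ‖s • V‖ ^ 2 = s ^ 2 * ‖V‖ ^ 2 := by
    rw [norm_smul, mul_pow, Real.norm_eq_abs, sq_abs]
  nlinarith [sq_nonneg (‖y‖ - ‖s • V‖)]

omit [InnerProductSpace ℝ E] in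
theorem Limits_pointwise {l : Filter ℕ} {Wk : ℕ → E × ℝ → ℝ} {W : E × ℝ → ℝ}
    (hc : WConv l Wk W) (z : E × ℝ) : Tendsto (fun k => Wk k z) l (𝓝 (W z)) := by
  refine Metric.tendsto_nhds.2 fun ε hε => ?_
  have hK : 0 < 1 + ‖z.1‖ ^ 2 := by positivity
  filter_upwards [hc |z.2| (ε / 2 / (1 + ‖z.1‖ ^ 2)) (by positivity)] with k hk
  have := hk z.1 z.2 le_rfl
  rw [div_mul_cancel₀ _ hK.ne'] at this
  rw [Real.dist_eq]
  exact this.trans_lt (by linarith)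

theorem WConv.tendsto_Tup {l : Filter ℕ} {Wk : ℕ → E × ℝ → ℝ} {W : E × ℝ → ℝ}
    (hc : WConv l Wk W) (hq : SubQ W) {s : ℝ} (hs : 0 ≤ s) (z : E × ℝ) :
    Tendsto (fun k => Tup (Wk k) s z) l (𝓝 (Tup W s z)) := by
  rcases hs.eq_or_lt with rfl | hs
  · simpa only [Tup_zero] using Limits_pointwise hc z
  obtain ⟨C, hC⟩ := hq |z.2 + s| (1 / (8 * s)) (by positivity)
  refine Limits_tendsto_iSup (N := fun V : E => s * ‖V‖ ^ 2 / 4) (C := C + ‖z.1‖ ^ 2 / (4 * s))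
    (fun V => by positivity) (fun V => ?_) fun η hη => ?_
  · have a1 := (abs_le.1 (hC (z.1 + s • V) (z.2 + s) le_rfl)).2
    have a2 := mul_le_mul_of_nonneg_left (Limits_norm_sq z.1 V s)
      (show 0 ≤ 1 / (8 * s) by positivity)
    have a3 : 1 / (8 * s) * (2 * ‖z.1‖ ^ 2 + 2 * s ^ 2 * ‖V‖ ^ 2) =
        ‖z.1‖ ^ 2 / (4 * s) + s * ‖V‖ ^ 2 / 4 := by
      field_simp
      ring
    linarith
  · have hK : 0 < 1 + 2 * ‖z.1‖ ^ 2 + 8 * s := by positivity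
    filter_upwards [hc |z.2 + s| (η / (1 + 2 * ‖z.1‖ ^ 2 + 8 * s)) (by positivity)] with k hk V
    rw [sub_sub_sub_cancel_right]
    refine (hk _ _ le_rfl).trans ?_
    rw [div_mul_eq_mul_div, div_le_iff₀ hK, mul_assoc]
    refine mul_le_mul_of_nonneg_left ?_ hη.le
    have a1 := Limits_norm_sq z.1 V s
    have a2 : 0 ≤ s * ‖V‖ ^ 2 / 4 * (1 + 2 * ‖z.1‖ ^ 2) := by positivity
    nlinarith

theorem WConv.tendsto_Tdn {l : Filter ℕ} {Wk : ℕ → E × ℝ → ℝ} {W : E × ℝ → ℝ}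
    (hc : WConv l Wk W) (hq : SubQ W) {s : ℝ} (hs : 0 ≤ s) (z : E × ℝ) :
    Tendsto (fun k => Tdn (Wk k) s z) l (𝓝 (Tdn W s z)) := by
  have e : ∀ U : E × ℝ → ℝ, Tdn U s z =
      -Tup (fun w : E × ℝ => -U (-w.1, -w.2)) s (-z.1, -z.2) := by
    intro U
    unfold Tup Tdn
    rw [Limits_iInf_eq]
    congr 2
    funext V
    simp only [neg_add_rev, neg_neg]
    rw [show -(s • V) + z.1 = z.1 - s • V by abel, show -s + z.2 = z.2 - s by ring]
    ring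
  simp only [e]
  refine (WConv.tendsto_Tup (Wk := fun k w => -Wk k (-w.1, -w.2)) (W := fun w => -W (-w.1, -w.2))
    (fun R η hη => ?_) (fun R η hη => ?_) hs _).neg
  · filter_upwards [hc R η hη] with k hk ξ τ hτ
    have := hk (-ξ) (-τ) (by rwa [abs_neg])
    rwa [norm_neg, abs_sub_comm, ← neg_sub_neg] at this
  · obtain ⟨C, hC⟩ := hq R η hη
    refine ⟨C, fun ξ τ hτ => ?_⟩
    have := hC (-ξ) (-τ) (by rwa [abs_neg])
    rwa [norm_neg, ← abs_neg] at this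

end Crest.Agent.R94
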