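import Crest.Agent.R94.Basic

/-! Row 94: estimates in a frame of flatness 1 at scale 8 s. -/

set_option autoImplicit false

open scoped RealInnerProductSpace
open Filter Topology Set

namespace Crest.Agent.R94

variable {E : Type*} [NormedAddCommGroup E] [InnerProductSpace ℝ E]

section
variable {W : E × ℝ → ℝ} {y : E} {t s : ℝ} {V : E} {h β : ℝ}

theorem IsFrame.key (hF : IsFrame W (y, t) (8 * s) 1 V h β) (hs : 0 < s) {τ : ℝ}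
    (hτ : |τ| ≤ 2 * s) (ξ U : E) :
    |W (y + ξ + τ • U, t + τ) - τ * ‖U‖ ^ 2 / 2 - (β + ⟪V, ξ⟫ + h * τ - τ * ‖U - V‖ ^ 2 / 2)| ≤
      8 * s + ‖ξ + τ • (U - V)‖ ^ 2 / (8 * s) := by
  have h1 := hF τ (ξ + τ • (U - V)) (by linarith)
  have e1 : y + τ • V + (ξ + τ • (U - V)) = y + ξ + τ • U := by module
  simp only [e1, one_mul, inner_add_right, real_inner_smul_right, inner_sub_right,
    real_inner_self_eq_norm_sq] at h1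
  convert h1 using 2
  rw [norm_sub_sq_real, real_inner_comm V U]
  ring

omit [InnerProductSpace ℝ E] in
theorem fe_sq_le [NormedSpace ℝ E] (hs : 0 < s) {τ : ℝ} (hτ : |τ| ≤ 2 * s) (ξ D : E) :
    ‖ξ + τ • D‖ ^ 2 / (8 * s) ≤ ‖ξ‖ ^ 2 / (4 * s) + |τ| * ‖D‖ ^ 2 / 2 := by
  have h1 : ‖ξ + τ • D‖ ≤ ‖ξ‖ + |τ| * ‖D‖ := by
    simpa [norm_smul] using norm_add_le ξ (τ • D)
  have h2 : ‖ξ + τ • D‖ ^ 2 ≤ (‖ξ‖ + |τ| * ‖D‖) ^ 2 := pow_le_pow_left₀ (norm_nonneg _) h1 2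
  have h3 : |τ| * (|τ| * ‖D‖ ^ 2) ≤ 2 * s * (|τ| * ‖D‖ ^ 2) :=
    mul_le_mul_of_nonneg_right hτ (by positivity)
  rw [div_le_iff₀ (by positivity)]
  have e : (‖ξ‖ ^ 2 / (4 * s) + |τ| * ‖D‖ ^ 2 / 2) * (8 * s) =
      2 * ‖ξ‖ ^ 2 + 2 * (2 * s * (|τ| * ‖D‖ ^ 2)) := by field_simp; ring
  rw [e]
  nlinarith [sq_nonneg (‖ξ‖ - |τ| * ‖D‖)]

theorem IsFrame.up_le (hF : IsFrame W (y, t) (8 * s) 1 V h β) (hs : 0 < s) {ε : ℝ}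
    (h0 : 0 ≤ ε) (h2 : ε ≤ 2 * s) (ξ U : E) :
    W (y + ξ + ε • U, t + ε) - ε * ‖U‖ ^ 2 / 2 ≤
      β + ⟪V, ξ⟫ + h * ε + 8 * s + ‖ξ‖ ^ 2 / (4 * s) := by
  have hτ : |ε| ≤ 2 * s := by rwa [abs_of_nonneg h0]
  have h3 := (abs_le.1 (hF.key hs hτ ξ U)).2
  have h4 := fe_sq_le hs hτ ξ (U - V)
  rw [abs_of_nonneg h0] at h4
  linarith

theorem IsFrame.le_dn (hF : IsFrame W (y, t) (8 * s) 1 V h β) (hs : 0 < s) {ε : ℝ}
    (h0 : 0 ≤ ε) (h2 : ε ≤ 2 * s) (ξ U : E) :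
    β + ⟪V, ξ⟫ - h * ε - 8 * s - ‖ξ‖ ^ 2 / (4 * s) ≤
      W (y + ξ - ε • U, t - ε) + ε * ‖U‖ ^ 2 / 2 := by
  have hτ : |-ε| ≤ 2 * s := by rwa [abs_neg, abs_of_nonneg h0]
  have h3 := (abs_le.1 (hF.key hs hτ ξ U)).1
  have h4 := fe_sq_le hs hτ ξ (U - V)
  rw [abs_neg, abs_of_nonneg h0] at h4
  rw [neg_smul ε U, ← sub_eq_add_neg, ← sub_eq_add_neg] at h3
  linarith

theorem IsFrame.abs_self (hF : IsFrame W (y, t) (8 * s) 1 V h β) (hs : 0 < s) :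
    |W (y, t) - β| ≤ 8 * s := by
  simpa using hF 0 0 (by simp; positivity)

theorem IsFrame.upBdd (hF : IsFrame W (y, t) (8 * s) 1 V h β) (hs : 0 < s) {ε : ℝ}
    (h0 : 0 ≤ ε) (h2 : ε ≤ 2 * s) (ξ : E) : UpBdd W ε (y + ξ, t) := by
  exact upBdd_of_le (hF.up_le hs h0 h2 ξ)

theorem IsFrame.dnBdd (hF : IsFrame W (y, t) (8 * s) 1 V h β) (hs : 0 < s) {ε : ℝ}
    (h0 : 0 ≤ ε) (h2 : ε ≤ 2 * s) (ξ : E) : DnBdd W ε (y + ξ, t) := by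
  exact dnBdd_of_le (hF.le_dn hs h0 h2 ξ)

theorem IsFrame.Tup_le (hF : IsFrame W (y, t) (8 * s) 1 V h β) (hs : 0 < s) {ε : ℝ}
    (h0 : 0 ≤ ε) (h2 : ε ≤ 2 * s) : Tup W ε (y, t) ≤ β + h * ε + 8 * s := by
  exact R94.Tup_le fun U => by simpa using hF.up_le hs h0 h2 0 U

theorem IsFrame.le_Tup (hF : IsFrame W (y, t) (8 * s) 1 V h β) (hs : 0 < s) {ε : ℝ}
    (h0 : 0 ≤ ε) (h2 : ε ≤ 2 * s) : β + h * ε - 8 * s ≤ Tup W ε (y, t) := by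
  have h3 := R94.le_Tup (hF.upBdd hs h0 h2 0) V
  have h4 := (abs_le.1 (hF.key hs (τ := ε) (by rwa [abs_of_nonneg h0]) 0 V)).1
  simp at h3 h4
  linarith

theorem IsFrame.Tdn_le (hF : IsFrame W (y, t) (8 * s) 1 V h β) (hs : 0 < s) {ε : ℝ}
    (h0 : 0 ≤ ε) (h2 : ε ≤ 2 * s) (ξ : E) :
    Tdn W ε (y + ξ, t) ≤ β + ⟪V, ξ⟫ - h * ε + 8 * s + ‖ξ‖ ^ 2 / (8 * s) := by
  have h3 := R94.Tdn_le (hF.dnBdd hs h0 h2 ξ) V
  have h4 := (abs_le.1 (hF.key hs (τ := -ε) (by rwa [abs_neg, abs_of_nonneg h0]) ξ V)).2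
  rw [neg_smul ε V, ← sub_eq_add_neg, ← sub_eq_add_neg] at h4
  simp only [sub_self, smul_zero, add_zero, norm_zero] at h4
  linarith

theorem IsFrame.le_Tdn (hF : IsFrame W (y, t) (8 * s) 1 V h β) (hs : 0 < s) {ε : ℝ}
    (h0 : 0 ≤ ε) (h2 : ε ≤ 2 * s) (ξ : E) :
    β + ⟪V, ξ⟫ - h * ε - 8 * s - ‖ξ‖ ^ 2 / (4 * s) ≤ Tdn W ε (y + ξ, t) := by
  exact R94.le_Tdn (hF.le_dn hs h0 h2 ξ)

theorem IsFrame.le_env (hF : IsFrame W (y, t) (8 * s) 1 V h β) (hs : 0 < s) {ε : ℝ}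
    (h0 : 0 ≤ ε) (h2 : ε ≤ 2 * s) :
    β - h * ε - 8 * s ≤ env s (fun y' => Tdn W ε (y', t)) y := by
  refine le_env_of_affine (p := V) fun ξ => ?_
  have h3 := hF.le_Tdn hs h0 h2 ξ
  have h4 : ‖ξ‖ ^ 2 / (4 * s) ≤ ‖ξ‖ ^ 2 / (2 * s) := by gcongr; norm_num
  linarith

theorem IsFrame.bslope_near (hF : IsFrame W (y, t) (8 * s) 1 V h β) (hs : 0 < s) :
    |bslope W (y, t) s - h| ≤ 16 := by
  have h1 := hF.Tdn_le hs hs.le (by linarith) 0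
  have h2 := hF.le_Tdn hs hs.le (by linarith) 0
  have h3 := hF.Tdn_le hs (ε := 2 * s) (by linarith) le_rfl 0
  have h4 := hF.le_Tdn hs (ε := 2 * s) (by linarith) le_rfl 0
  simp only [add_zero, inner_zero_right, norm_zero, ne_eq, OfNat.ofNat_ne_zero, not_false_eq_true,
    zero_pow, zero_div, sub_zero] at h1 h2 h3 h4
  unfold bslope
  rw [abs_le, le_sub_iff_add_le, sub_le_iff_le_add, le_div_iff₀ hs, div_le_iff₀ hs]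
  constructor <;> linarith

end

theorem ZCls.upBdd {W : E × ℝ → ℝ} (hW : ZCls W) {s : ℝ} (hs : 0 ≤ s) (z : E × ℝ) :
    UpBdd W s z := by
  obtain ⟨V, h, β, hF⟩ := hW.flat z (8 * (s + 1)) (by positivity)
  simpa using IsFrame.upBdd (y := z.1) (t := z.2) hF (by positivity) hs (by linarith) 0

theorem ZCls.dnBdd {W : E × ℝ → ℝ} (hW : ZCls W) {s : ℝ} (hs : 0 ≤ s) (z : E × ℝ) :
    DnBdd W s z := by
  obtain ⟨V, h, β, hF⟩ := hW.flat z (8 * (s + 1)) (by positivity)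
  simpa using IsFrame.dnBdd (y := z.1) (t := z.2) hF (by positivity) hs (by linarith) 0

theorem ZCls.envBdd {W : E × ℝ → ℝ} (hW : ZCls W) {s ε : ℝ} (hs : 0 < s) (hε : 0 ≤ ε)
    (y : E) (t : ℝ) : EnvBdd s (fun y' => Tdn W ε (y', t)) y := by
  obtain ⟨V, h, β, hF⟩ := hW.flat (y, t) (8 * (s + ε)) (by positivity)
  refine envBdd_of_affine (c := β - h * ε - 8 * (s + ε)) (p := V) fun ξ => ?_
  have h3 := hF.le_Tdn (by positivity) hε (by linarith) ξ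
  have h4 : ‖ξ‖ ^ 2 / (4 * (s + ε)) ≤ ‖ξ‖ ^ 2 / (2 * s) := by gcongr <;> linarith
  linarith

theorem ZCls.envBdd_zero {W : E × ℝ → ℝ} (hW : ZCls W) {s : ℝ} (hs : 0 < s)
    (y : E) (t : ℝ) : EnvBdd s (fun y' => W (y', t)) y := by
  simpa using hW.envBdd hs le_rfl y t

theorem ZCls.gap_nonneg {W : E × ℝ → ℝ} (hW : ZCls W) {s : ℝ} (hs : 0 < s) (z : E × ℝ) :
    0 ≤ gap W s z := by
  exact sub_nonneg.2 (env_le_self (hW.envBdd_zero hs z.1 z.2))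

theorem ZCls.gapLe_sixteen {W : E × ℝ → ℝ} (hW : ZCls W) : GapLe W 16 := by
  intro z s hs
  obtain ⟨V, h, β, hF⟩ := hW.flat z (8 * s) (by positivity)
  have h1 := (abs_le.1 (IsFrame.abs_self (y := z.1) (t := z.2) hF hs)).2
  have h2 := IsFrame.le_env (y := z.1) (t := z.2) hF hs le_rfl (by positivity)
  simp only [Tdn_zero, mul_zero, sub_zero, Prod.mk.eta] at h1 h2
  unfold gap
  linarith

theorem ZCls.subQ {W : E × ℝ → ℝ} (hW : ZCls W) : SubQ W := by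
  intro R η hη
  obtain ⟨r, hr⟩ : ∃ r, r = |R| + 4 / η := ⟨_, rfl⟩
  have hr0 : 0 < r := by rw [hr]; positivity
  have hRr : R ≤ r := by
    have : 0 < 4 / η := by positivity
    linarith [le_abs_self R]
  have hrη : 4 ≤ η * r := by
    rw [hr, mul_add, mul_div_cancel₀ _ hη.ne']
    linarith [mul_nonneg hη.le (abs_nonneg R)]
  obtain ⟨V, h, β, hF⟩ := hW.flat (0, 0) r hr0
  refine ⟨r + 2 * r * ‖V‖ ^ 2 + |β| + ‖V‖ ^ 2 / (2 * η) + r * ‖V‖ ^ 2 +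
    |h + ‖V‖ ^ 2 / 2| * r, fun ξ τ hτ => ?_⟩
  have hτr : |τ| ≤ r := hτ.trans hRr
  have h1 := hF τ (ξ - τ • V) hτr
  simp only [zero_add, add_sub_cancel, one_mul, inner_sub_right, real_inner_smul_right,
    real_inner_self_eq_norm_sq] at h1
  have h2 : ‖ξ - τ • V‖ ≤ ‖ξ‖ + r * ‖V‖ := by
    refine (norm_sub_le _ _).trans ?_
    rw [norm_smul, Real.norm_eq_abs]
    gcongr
  have h3 : ‖ξ - τ • V‖ ^ 2 / r ≤ η * ‖ξ‖ ^ 2 / 2 + 2 * r * ‖V‖ ^ 2 := by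
    rw [div_le_iff₀ hr0]
    have := pow_le_pow_left₀ (norm_nonneg _) h2 2
    nlinarith [sq_nonneg (‖ξ‖ - r * ‖V‖), mul_le_mul_of_nonneg_right hrη (sq_nonneg ‖ξ‖)]
  have h4 : |⟪V, ξ⟫| ≤ η * ‖ξ‖ ^ 2 / 2 + ‖V‖ ^ 2 / (2 * η) := by
    refine (abs_real_inner_le_norm V ξ).trans ?_
    rw [← sub_nonneg]
    have : η * ‖ξ‖ ^ 2 / 2 + ‖V‖ ^ 2 / (2 * η) - ‖V‖ * ‖ξ‖ = (η * ‖ξ‖ - ‖V‖) ^ 2 / (2 * η) := by
      field_simp; ring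
    rw [this]
    positivity
  have h5 : |τ * ‖V‖ ^ 2| ≤ r * ‖V‖ ^ 2 := by
    rw [abs_mul, abs_of_nonneg (sq_nonneg ‖V‖)]
    gcongr
  have h6 : |(h + ‖V‖ ^ 2 / 2) * τ| ≤ |h + ‖V‖ ^ 2 / 2| * r := by
    rw [abs_mul]
    gcongr
  rw [abs_le] at h1 h4 h5 h6 ⊢
  constructor <;> linarith [h1.1, h1.2, h4.1, h4.2, h5.1, h5.2, h6.1, h6.2, le_abs_self β,
    neg_abs_le β]

theorem ZCls.bslope_mono {W : E × ℝ → ℝ} (hW : ZCls W) (z : E × ℝ) {ρ ρ' : ℝ} (hρ : 0 < ρ)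
    (h : ρ ≤ ρ') : bslope W z ρ ≤ bslope W z ρ' := by
  have hc := (hW.ccv z).neg
  have h1 := hc.secant_mono (a := 2 * ρ') (x := ρ) (y := ρ') (by simp; linarith) hρ.le
    (by simp; linarith) (by linarith) (by linarith) h
  have h2 := hc.secant_mono (a := ρ) (x := 2 * ρ) (y := 2 * ρ') hρ.le (by simp; linarith)
    (by simp; linarith) (by linarith) (by linarith) (by linarith)
  simp only [Pi.neg_apply] at h1 h2
  unfold bslope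
  calc _ = (-Tdn W (2 * ρ) z - -Tdn W ρ z) / (2 * ρ - ρ) := by congr 1 <;> ring
    _ ≤ _ := h2
    _ = (-Tdn W ρ z - -Tdn W (2 * ρ') z) / (ρ - 2 * ρ') := by
      rw [← neg_div_neg_eq]; congr 1 <;> ring
    _ ≤ _ := h1
    _ = _ := by rw [← neg_div_neg_eq]; congr 1 <;> ring

end Crest.Agent.R94
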