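import Crest.Agent.R94.Growth
import Crest.Agent.R94.FrameEst

/-! Row 94: modulus of continuity and uniform growth. -/

set_option autoImplicit false

open scoped RealInnerProductSpace
open Filter Topology Set

namespace Crest.Agent.R94

variable {E : Type*} [NormedAddCommGroup E] [InnerProductSpace ℝ E]

private theorem frame_abs_le {W : E × ℝ → ℝ} {z : E × ℝ} {r h β : ℝ} {V : E}
    (hF : IsFrame W z r 1 V h β) (z' : E × ℝ) (hτ : |z'.2 - z.2| ≤ r) {x B : ℝ} (hr : 0 < r)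
    (hx : ‖z'.1 - z.1‖ ≤ x) (hV : ‖V‖ ≤ B) (hh : |h| ≤ B) :
    |W z' - β| ≤ B * (x + r * B) + (B + B ^ 2 / 2) * r + r + (x + r * B) ^ 2 / r := by
  set τ := z'.2 - z.2 with hτd
  set ξ := z'.1 - z.1 - τ • V with hξd
  have h1 := hF τ ξ hτ
  have e : (z.1 + τ • V + ξ, z.2 + τ) = z' := by
    ext
    · simp only [hξd]; abel
    · simp only [hτd]; ring
  rw [e, one_mul] at h1
  have hB : 0 ≤ B := (norm_nonneg _).trans hV
  have h2 : ‖ξ‖ ≤ x + r * B := by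
    refine (norm_sub_le _ _).trans (add_le_add hx ?_)
    rw [norm_smul, Real.norm_eq_abs]
    exact mul_le_mul hτ hV (norm_nonneg _) hr.le
  have h3 : |⟪V, ξ⟫| ≤ B * (x + r * B) :=
    (abs_real_inner_le_norm _ _).trans (mul_le_mul hV h2 (norm_nonneg _) hB)
  have h4 : |(h + ‖V‖ ^ 2 / 2) * τ| ≤ (B + B ^ 2 / 2) * r := by
    rw [abs_mul]
    refine mul_le_mul ((abs_add_le _ _).trans (add_le_add hh ?_)) hτ (abs_nonneg _)
      (by positivity)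
    rw [abs_of_nonneg (by positivity)]
    gcongr
  have h5 : ‖ξ‖ ^ 2 / r ≤ (x + r * B) ^ 2 / r := by gcongr
  rw [abs_le] at h1 h3 h4 ⊢
  constructor <;> linarith [h1.1, h1.2, h3.1, h3.2, h4.1, h4.2]

private theorem frame_abs_self {W : E × ℝ → ℝ} {z : E × ℝ} {r h β : ℝ} {V : E}
    (hF : IsFrame W z r 1 V h β) (hr : 0 < r) : |W z - β| ≤ r := by
  simpa using hF 0 0 (by simpa using hr.le)

private theorem exists_small (D A : ℝ) (hD : 0 ≤ D) (hA : 0 ≤ A) {η : ℝ} (hη : 0 < η) :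
    ∃ m : ℕ, D * (1 / 2) ^ m * (1 + m + A) ^ 2 ≤ η := by
  have hlim : Tendsto (fun m : ℕ => D * (2 + A) ^ 2 * ((m : ℝ) ^ 2 / 2 ^ m)) atTop
      (𝓝 (D * (2 + A) ^ 2 * 0)) :=
    (tendsto_pow_const_div_const_pow_of_one_lt 2 one_lt_two).const_mul _
  rw [mul_zero] at hlim
  obtain ⟨m, h1, h2⟩ := ((hlim.eventually (ge_mem_nhds hη)).and (eventually_ge_atTop 1)).exists
  refine ⟨m, le_trans ?_ h1⟩
  have hm : (1 : ℝ) ≤ m := by exact_mod_cast h2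
  have h3 : 1 + m + A ≤ (2 + A) * m := by nlinarith
  calc D * (1 / 2) ^ m * (1 + m + A) ^ 2 ≤ D * (1 / 2) ^ m * ((2 + A) * m) ^ 2 := by gcongr
    _ = _ := by rw [one_div, inv_pow]; ring

/-- Pointwise modulus of continuity. -/
theorem frame_modulus : ∃ C : ℝ, 0 < C ∧ ∀ (W : E × ℝ → ℝ) (z z' : E × ℝ) (m : ℕ) (V : E)
    (h β : ℝ), (∀ ρ : ℝ, 0 < ρ → ρ ≤ 1 → Flat W z ρ 1) → IsFrame W z 1 1 V h β →
    ‖z'.1 - z.1‖ ≤ (1 / 2) ^ m → |z'.2 - z.2| ≤ (1 / 2) ^ m →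
    |W z' - W z| ≤ C * (1 / 2) ^ m * (1 + m + ‖V‖ + |h|) ^ 2 := by
  obtain ⟨C, hC, hch⟩ := frame_chain (E := E)
  refine ⟨10 * (1 + C) ^ 2, by positivity, fun W z z' m V h β hfl hF h1 h2 => ?_⟩
  set r : ℝ := (1 / 2) ^ m with hr
  have hr0 : 0 < r := by positivity
  have hr1 : r ≤ 1 := pow_le_one₀ (by norm_num) (by norm_num)
  obtain ⟨V', h', β', hF'⟩ := hfl r hr0 hr1
  obtain ⟨a1, a2⟩ := hch W z m r 1 V' V h' h β' β hr0 hr1
    (by rw [hr, ← mul_pow]; norm_num) hfl hF' hF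
  set X : ℝ := 1 + m + ‖V‖ + |h| with hX
  have hm : (0 : ℝ) ≤ m := m.cast_nonneg
  have hV0 := norm_nonneg V
  have hh0 := abs_nonneg h
  have hX1 : 1 ≤ X := by linarith
  set Y : ℝ := (1 + C) * X with hY
  have hCX : C * (m + 1) ≤ C * X := mul_le_mul_of_nonneg_left (by linarith) hC.le
  have hY1 : 1 ≤ Y := by nlinarith
  have b1 : ‖V'‖ ≤ Y := by
    have := norm_sub_norm_le V' V
    rw [norm_sub_rev] at this
    nlinarith
  have b2 : |h'| ≤ Y := by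
    have := abs_sub_abs_le_abs_sub h' h
    rw [abs_sub_comm] at this
    nlinarith
  have c1 := frame_abs_le hF' z' h2 hr0 h1 b1 b2
  have c2 := frame_abs_self hF' hr0
  have e : (r + r * Y) ^ 2 / r = r * (1 + Y) ^ 2 := by field_simp
  rw [e] at c1
  have c3 : Y * (1 + Y) + (Y + Y ^ 2 / 2) + 1 + (1 + Y) ^ 2 + 1 ≤ 10 * Y ^ 2 := by nlinarith
  have c4 := mul_le_mul_of_nonneg_left c3 hr0.le
  have c5 := abs_sub_le (W z') β' (W z)
  rw [abs_sub_comm β'] at c5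
  calc _ ≤ r * (10 * Y ^ 2) := by linarith
    _ = _ := by rw [hY]; ring

/-- Equicontinuity of the normalised local classes. -/
theorem zloc_equicont (ρ η : ℝ) (hη : 0 < η) : ∃ θ R₀ : ℝ, 0 < θ ∧ ∀ (W : E × ℝ → ℝ) (R : ℝ),
    R₀ ≤ R → ZLoc W R → Normed W → ∀ z z' : E × ℝ, ‖z‖ ≤ ρ → ‖z'‖ ≤ ρ → dist z z' ≤ θ →
    |W z - W z'| ≤ η := by
  obtain ⟨C, hC, hmod⟩ := frame_modulus (E := E)
  obtain ⟨C₁, c, hC₁, hgr⟩ := frame_growth (E := E)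
  obtain ⟨m₀, hm₀⟩ := pow_unbounded_of_one_lt ρ (one_lt_two (α := ℝ))
  obtain ⟨m, hm⟩ := exists_small C (2 * (C₁ * (m₀ + 1))) hC.le (by positivity) hη
  refine ⟨(1 / 2) ^ m, 2 ^ (2 * m₀ + c), by positivity, fun W R hR hW hN z z' hz _ hd => ?_⟩
  have h1 : (1 : ℝ) ≤ 2 ^ m₀ := one_le_pow₀ one_le_two
  have h2 : (2 : ℝ) ^ m₀ ≤ R := (pow_le_pow_right₀ one_le_two (by omega)).trans hR
  have hz1 : ‖z.1‖ ≤ 2 ^ m₀ := (norm_fst_le z).trans (hz.trans hm₀.le)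
  have hz2 : |z.2| ≤ 2 ^ m₀ := (norm_snd_le z).trans (hz.trans hm₀.le)
  have hfl : ∀ ρ' : ℝ, 0 < ρ' → ρ' ≤ 1 → Flat W z ρ' 1 := fun ρ' a b =>
    hW.flat z ρ' (hz1.trans h2) (hz2.trans h2) a (b.trans (h1.trans h2))
  obtain ⟨V, h, β, hF⟩ := hfl 1 one_pos le_rfl
  obtain ⟨a1, a2⟩ := hgr W R m₀ 0 z 1 V h β hW hN hR hz1 hz2 (by simp) h1 hF
  simp only [Nat.cast_zero, add_zero] at a1 a2
  rw [dist_comm, dist_eq_norm] at hd
  rw [abs_sub_comm]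
  refine (hmod W z z' m V h β hfl hF ((norm_fst_le (z' - z)).trans hd)
    ((norm_snd_le (z' - z)).trans hd)).trans (le_trans ?_ hm)
  have : 1 + m + ‖V‖ + |h| ≤ 1 + m + 2 * (C₁ * (m₀ + 1)) := by linarith
  gcongr

/-- Uniform subquadratic growth of the normalised local classes. -/
theorem zloc_growth (ρ η : ℝ) (hη : 0 < η) : ∃ C R₀ : ℝ, ∀ (W : E × ℝ → ℝ) (R : ℝ),
    R₀ ≤ R → ZLoc W R → Normed W → ∀ (ξ : E) (τ : ℝ), |τ| ≤ ρ →
    |W (ξ, τ)| ≤ C + η * ‖ξ‖ ^ 2 := by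
  obtain ⟨C₁, c, hC₁, hgr⟩ := frame_growth (E := E)
  obtain ⟨m, hm⟩ := pow_unbounded_of_one_lt (max ρ (4 / η)) (one_lt_two (α := ℝ))
  set r : ℝ := 2 ^ m with hr
  set B : ℝ := C₁ * (m + 1) with hB
  refine ⟨8 + r + (B ^ 2 / (2 * η) + r * B ^ 2 + (B + B ^ 2 / 2) * r + r + 2 * r * B ^ 2),
    2 ^ (2 * m + c), fun W R hR hW hN ξ τ hτ => ?_⟩
  have h1 : (1 : ℝ) ≤ r := one_le_pow₀ one_le_two
  have hr0 : 0 < r := by positivity
  have h2 : r ≤ R := (pow_le_pow_right₀ one_le_two (by omega)).trans hR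
  have h3 : ρ ≤ r := (le_max_left _ _).trans hm.le
  have h4 : 4 / η ≤ r := (le_max_right _ _).trans hm.le
  obtain ⟨V, h, β, hF⟩ := hW.flat (0, 0) r (by simp; linarith) (by simp; linarith) hr0 h2
  obtain ⟨a1, a2⟩ := hgr W R m 0 (0, 0) r V h β hW hN hR (by simp) (by simp) (by simpa using h1)
    le_rfl hF
  simp only [Nat.cast_zero, add_zero] at a1 a2
  have c1 := frame_abs_le hF (ξ, τ) (by simpa using hτ.trans h3) (x := ‖ξ‖) hr0 (by simp) a1 a2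
  have c2 := frame_abs_self hF hr0
  have c3 := hN.abs_le 0 (τ := 0) (by simp)
  simp only [norm_zero, zero_pow two_ne_zero, zero_div, add_zero] at c3
  have c4 : (‖ξ‖ + r * B) ^ 2 / r ≤ η / 2 * ‖ξ‖ ^ 2 + 2 * r * B ^ 2 := by
    rw [div_le_iff₀ hr0]
    rw [div_le_iff₀ hη] at h4
    nlinarith [sq_nonneg (‖ξ‖ - r * B), mul_nonneg (sub_nonneg.2 h4) (sq_nonneg ‖ξ‖)]
  have c5 : B * ‖ξ‖ ≤ η / 2 * ‖ξ‖ ^ 2 + B ^ 2 / (2 * η) := by
    have e : η / 2 * ‖ξ‖ ^ 2 + B ^ 2 / (2 * η) - B * ‖ξ‖ = (η * ‖ξ‖ - B) ^ 2 / (2 * η) := by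
      field_simp
      ring
    have : 0 ≤ (η * ‖ξ‖ - B) ^ 2 / (2 * η) := by positivity
    linarith
  rw [← hB] at c1
  rw [abs_le] at c1 c2 c3 ⊢
  constructor <;> nlinarith [c1.1, c1.2, c2.1, c2.2, c3.1, c3.2]

theorem ZCls.continuous {W : E × ℝ → ℝ} (hW : ZCls W) : Continuous W := by
  obtain ⟨C, hC, hmod⟩ := frame_modulus (E := E)
  refine Metric.continuous_iff.2 fun z ε hε => ?_
  obtain ⟨V, h, β, hF⟩ := hW.flat z 1 one_pos
  obtain ⟨m, hm⟩ := exists_small C (‖V‖ + |h|) hC.le (by positivity) (half_pos hε)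
  refine ⟨(1 / 2) ^ m, by positivity, fun z' hd => ?_⟩
  rw [dist_eq_norm] at hd
  rw [← add_assoc] at hm
  exact ((hmod W z z' m V h β (fun ρ a _ => hW.flat z ρ a) hF
    ((norm_fst_le (z' - z)).trans hd.le) ((norm_snd_le (z' - z)).trans hd.le)).trans hm).trans_lt
    (half_lt_self hε)

end Crest.Agent.R94
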