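import Crest.Agent.R94.Ultra
import Crest.Agent.R94.Limits
import Crest.Agent.R94.LimitFlat
import Crest.Agent.R94.Modulus

/-! Row 94: compactness of the normalised local classes. -/

set_option autoImplicit false

open scoped RealInnerProductSpace
open Filter Topology Set

namespace Crest.Agent.R94

variable {E : Type*} [NormedAddCommGroup E] [InnerProductSpace ℝ E]

theorem exists_limit [FiniteDimensional ℝ E] (Wk : ℕ → E × ℝ → ℝ)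
    (hZ : ∀ k : ℕ, ZLoc (Wk k) k) (hN : ∀ k : ℕ, Normed (Wk k)) :
    ∃ W : E × ℝ → ℝ, ZCls W ∧ Normed W ∧ WConv (hyperfilter ℕ : Filter ℕ) Wk W := by
  haveI : ProperSpace E := FiniteDimensional.proper_real E
  have hle : (hyperfilter ℕ : Filter ℕ) ≤ atTop := Nat.hyperfilter_le_atTop
  have hev : ∀ R₀ : ℝ, ∀ᶠ k : ℕ in atTop, R₀ ≤ (k : ℝ) := fun R₀ =>
    tendsto_natCast_atTop_atTop.eventually_ge_atTop R₀
  obtain ⟨W, hW⟩ := exists_ultralimit Wk (fun x => by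
      obtain ⟨C, R₀, hC⟩ := zloc_growth (E := E) |x.2| 1 one_pos
      exact ⟨C + 1 * ‖x.1‖ ^ 2, (hev R₀).mono fun k hk =>
        hC (Wk k) k hk (hZ k) (hN k) x.1 x.2 le_rfl⟩)
    (fun ρ η hη => by
      obtain ⟨θ, R₀, hθ, hC⟩ := zloc_equicont (E := E) ρ η hη
      exact ⟨θ, hθ, (hev R₀).mono fun k hk => hC (Wk k) k hk (hZ k) (hN k)⟩)
  obtain ⟨hc, hq⟩ := wconv_of_locUnif (l := (hyperfilter ℕ : Filter ℕ)) hW (fun ρ η hη => by
      obtain ⟨C, R₀, hC⟩ := zloc_growth (E := E) ρ η hη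
      exact ⟨C, ((hev R₀).filter_mono hle).mono fun k hk => hC (Wk k) k hk (hZ k) (hN k)⟩)
  have hev' : ∀ R₀ : ℝ, ∀ᶠ k : ℕ in (hyperfilter ℕ : Filter ℕ), R₀ ≤ (k : ℝ) := fun R₀ =>
    (hev R₀).filter_mono hle
  refine ⟨W, ⟨fun z r hr => ?_, fun z => ⟨convex_Ici 0, ?_⟩, fun z => ⟨convex_Ici 0, ?_⟩⟩, ?_, hc⟩
  · refine hc.flat hq hr ?_
    filter_upwards [hev' ‖z.1‖, hev' |z.2|, hev' r] with k h1 h2 h3
    exact (hZ k).flat z r h1 h2 hr h3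
  · intro s₁ hs₁ s₂ hs₂ a b ha hb hab
    have hs : 0 ≤ a • s₁ + b • s₂ := (convex_Ici (0 : ℝ)) hs₁ hs₂ ha hb hab
    refine le_of_tendsto_of_tendsto (hc.tendsto_Tup hq hs z)
      (((hc.tendsto_Tup hq hs₁ z).const_smul a).add ((hc.tendsto_Tup hq hs₂ z).const_smul b)) ?_
    filter_upwards [hev' ‖z.1‖, hev' |z.2|, hev' s₁, hev' s₂] with k h1 h2 h3 h4
    exact ((hZ k).cvx z h1 h2).2 ⟨hs₁, h3⟩ ⟨hs₂, h4⟩ ha hb hab
  · intro s₁ hs₁ s₂ hs₂ a b ha hb hab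
    have hs : 0 ≤ a • s₁ + b • s₂ := (convex_Ici (0 : ℝ)) hs₁ hs₂ ha hb hab
    refine le_of_tendsto_of_tendsto
      (((hc.tendsto_Tdn hq hs₁ z).const_smul a).add ((hc.tendsto_Tdn hq hs₂ z).const_smul b))
      (hc.tendsto_Tdn hq hs z) ?_
    filter_upwards [hev' ‖z.1‖, hev' |z.2|, hev' s₁, hev' s₂] with k h1 h2 h3 h4
    exact ((hZ k).ccv z h1 h2).2 ⟨hs₁, h3⟩ ⟨hs₂, h4⟩ ha hb hab
  · refine normed_of_abs_le fun ξ τ hτ => ?_
    have ht := (hc.tendsto_Tup hq le_rfl (ξ, τ)).abs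
    simp only [Tup_zero] at ht
    exact le_of_tendsto' ht fun k => (hN k).abs_le ξ hτ

end Crest.Agent.R94
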