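import Crest.Agent.R94.Attain

/-! Row 94: the cone inequality when Tdn is constant at the origin. -/

set_option autoImplicit false

open scoped RealInnerProductSpace
open Filter Topology Set

namespace Crest.Agent.R94

variable {E : Type*} [NormedAddCommGroup E] [InnerProductSpace ℝ E]

/-- The minimising velocity is close to the velocity of the frame. -/
private theorem cone_vel {W : E × ℝ → ℝ} {y U V : E} {t r h β : ℝ} (hr : 0 < r)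
    (hF : IsFrame W (y, t) (8 * r) 1 V h β)
    (hU : Tdn W r (y, t) = W (y - r • U, t - r) + r * ‖U‖ ^ 2 / 2) : ‖U - V‖ ≤ 7 := by
  have h1 := hF.Tdn_le hr hr.le (by linarith) 0
  simp only [add_zero, inner_zero_right, norm_zero, zero_pow two_ne_zero, zero_div] at h1
  have h2 := (abs_le.1 (hF (-r) ((-r) • (U - V)) (by rw [abs_neg, abs_of_pos hr]; linarith))).1
  have e1 : y + (-r) • V + (-r) • (U - V) = y - r • U := by module
  have e2 : ‖(-r) • (U - V)‖ ^ 2 / (8 * r) = r * ‖U - V‖ ^ 2 / 8 := by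
    rw [norm_smul, Real.norm_eq_abs, abs_neg, abs_of_pos hr]
    field_simp
  have e3 : ‖U‖ ^ 2 = ‖V‖ ^ 2 + 2 * ⟪V, U - V⟫ + ‖U - V‖ ^ 2 := by
    rw [← norm_add_sq_real, add_sub_cancel]
  simp only [e1, e2, real_inner_smul_right, ← sub_eq_add_neg] at h2
  rw [hU, e3] at h1
  have h3 : r * (‖U - V‖ ^ 2) ≤ r * 7 ^ 2 := by nlinarith
  exact (pow_le_pow_iff_left₀ (norm_nonneg _) (by norm_num) two_ne_zero).1
    (le_of_mul_le_mul_left h3 hr)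

/-- Comparison of the value at `(y, t)` with the value at the origin. -/
private theorem cone_low {W : E × ℝ → ℝ} (hW : ZCls W) {b : ℝ}
    (hb : ∀ ρ : ℝ, 0 < ρ → Tdn W ρ (0, 0) = b) {y U : E} {t r : ℝ} (hr : 2 * |t| + 1 ≤ r)
    (hU : Tdn W r (y, t) = W (y - r • U, t - r) + r * ‖U‖ ^ 2 / 2) :
    b - (|t| * ‖U‖ ^ 2 + ‖y‖ ^ 2 + 2 * ‖y‖ * ‖U‖) ≤ Tdn W r (y, t) := by
  have ht := le_abs_self t
  have ht0 := abs_nonneg t
  have hr0 : 0 < r := by linarith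
  have hd : 0 < r - t := by linarith
  have h1 := Tdn_le (hW.dnBdd hd.le ((0 : E), (0 : ℝ))) (-(r - t)⁻¹ • (y - r • U))
  rw [hb _ hd] at h1
  have e1 : (0 : E) - (r - t) • -(r - t)⁻¹ • (y - r • U) = y - r • U := by
    rw [smul_smul, mul_neg, mul_inv_cancel₀ hd.ne']
    simp
  have e2 : (r - t) * ‖-(r - t)⁻¹ • (y - r • U)‖ ^ 2 / 2 = ‖y - r • U‖ ^ 2 / (2 * (r - t)) := by
    rw [norm_smul, Real.norm_eq_abs, abs_neg, abs_of_pos (inv_pos.2 hd)]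
    field_simp
  rw [e1, e2, zero_sub, neg_sub] at h1
  have h2 : ‖y - r • U‖ ≤ ‖y‖ + r * ‖U‖ := by
    refine (norm_sub_le _ _).trans_eq ?_
    rw [norm_smul, Real.norm_of_nonneg hr0.le]
  have h3 := pow_le_pow_left₀ (norm_nonneg _) h2 2
  have hy := norm_nonneg y
  have hu := norm_nonneg U
  have h4 : ‖y - r • U‖ ^ 2 / (2 * (r - t)) ≤
      r * ‖U‖ ^ 2 / 2 + (|t| * ‖U‖ ^ 2 + ‖y‖ ^ 2 + 2 * ‖y‖ * ‖U‖) := by
    rw [div_le_iff₀ (by positivity)]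
    have a1 : 0 ≤ (r * ‖U‖ ^ 2) * (|t| - t) := mul_nonneg (by positivity) (by linarith)
    have a2 : 0 ≤ (|t| * ‖U‖ ^ 2) * (2 * (r - t) - r) := mul_nonneg (by positivity) (by linarith)
    have a3 : 0 ≤ ‖y‖ ^ 2 * (2 * (r - t) - 1) := mul_nonneg (by positivity) (by linarith)
    have a4 : 0 ≤ (2 * ‖y‖ * ‖U‖) * (2 * (r - t) - r) := mul_nonneg (by positivity) (by linarith)
    nlinarith
  rw [hU]
  linarith

theorem ZCls.cone_ineq [FiniteDimensional ℝ E] {W : E × ℝ → ℝ} (hW : ZCls W) {b : ℝ}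
    (hb : ∀ ρ : ℝ, 0 < ρ → Tdn W ρ (0, 0) = b) (z : E × ℝ) {ρ : ℝ} (hρ : 0 ≤ ρ) :
    W z ≤ Tdn W ρ z := by
  obtain ⟨y, t⟩ := z
  obtain ⟨C, hC, hch⟩ := frame_chain (E := E)
  obtain ⟨V₀, h₀, β₀, hF₀⟩ := hW.flat (y, t) 8 (by norm_num)
  set K : ℝ := ‖V₀‖ + 7 + 2 * C with hK
  have hK0 : 0 ≤ K := by positivity
  set D : ℝ := ρ * (|W (y, t) - b| + |t| * K ^ 2 + ‖y‖ ^ 2 + 2 * ‖y‖ * K) with hD
  have hlim : Tendsto (fun m : ℕ => D * ((m : ℝ) ^ 2 / 2 ^ m)) atTop (𝓝 (D * 0)) :=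
    (tendsto_pow_const_div_const_pow_of_one_lt 2 one_lt_two).const_mul D
  rw [mul_zero] at hlim
  have hpow : Tendsto (fun m : ℕ => (2 : ℝ) ^ m) atTop atTop :=
    tendsto_pow_atTop_atTop_of_one_lt one_lt_two
  rw [← sub_nonpos]
  refine ge_of_tendsto hlim ?_
  filter_upwards [hpow.eventually_ge_atTop ρ, hpow.eventually_ge_atTop (2 * |t| + 1),
    eventually_ge_atTop 1] with m h1 h2 h3
  set r : ℝ := 2 ^ m with hr
  have hr0 : 0 < r := by positivity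
  have hr1 : 1 ≤ r := one_le_pow₀ one_le_two
  have hm : (1 : ℝ) ≤ m := by exact_mod_cast h3
  obtain ⟨U, hU⟩ := hW.exists_Tdn_eq hr0.le y t
  obtain ⟨V, h, β, hF⟩ := hW.flat (y, t) (8 * r) (by positivity)
  have a1 := cone_vel hr0 hF hU
  have a2 := (hch W (y, t) m 8 (8 * r) V₀ V h₀ h β₀ β (by norm_num) (by linarith)
    (by rw [mul_comm]) (fun ρ' hρ' _ => hW.flat _ ρ' hρ') hF₀ hF).1
  have a3 : ‖U‖ ≤ K * m := by
    have e : U = V₀ + (V - V₀) + (U - V) := by abel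
    have b1 : ‖U‖ ≤ ‖V₀‖ + ‖V - V₀‖ + ‖U - V‖ := by
      conv_lhs => rw [e]
      exact norm_add₃_le
    have b2 : 0 ≤ ‖V₀‖ * (m - 1) := mul_nonneg (norm_nonneg _) (by linarith)
    have b3 : 0 ≤ C * (m - 1) := mul_nonneg hC.le (by linarith)
    rw [hK]
    nlinarith
  have a4 := cone_low hW hb h2 hU
  have a5 := (hW.ccv (y, t)).2 (mem_Ici.2 le_rfl) (mem_Ici.2 hr0.le)
    (sub_nonneg.2 ((div_le_one hr0).2 h1)) (div_nonneg hρ hr0.le) (by ring)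
  simp only [smul_eq_mul, mul_zero, zero_add, Tdn_zero, div_mul_cancel₀ ρ hr0.ne'] at a5
  have hm2 : (m : ℝ) ≤ (m : ℝ) ^ 2 := by nlinarith
  have hy := norm_nonneg y
  have a6 : W (y, t) - Tdn W r (y, t) ≤
      (|W (y, t) - b| + |t| * K ^ 2 + ‖y‖ ^ 2 + 2 * ‖y‖ * K) * (m : ℝ) ^ 2 := by
    have b1 : |t| * ‖U‖ ^ 2 ≤ |t| * (K * m) ^ 2 :=
      mul_le_mul_of_nonneg_left (pow_le_pow_left₀ (norm_nonneg _) a3 2) (abs_nonneg t)
    have b2 : 2 * ‖y‖ * ‖U‖ ≤ 2 * ‖y‖ * (K * (m : ℝ) ^ 2) :=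
      mul_le_mul_of_nonneg_left (a3.trans (mul_le_mul_of_nonneg_left hm2 hK0)) (by positivity)
    have b3 : |W (y, t) - b| ≤ |W (y, t) - b| * (m : ℝ) ^ 2 :=
      le_mul_of_one_le_right (abs_nonneg _) (hm.trans hm2)
    have b4 : ‖y‖ ^ 2 ≤ ‖y‖ ^ 2 * (m : ℝ) ^ 2 :=
      le_mul_of_one_le_right (by positivity) (hm.trans hm2)
    have b5 := le_abs_self (W (y, t) - b)
    nlinarith
  calc W (y, t) - Tdn W ρ (y, t) ≤ ρ / r * (W (y, t) - Tdn W r (y, t)) := by linarith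
    _ ≤ ρ / r * ((|W (y, t) - b| + |t| * K ^ 2 + ‖y‖ ^ 2 + 2 * ‖y‖ * K) * (m : ℝ) ^ 2) :=
      mul_le_mul_of_nonneg_left a6 (by positivity)
    _ = D * ((m : ℝ) ^ 2 / r) := by rw [hD]; ring

end Crest.Agent.R94
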