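import Crest.Agent.R94.Basic
import Crest.Prelude.Def_InfHarmonic

/-! Row 94: viscosity solutions compare with cones. -/

set_option autoImplicit false

open scoped RealInnerProductSpace Gradient
open Filter Topology Set
open Crest.AnalysisR.PDE

namespace Crest.Agent.R94

variable {ι : Type*} [Fintype ι]

theorem infLaplacian_neg (φ : EuclideanSpace ℝ ι → ℝ) (z : EuclideanSpace ℝ ι) :
    infLaplacian (fun w => -φ w) z = -infLaplacian φ z := by
  have h1 : ∇ (fun w => -φ w) z = -∇ φ z := by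
    simp only [gradient, fderiv_fun_neg, map_neg]
  have h2 : fderiv ℝ (fun w => -φ w) = fun w => -fderiv ℝ φ w := funext fun w => fderiv_fun_neg
  unfold infLaplacian
  rw [iteratedFDeriv_two_apply, iteratedFDeriv_two_apply, h1, h2, fderiv_fun_neg]
  simp

theorem isInfinityHarmonicOn_neg {u : EuclideanSpace ℝ ι → ℝ} {Ω : Set (EuclideanSpace ℝ ι)}
    (hu : IsInfinityHarmonicOn u Ω) : IsInfinityHarmonicOn (fun w => -u w) Ω := by
  refine ⟨hu.1.neg, fun z hz φ hφ => ?_⟩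
  obtain ⟨h1, h2⟩ := hu.2 z hz (fun w => -φ w) hφ.neg
  rw [infLaplacian_neg] at h1 h2
  have e : (fun x => u x - -φ x) = fun x => -(-u x - φ x) := funext fun x => by ring
  rw [e] at h1 h2
  exact ⟨fun h => neg_nonpos.1 (h2 h.neg), fun h => neg_nonneg.1 (h1 h.neg)⟩

theorem hasFDerivAt_dist' {E : Type*} [NormedAddCommGroup E] [InnerProductSpace ℝ E] {x w : E}
    (h : w ≠ x) : HasFDerivAt (fun w => ‖w - x‖) (‖w - x‖⁻¹ • innerSL ℝ (w - x)) w := by
  have h0 : ‖w - x‖ ≠ 0 := norm_ne_zero_iff.2 (sub_ne_zero.2 h)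
  have h1 := (((hasFDerivAt_id (𝕜 := ℝ) w).sub_const x).norm_sq).sqrt (pow_ne_zero 2 h0)
  simp only [id, Real.sqrt_sq (norm_nonneg _)] at h1
  refine h1.congr_fderiv ?_
  ext v
  simp only [smul_apply, ContinuousLinearMap.comp_apply,
    ContinuousLinearMap.id_apply, smul_eq_mul, nsmul_eq_mul, Nat.cast_ofNat]
  field_simp

theorem hasFDerivAt_cone {E : Type*} [NormedAddCommGroup E] [InnerProductSpace ℝ E] {x w : E}
    (h : w ≠ x) (c A γ : ℝ) : HasFDerivAt (fun w => c + A * ‖w - x‖ - γ * ‖w - x‖ ^ 2)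
      ((A * ‖w - x‖⁻¹ - 2 * γ) • innerSL ℝ (w - x)) w := by
  refine ((((hasFDerivAt_dist' h).const_mul A).const_add c).sub
    ((((hasFDerivAt_id (𝕜 := ℝ) w).sub_const x).norm_sq).const_mul γ)).congr_fderiv ?_
  ext v
  simp only [smul_apply, sub_apply,
    ContinuousLinearMap.comp_apply, ContinuousLinearMap.id_apply, smul_eq_mul, nsmul_eq_mul,
    Nat.cast_ofNat, id]
  ring

theorem infLaplacian_cone {x w : EuclideanSpace ℝ ι} (h : w ≠ x) (c A γ : ℝ) :
    infLaplacian (fun w => c + A * ‖w - x‖ - γ * ‖w - x‖ ^ 2) w =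
      -(2 * γ) * (A - 2 * γ * ‖w - x‖) ^ 2 := by
  have h0 : ‖w - x‖ ≠ 0 := norm_ne_zero_iff.2 (sub_ne_zero.2 h)
  have h1 : ∇ (fun w => c + A * ‖w - x‖ - γ * ‖w - x‖ ^ 2) w =
      (A * ‖w - x‖⁻¹ - 2 * γ) • (w - x) := by
    refine HasGradientAt.gradient (hasGradientAt_iff_hasFDerivAt.2 ?_)
    refine (hasFDerivAt_cone h c A γ).congr_fderiv ?_
    ext v
    simp
  have h2 : fderiv ℝ (fun w => c + A * ‖w - x‖ - γ * ‖w - x‖ ^ 2) =ᶠ[𝓝 w]
      fun w => (A * ‖w - x‖⁻¹ - 2 * γ) • innerSL ℝ (w - x) := by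
    filter_upwards [isOpen_ne.mem_nhds h] with y hy using (hasFDerivAt_cone hy c A γ).fderiv
  have h3 := ((((hasDerivAt_inv h0).comp_hasFDerivAt w (hasFDerivAt_dist' h)).const_mul A).sub_const
    (2 * γ)).smul ((innerSL ℝ (E := EuclideanSpace ℝ ι)).hasFDerivAt.comp w
      ((hasFDerivAt_id (𝕜 := ℝ) w).sub_const x))
  have h4 : fderiv ℝ (fun w => (A * ‖w - x‖⁻¹ - 2 * γ) • innerSL ℝ (w - x)) w = _ := h3.fderiv
  unfold infLaplacian
  rw [iteratedFDeriv_two_apply, h1, h2.fderiv_eq, h4]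
  have h5 : ∀ a b : EuclideanSpace ℝ ι, innerSL ℝ a b = ⟪a, b⟫ := fun _ _ => rfl
  simp only [Matrix.cons_val_zero, Matrix.cons_val_one, add_apply, smul_apply,
    ContinuousLinearMap.comp_apply, ContinuousLinearMap.id_apply,
    ContinuousLinearMap.smulRight_apply, smul_eq_mul, Function.comp_apply, id]
  rw [h5, h5, real_inner_smul_left, real_inner_smul_right, real_inner_self_eq_norm_sq]
  field_simp
  ring

theorem cca_of_isInfinityHarmonicOn {u : EuclideanSpace ℝ ι → ℝ}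
    (hu : IsInfinityHarmonicOn u (Metric.ball 0 1)) (x : EuclideanSpace ℝ ι) (r₀ : ℝ)
    (hx : ‖x‖ + r₀ < 1) : CCA u x r₀ := by
  intro r₁ r₂ c a h1 h12 h2 ha b1 b2 w w1 w2
  set K : Set (EuclideanSpace ℝ ι) := {w | r₁ ≤ ‖w - x‖ ∧ ‖w - x‖ ≤ r₂} with hK
  have hr : r₂ < 1 := by linarith [norm_nonneg x]
  have hc : Continuous fun w : EuclideanSpace ℝ ι => ‖w - x‖ := by fun_prop
  have hKc : IsCompact K := by
    refine (isCompact_closedBall x r₂).of_isClosed_subset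
      ((isClosed_le continuous_const hc).inter (isClosed_le hc continuous_const)) fun y hy => ?_
    rw [mem_closedBall_iff_norm]
    exact hy.2
  have hKb : K ⊆ Metric.ball 0 1 := fun y hy => by
    rw [mem_ball_zero_iff]
    have := norm_add_le (y - x) x
    rw [sub_add_cancel] at this
    linarith [hy.2]
  have key : ∀ γ > 0, u w ≤ c + (a + 3 * γ) * ‖w - x‖ - γ * ‖w - x‖ ^ 2 := by
    intro γ hγ
    obtain ⟨w₀, hw₀, hmax⟩ := hKc.exists_isMaxOn (f := fun w =>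
      u w - (c + (a + 3 * γ) * ‖w - x‖ - γ * ‖w - x‖ ^ 2)) ⟨w, w1, w2⟩
      ((hu.1.mono hKb).sub (by fun_prop))
    have hb : u w₀ ≤ c + a * ‖w₀ - x‖ := by
      rcases hw₀.1.eq_or_lt with e1 | e1
      · rw [← e1]; exact b1 w₀ e1.ge
      rcases hw₀.2.eq_or_lt with e2 | e2
      · rw [e2]; exact b2 w₀ e2.le
      exfalso
      have hne : w₀ ≠ x := fun e => by
        rw [e, sub_self, norm_zero] at e1
        linarith
      have hn : K ∈ 𝓝 w₀ := by
        filter_upwards [(isOpen_lt continuous_const hc).mem_nhds e1,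
          (isOpen_lt hc continuous_const).mem_nhds e2] with y y1 y2 using ⟨le_of_lt y1, le_of_lt y2⟩
      have hd : ContDiffAt ℝ 2 (fun w : EuclideanSpace ℝ ι => ‖w - x‖) w₀ :=
        (contDiffAt_id.sub contDiffAt_const).norm ℝ (sub_ne_zero.2 hne)
      have h3 := (hu.2 w₀ (hKb hw₀) _ ((contDiffAt_const.add (contDiffAt_const.mul hd)).sub
        (contDiffAt_const.mul (hd.pow 2)))).1 (hmax.isLocalMax hn)
      rw [infLaplacian_cone hne] at h3
      have h4 : 0 < a + 3 * γ - 2 * γ * ‖w₀ - x‖ := by nlinarith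
      have h5 : 0 < 2 * γ * (a + 3 * γ - 2 * γ * ‖w₀ - x‖) ^ 2 := by positivity
      linarith
    have h6 : u w - (c + (a + 3 * γ) * ‖w - x‖ - γ * ‖w - x‖ ^ 2) ≤
        u w₀ - (c + (a + 3 * γ) * ‖w₀ - x‖ - γ * ‖w₀ - x‖ ^ 2) := hmax ⟨w1, w2⟩
    have h7 : 0 ≤ γ * (‖w₀ - x‖ * (3 - ‖w₀ - x‖)) :=
      mul_nonneg hγ.le (mul_nonneg (norm_nonneg _) (by linarith [hw₀.2]))
    nlinarith
  refine le_of_forall_pos_le_add fun ε hε => ?_
  have h8 := key (ε / 3) (by positivity)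
  have h9 : 0 ≤ ε / 3 * ‖w - x‖ ^ 2 := by positivity
  have h10 : ε * ‖w - x‖ ≤ ε := mul_le_of_le_one_right hε.le (by linarith)
  nlinarith

end Crest.Agent.R94
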