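import Crest.Agent.R94.Iterate
import Crest.Agent.R94.Campanato

/-! Row 94: the estimate for Lipschitz functions of the Hopf-Lax class. -/

set_option autoImplicit false

open scoped RealInnerProductSpace
open Filter Topology Set

namespace Crest.Agent.R94

variable {E : Type*} [NormedAddCommGroup E] [InnerProductSpace ℝ E]

open scoped Gradient

theorem core [FiniteDimensional ℝ E] [CompleteSpace E] :
    ∃ α C : ℝ, 0 < α ∧ α ≤ 1 / 3 ∧ ∀ v : E → ℝ, LipschitzWith 1 v → HLClass v →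
      (∀ x ∈ Metric.ball (0 : E) 2⁻¹, DifferentiableAt ℝ v x) ∧
      ∀ x ∈ Metric.ball (0 : E) 2⁻¹, ∀ y ∈ Metric.ball (0 : E) 2⁻¹,
        ‖∇ v x‖ ≤ C ∧ ‖∇ v x - ∇ v y‖ ≤ C * ‖x - y‖ ^ α := by
  obtain ⟨R, hR, hit⟩ := iterate_flat (E := E)
  set q : ℝ := √(1 / 2) with hq
  have hq2 : q ^ 2 = 1 / 2 := Real.sq_sqrt (by norm_num)
  have hq0 : 0 < q := Real.sqrt_pos.mpr (by norm_num)
  have hq1 : q < 1 := by nlinarith
  have hR0 : 0 < R := by linarith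
  have hQ : 1 < R / q := by rw [lt_div_iff₀ hq0]; linarith
  obtain ⟨α, C, hα, hα3, hC⟩ := campanato (E := E) q (R / q) (1 / 40) hq0 hq1 hQ (by norm_num)
  refine ⟨α, C, hα, hα3, fun v hv hHL => hC v hv fun y hy k => ?_⟩
  have hy' : ‖y‖ ≤ 1 / 2 := by
    have : ‖y‖ < 2⁻¹ := by simpa using hy
    linarith
  have hrk : 0 < (1 / 20) / R ^ k := by positivity
  obtain ⟨V, h, β, hF⟩ := hit v hv hHL k y 0 _ hy' hrk le_rfl
  refine ⟨β, V, fun ξ hξ => ?_⟩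
  have h1 := hF 0 ξ (by simpa using hrk.le)
  simp only [zero_smul, add_zero, mul_zero, sub_zero] at h1
  set r : ℝ := (1 / 20) / R ^ k with hr
  have hρ : (1 / 40 : ℝ) / (R / q) ^ k = q ^ k / 2 * r := by
    rw [hr, div_pow]; field_simp; norm_num
  have hak : ((1 / 2 : ℝ)) ^ k = (q ^ k) ^ 2 := by
    rw [← pow_mul, mul_comm, pow_mul, hq2]
  rw [hρ] at hξ ⊢
  rw [hak] at h1
  have hqk : 0 < q ^ k := pow_pos hq0 k
  have h2 : ‖ξ‖ ^ 2 / r ≤ (q ^ k) ^ 2 / 4 * r := by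
    rw [div_le_iff₀ hrk]
    calc ‖ξ‖ ^ 2 ≤ (q ^ k / 2 * r) ^ 2 := pow_le_pow_left₀ (norm_nonneg _) hξ 2
      _ = (q ^ k) ^ 2 / 4 * r * r := by ring
  calc _ ≤ _ := h1
    _ ≤ (q ^ k) ^ 2 / 4 * r + (q ^ k) ^ 2 / 4 * r := by linarith
    _ = q ^ k * (q ^ k / 2 * r) := by ring

end Crest.Agent.R94
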