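import Mathlib

/-!
Row 94 (C^{1,α} estimate for infinity-harmonic functions): definitions.

Space-time functions `W : E × ℝ → ℝ`, `z = (y, t)`.
* `Tup W s z = sup_V W(y + sV, t + s) - s|V|²/2`, `Tdn W s z = inf_U W(y - sU, t - s) + s|U|²/2`
  (Hopf-Lax semigroups; `Tup W 0 = Tdn W 0 = W`).
* `IsFrame W z r a V h β`: in the Galilean frame of velocity `V` the function `W` is within
  `a r + |ξ|²/r` of the affine function `β + ⟪V, ξ⟫ + (h + |V|²/2) τ` for `|τ| ≤ r`, all `ξ`.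
* `ZCls W`: flat with constant 1 at every point and scale, `s ↦ Tup W s z` convex,
  `s ↦ Tdn W s z` concave.  The Liouville theorem (Affine.lean) says such a `W` is affine.
* `env s f y = inf { ∑ wᵢ (f (y + ξᵢ) + |ξᵢ|²/2s) : w ≥ 0, ∑ w = 1, ∑ wᵢ ξᵢ = 0 }`,
  `gap W s z = W z - env s (W (·, t)) y`.
-/

set_option autoImplicit false

open scoped RealInnerProductSpace
open Filter Topology Set

namespace Crest.Agent.R94

variable {E : Type*} [NormedAddCommGroup E] [InnerProductSpace ℝ E]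

/-- Forward Hopf-Lax operator. -/
noncomputable def Tup (W : E × ℝ → ℝ) (s : ℝ) (z : E × ℝ) : ℝ :=
  ⨆ V : E, (W (z.1 + s • V, z.2 + s) - s * ‖V‖ ^ 2 / 2)

/-- Backward Hopf-Lax operator. -/
noncomputable def Tdn (W : E × ℝ → ℝ) (s : ℝ) (z : E × ℝ) : ℝ :=
  ⨅ U : E, (W (z.1 - s • U, z.2 - s) + s * ‖U‖ ^ 2 / 2)

/-- The supremum in `Tup W s z` is a genuine one. -/
def UpBdd (W : E × ℝ → ℝ) (s : ℝ) (z : E × ℝ) : Prop :=
  BddAbove (Set.range fun V : E => W (z.1 + s • V, z.2 + s) - s * ‖V‖ ^ 2 / 2)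

/-- The infimum in `Tdn W s z` is a genuine one. -/
def DnBdd (W : E × ℝ → ℝ) (s : ℝ) (z : E × ℝ) : Prop :=
  BddBelow (Set.range fun U : E => W (z.1 - s • U, z.2 - s) + s * ‖U‖ ^ 2 / 2)

/-- `(V, h, β)` is a frame of flatness `a` for `W` at the point `z` and scale `r`. -/
def IsFrame (W : E × ℝ → ℝ) (z : E × ℝ) (r a : ℝ) (V : E) (h β : ℝ) : Prop :=
  ∀ (τ : ℝ) (ξ : E), |τ| ≤ r →
    |W (z.1 + τ • V + ξ, z.2 + τ) - β - ⟪V, ξ⟫ - (h + ‖V‖ ^ 2 / 2) * τ| ≤ a * r + ‖ξ‖ ^ 2 / r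

/-- `W` has a frame of flatness `a` at `z`, scale `r`. -/
def Flat (W : E × ℝ → ℝ) (z : E × ℝ) (r a : ℝ) : Prop :=
  ∃ (V : E) (h β : ℝ), IsFrame W z r a V h β

/-- Normalisation: the zero frame works at the origin, scale 8. -/
def Normed (W : E × ℝ → ℝ) : Prop := IsFrame W (0, 0) 8 1 0 0 0

/-- The entire class. -/
structure ZCls (W : E × ℝ → ℝ) : Prop where
  flat : ∀ (z : E × ℝ) (r : ℝ), 0 < r → Flat W z r 1
  cvx : ∀ z : E × ℝ, ConvexOn ℝ (Set.Ici 0) (fun s => Tup W s z)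
  ccv : ∀ z : E × ℝ, ConcaveOn ℝ (Set.Ici 0) (fun s => Tdn W s z)

/-- The class localised to points and scales of size at most `R`. -/
structure ZLoc (W : E × ℝ → ℝ) (R : ℝ) : Prop where
  flat : ∀ (z : E × ℝ) (r : ℝ), ‖z.1‖ ≤ R → |z.2| ≤ R → 0 < r → r ≤ R → Flat W z r 1
  cvx : ∀ z : E × ℝ, ‖z.1‖ ≤ R → |z.2| ≤ R → ConvexOn ℝ (Set.Icc 0 R) (fun s => Tup W s z)
  ccv : ∀ z : E × ℝ, ‖z.1‖ ≤ R → |z.2| ≤ R → ConcaveOn ℝ (Set.Icc 0 R) (fun s => Tdn W s z)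

/-- Values of the finite convex combinations defining the envelope. -/
def envSet (s : ℝ) (f : E → ℝ) (y : E) : Set ℝ :=
  {c | ∃ (ι : Type) (_ : Fintype ι) (w : ι → ℝ) (ξ : ι → E), (∀ i, 0 ≤ w i) ∧ ∑ i, w i = 1 ∧
      ∑ i, w i • ξ i = 0 ∧ c = ∑ i, w i * (f (y + ξ i) + ‖ξ i‖ ^ 2 / (2 * s))}

/-- `env s f + |·|²/2s` is the convex envelope of `f + |·|²/2s`. -/
noncomputable def env (s : ℝ) (f : E → ℝ) (y : E) : ℝ := sInf (envSet s f y)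

/-- The infimum in `env s f y` is a genuine one. -/
def EnvBdd (s : ℝ) (f : E → ℝ) (y : E) : Prop := BddBelow (envSet s f y)

/-- The gap between `W` and the envelope of its time slice. -/
noncomputable def gap (W : E × ℝ → ℝ) (s : ℝ) (z : E × ℝ) : ℝ :=
  W z - env s (fun y => W (y, z.2)) z.1

/-- The regularised gap; `Gf W 0 s = gap W s`. -/
noncomputable def Gf (W : E × ℝ → ℝ) (ε s : ℝ) (z : E × ℝ) : ℝ :=
  Tup W ε z - env s (fun y => Tdn W ε (y, z.2)) z.1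

/-- `gap W s z ≤ Λ s` everywhere. -/
def GapLe (W : E × ℝ → ℝ) (Λ : ℝ) : Prop := ∀ (z : E × ℝ) (s : ℝ), 0 < s → gap W s z ≤ Λ * s

/-- Minus the slope of `ρ ↦ Tdn W ρ z` on `[ρ, 2ρ]`. -/
noncomputable def bslope (W : E × ℝ → ℝ) (z : E × ℝ) (ρ : ℝ) : ℝ :=
  (Tdn W ρ z - Tdn W (2 * ρ) z) / ρ

/-- The point of the original space-time with coordinates `p` in the frame. -/
def pt (z : E × ℝ) (r l : ℝ) (V : E) (p : E × ℝ) : E × ℝ :=
  (z.1 + (r * p.2) • V + (r * l) • p.1, z.2 + r * p.2)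

/-- The affine function subtracted in the frame. -/
noncomputable def aff (r l : ℝ) (V : E) (h β : ℝ) (p : E × ℝ) : ℝ :=
  β + r * l * ⟪V, p.1⟫ + (h + ‖V‖ ^ 2 / 2) * (r * p.2)

/-- Galilean change of frame and rescaling. -/
noncomputable def resc (W : E × ℝ → ℝ) (z : E × ℝ) (r l : ℝ) (V : E) (h β : ℝ) :
    E × ℝ → ℝ :=
  fun p => (W (pt z r l V p) - aff r l V h β p) / (l ^ 2 * r)

/-- Subquadratic growth in space, locally uniformly in time. -/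
def SubQ (W : E × ℝ → ℝ) : Prop :=
  ∀ R η : ℝ, 0 < η → ∃ C : ℝ, ∀ (ξ : E) (τ : ℝ), |τ| ≤ R → |W (ξ, τ)| ≤ C + η * ‖ξ‖ ^ 2

/-- Weighted uniform convergence along a filter. -/
def WConv (l : Filter ℕ) (Wk : ℕ → E × ℝ → ℝ) (W : E × ℝ → ℝ) : Prop :=
  ∀ R η : ℝ, 0 < η → ∀ᶠ k in l, ∀ (ξ : E) (τ : ℝ), |τ| ≤ R →
    |Wk k (ξ, τ) - W (ξ, τ)| ≤ η * (1 + ‖ξ‖ ^ 2)

/-- The penalised regularised gap with centre time `1`. -/
noncomputable def phi (W : E × ℝ → ℝ) (Λ ε a t : ℝ) (y : E) : ℝ :=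
  Gf W ε (1 - t) (y, t) - Λ * (1 - t) - ε * a * ‖y‖ ^ 2

/-- Its spatial supremum. -/
noncomputable def mfun (W : E × ℝ → ℝ) (Λ ε a t : ℝ) : ℝ := ⨆ y : E, phi W Λ ε a t y

/-- Comparison with cones from above, centred at `x`, up to radius `r₀`. -/
def CCA (v : E → ℝ) (x : E) (r₀ : ℝ) : Prop :=
  ∀ r₁ r₂ c a : ℝ, 0 ≤ r₁ → r₁ < r₂ → r₂ ≤ r₀ → 0 ≤ a →
    (∀ w : E, ‖w - x‖ ≤ r₁ → v w ≤ c + a * r₁) → (∀ w : E, ‖w - x‖ ≤ r₂ → v w ≤ c + a * r₂) →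
    ∀ w : E, r₁ ≤ ‖w - x‖ → ‖w - x‖ ≤ r₂ → v w ≤ c + a * ‖w - x‖

/-- The stationary function of `v` is in the Hopf-Lax class on the ball of radius `4/5`. -/
def HLClass (v : E → ℝ) : Prop :=
  ∀ (y : E) (t : ℝ), ‖y‖ ≤ 4 / 5 →
    ConvexOn ℝ (Set.Icc 0 (1 / 20)) (fun s => Tup (fun z : E × ℝ => v z.1) s (y, t)) ∧
    ConcaveOn ℝ (Set.Icc 0 (1 / 20)) (fun s => Tdn (fun z : E × ℝ => v z.1) s (y, t))

end Crest.Agent.R94
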