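import Crest.Agent.R94.Basic

/-! Row 94: a nonnegative discretely semiconcave sequence is bounded by an interior value. -/

set_option autoImplicit false

open scoped RealInnerProductSpace
open Filter Topology Set

namespace Crest.Agent.R94

variable {E : Type*} [NormedAddCommGroup E] [InnerProductSpace ℝ E]

theorem concave_seq (n : ℕ) (f : ℕ → ℝ)
    (h2 : ∀ i, i + 2 ≤ n → f (i + 2) + f i - 2 * f (i + 1) ≤ 0) :
    ∀ i, i + 1 ≤ n → (i : ℝ) * f (i + 1) + f 0 ≤ (i + 1) * f i := by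
  intro i
  induction i with
  | zero => intro _; simp
  | succ j ih =>
    intro hj
    have h1 := ih (by omega)
    have h3 := h2 j (by omega)
    have hj0 : (0 : ℝ) ≤ j + 1 := by positivity
    have := mul_le_mul_of_nonneg_left h3 hj0
    push_cast
    nlinarith

theorem concave_seq' (n i₀ : ℕ) (f : ℕ → ℝ) (hi₀ : 0 < i₀)
    (h2 : ∀ i, i + 2 ≤ n → f (i + 2) + f i - 2 * f (i + 1) ≤ 0) :
    ∀ i, i₀ ≤ i → i ≤ n → (f i - f 0) / i ≤ (f i₀ - f 0) / i₀ := by
  intro i hi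
  induction i, hi using Nat.le_induction with
  | base => intro _; exact le_rfl
  | succ j hj ih =>
    intro hn
    refine le_trans ?_ (ih (by omega))
    have h1 := concave_seq n f h2 j hn
    have hj0 : (0 : ℝ) < j := by exact_mod_cast (show 0 < j by omega)
    rw [div_le_div_iff₀ (by positivity) hj0]
    push_cast
    nlinarith

theorem discrete_right (n i₀ : ℕ) (σ B : ℝ) (x : ℕ → ℝ) (hσ : 0 < σ) (hB : 0 ≤ B)
    (hn : (n : ℝ) * σ ≤ 2) (hl : 1 / 2 ≤ (i₀ : ℝ) * σ) (hx : ∀ i, i ≤ n → 0 ≤ x i)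
    (h2 : ∀ i, i + 2 ≤ n → x (i + 2) + x i - 2 * x (i + 1) ≤ σ ^ 2 * B) :
    ∀ i, i₀ ≤ i → i ≤ n → x i ≤ 4 * x i₀ + 2 * B := by
  intro i hi hin
  have hi₀ : 0 < i₀ := by
    rcases Nat.eq_zero_or_pos i₀ with h | h
    · subst h; norm_num at hl
    · exact h
  have h := concave_seq' n i₀ (fun j => x j - B * (σ * j) ^ 2 / 2) hi₀ (fun j hj => by
    have := h2 j hj
    push_cast
    nlinarith) i hi hin
  have hi0 : (0 : ℝ) < i₀ := by exact_mod_cast hi₀
  have hii : (i₀ : ℝ) ≤ i := by exact_mod_cast hi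
  have hi1 : (0 : ℝ) < i := by linarith
  have hin' : (i : ℝ) ≤ n := by exact_mod_cast hin
  simp only [Nat.cast_zero, mul_zero] at h
  rw [div_le_div_iff₀ hi1 hi0] at h
  have hx0 := hx 0 (Nat.zero_le _)
  have hxi0 := hx i₀ (hi.trans hin)
  set a : ℝ := σ * i with ha
  set b : ℝ := σ * i₀ with hb
  have hb1 : 1 / 2 ≤ b := by rw [hb]; linarith
  have ha2 : a ≤ 2 := by
    have : (i : ℝ) * σ ≤ n * σ := mul_le_mul_of_nonneg_right hin' hσ.le
    rw [ha]; linarith
  have hab : b ≤ a := mul_le_mul_of_nonneg_left hii hσ.le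
  have h' : (x i - B * a ^ 2 / 2 - x 0) * b ≤ (x i₀ - B * b ^ 2 / 2 - x 0) * a := by
    have := mul_le_mul_of_nonneg_left h hσ.le
    simp only [ne_eq, OfNat.ofNat_ne_zero, not_false_eq_true, zero_pow, mul_zero, zero_div,
      sub_zero] at this
    rw [ha, hb]
    nlinarith
  have hb0 : 0 < b := by linarith
  refine le_of_mul_le_mul_right ?_ hb0
  have e1 : x i₀ * a ≤ 4 * x i₀ * b := by nlinarith
  have e2 : x 0 * b ≤ x 0 * a := mul_le_mul_of_nonneg_left hab hx0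
  have e3 : B * a ^ 2 / 2 * b ≤ 2 * B * b := by
    have : a ^ 2 ≤ 4 := by nlinarith
    have := mul_le_mul_of_nonneg_left this (mul_nonneg hB hb0.le)
    nlinarith
  have e4 : 0 ≤ B * b ^ 2 / 2 * a := by
    have : 0 ≤ a := by linarith
    positivity
  nlinarith

theorem discrete_bound (n i₀ : ℕ) (σ B : ℝ) (x : ℕ → ℝ) (hσ : 0 < σ) (hB : 0 ≤ B)
    (hi₀ : i₀ ≤ n) (hn : (n : ℝ) * σ ≤ 2) (hl : 1 / 2 ≤ (i₀ : ℝ) * σ)
    (hr : 1 / 2 ≤ ((n : ℝ) - i₀) * σ) (hx : ∀ i, i ≤ n → 0 ≤ x i)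
    (h2 : ∀ i, i + 2 ≤ n → x (i + 2) + x i - 2 * x (i + 1) ≤ σ ^ 2 * B) :
    ∀ i, i ≤ n → x i ≤ 4 * x i₀ + 2 * B := by
  intro i hi
  rcases le_total i₀ i with h | h
  · exact discrete_right n i₀ σ B x hσ hB hn hl hx h2 i h hi
  · have := discrete_right n (n - i₀) σ B (fun j => x (n - j)) hσ hB hn
      (by rw [Nat.cast_sub hi₀]; exact hr) (fun j _ => hx _ (Nat.sub_le _ _))
      (fun j hj => by
        have := h2 (n - (j + 2)) (by omega)
        rw [show n - (j + 2) + 2 = n - j by omega, show n - (j + 2) + 1 = n - (j + 1) by omega]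
          at this
        linarith) (n - i) (by omega) (Nat.sub_le _ _)
    rwa [show n - (n - i) = i by omega, show n - (n - i₀) = i₀ by omega] at this

end Crest.Agent.R94
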