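import Crest.Agent.R94.Basic

/-! Row 94: convexity of the envelope and subgradients. -/

set_option autoImplicit false

open scoped RealInnerProductSpace
open Filter Topology Set

namespace Crest.Agent.R94

variable {E : Type*} [NormedAddCommGroup E] [InnerProductSpace ℝ E]

theorem EnvConvex_sum_sq {ι : Type} [Fintype ι] (w : ι → ℝ) (ξ : ι → E) (h1 : ∑ i, w i = 1)
    (h0 : ∑ i, w i • ξ i = 0) (ζ : E) :
    ∑ i, w i * ‖ζ + ξ i‖ ^ 2 = ‖ζ‖ ^ 2 + ∑ i, w i * ‖ξ i‖ ^ 2 := by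
  have h2 : ∑ i, w i * ⟪ζ, ξ i⟫ = 0 := by
    have : ∑ i, w i * ⟪ζ, ξ i⟫ = ⟪ζ, ∑ i, w i • ξ i⟫ := by
      rw [inner_sum]; exact Finset.sum_congr rfl fun i _ => by rw [real_inner_smul_right]
    rw [this, h0, inner_zero_right]
  have h3 : ∀ i, w i * ‖ζ + ξ i‖ ^ 2 =
      w i * ‖ζ‖ ^ 2 + 2 * (w i * ⟪ζ, ξ i⟫) + w i * ‖ξ i‖ ^ 2 := by
    intro i
    rw [norm_add_sq_real]; ring
  simp only [h3, Finset.sum_add_distrib, ← Finset.sum_mul, ← Finset.mul_sum, h1, h2]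
  ring

theorem EnvConvex_shift {s : ℝ} {f : E → ℝ} {y ζ : E} {ι : Type} [Fintype ι] (w : ι → ℝ)
    (ξ : ι → E) (h1 : ∑ i, w i = 1) (h0 : ∑ i, w i • ξ i = 0) :
    ∑ i, w i * (f (y + (ζ + ξ i)) + ‖ζ + ξ i‖ ^ 2 / (2 * s)) =
      ∑ i, w i * (f (y + ζ + ξ i) + ‖ξ i‖ ^ 2 / (2 * s)) + ‖ζ‖ ^ 2 / (2 * s) := by
  have h := EnvConvex_sum_sq w ξ h1 h0 ζ
  simp only [mul_add, Finset.sum_add_distrib, ← mul_div_assoc, ← Finset.sum_div, h, add_assoc]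
  ring

theorem EnvConvex_le {s : ℝ} {f : E → ℝ} {y ζ : E} (hb : EnvBdd s f (y + ζ)) {ι : Type}
    [Fintype ι] (w : ι → ℝ) (x : ι → E) (hw : ∀ i, 0 ≤ w i) (h1 : ∑ i, w i = 1)
    (h0 : ∑ i, w i • x i = ζ) :
    env s f (y + ζ) + ‖ζ‖ ^ 2 / (2 * s) ≤ ∑ i, w i * (f (y + x i) + ‖x i‖ ^ 2 / (2 * s)) := by
  have h2 : ∑ i, w i • (x i - ζ) = 0 := by
    simp only [smul_sub, Finset.sum_sub_distrib, ← Finset.sum_smul, h1, h0, one_smul, sub_self]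
  have h3 := EnvConvex_shift (s := s) (f := f) (y := y) (ζ := ζ) w (fun i => x i - ζ) h1 h2
  simp only [add_sub_cancel] at h3
  rw [h3]
  exact add_le_add (env_le hb w (fun i => x i - ζ) hw h1 h2) le_rfl

theorem EnvConvex_approx (s : ℝ) (f : E → ℝ) (y ζ : E) {δ : ℝ} (hδ : 0 < δ) :
    ∃ (ι : Type) (_ : Fintype ι) (w : ι → ℝ) (x : ι → E), (∀ i, 0 ≤ w i) ∧ ∑ i, w i = 1 ∧
      ∑ i, w i • x i = ζ ∧
      ∑ i, w i * (f (y + x i) + ‖x i‖ ^ 2 / (2 * s)) ≤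
        env s f (y + ζ) + ‖ζ‖ ^ 2 / (2 * s) + δ := by
  obtain ⟨ι, hι, w, ξ, hw, h1, h0, h⟩ := env_approx s f (y + ζ) hδ
  refine ⟨ι, hι, w, fun i => ζ + ξ i, hw, h1, ?_, ?_⟩
  · simp only [smul_add, Finset.sum_add_distrib, ← Finset.sum_smul, h1, h0, one_smul, add_zero]
  · rw [EnvConvex_shift w ξ h1 h0]
    linarith

theorem env_convexOn {s : ℝ} (hs : 0 < s) {f : E → ℝ} {y : E}
    (hb : ∀ ζ : E, EnvBdd s f (y + ζ)) :
    ConvexOn ℝ Set.univ (fun ζ : E => env s f (y + ζ) + ‖ζ‖ ^ 2 / (2 * s)) := by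
  have _ := hs
  refine ⟨convex_univ, fun z₁ _ z₂ _ a b ha hb' hab => ?_⟩
  refine le_of_forall_pos_le_add fun δ hδ => ?_
  obtain ⟨ι, hι, w, x, hw, h1, h0, h⟩ := EnvConvex_approx s f y z₁ hδ
  obtain ⟨ι', hι', w', x', hw', h1', h0', h'⟩ := EnvConvex_approx s f y z₂ hδ
  have key := EnvConvex_le (hb (a • z₁ + b • z₂)) (ι := ι ⊕ ι')
    (Sum.elim (fun i => a * w i) (fun j => b * w' j)) (Sum.elim x x')
    (by
      rintro (i | j)
      · exact mul_nonneg ha (hw i)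
      · exact mul_nonneg hb' (hw' j))
    (by
      simp only [Fintype.sum_sum_type, Sum.elim_inl, Sum.elim_inr, ← Finset.mul_sum, h1, h1']
      linarith)
    (by
      simp only [Fintype.sum_sum_type, Sum.elim_inl, Sum.elim_inr, mul_smul, ← Finset.smul_sum,
        h0, h0'])
  simp only [Fintype.sum_sum_type, Sum.elim_inl, Sum.elim_inr, mul_assoc, ← Finset.mul_sum] at key
  simp only [smul_eq_mul]
  have k1 := mul_le_mul_of_nonneg_left h ha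
  have k2 := mul_le_mul_of_nonneg_left h' hb'
  have k3 : a * δ + b * δ = δ := by rw [← add_mul, hab, one_mul]
  linarith

theorem exists_subgradient [FiniteDimensional ℝ E] {Ψ : E → ℝ} (hΨ : ConvexOn ℝ Set.univ Ψ) :
    ∃ p : E, ∀ ζ : E, Ψ 0 + ⟪p, ζ⟫ ≤ Ψ ζ := by
  have : CompleteSpace E := FiniteDimensional.complete ℝ E
  have hc : Continuous Ψ := hΨ.locallyLipschitz.continuous
  have hconv : Convex ℝ {q : E × ℝ | Ψ q.1 < q.2} := by
    have := hΨ.convex_strict_epigraph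
    simpa using this
  have hopen : IsOpen {q : E × ℝ | Ψ q.1 < q.2} :=
    isOpen_lt (hc.comp continuous_fst) continuous_snd
  obtain ⟨F, hF⟩ := geometric_hahn_banach_open_point (x := ((0 : E), Ψ 0)) hconv hopen (by simp)
  set c : ℝ := F (0, 1) with hcdef
  have hsplit : ∀ (x : E) (t : ℝ), F (x, t) = F (x, 0) + t * c := by
    intro x t
    have : ((x, t) : E × ℝ) = (x, 0) + t • ((0 : E), (1 : ℝ)) := by simp
    rw [this, map_add, map_smul, smul_eq_mul]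
  have h00 : F (0, 0) = 0 := map_zero F
  have hneg : c < 0 := by
    have := hF (0, Ψ 0 + 1) (by simp)
    rw [hsplit 0 (Ψ 0 + 1), hsplit 0 (Ψ 0)] at this
    linarith
  let L : E →L[ℝ] ℝ := F.comp (ContinuousLinearMap.inl ℝ E ℝ)
  refine ⟨(-c)⁻¹ • (InnerProductSpace.toDual ℝ E).symm L, fun ζ => ?_⟩
  rw [real_inner_smul_left, InnerProductSpace.toDual_symm_apply]
  have hL : L ζ = F (ζ, 0) := rfl
  rw [hL]
  refine le_of_forall_pos_le_add fun δ hδ => ?_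
  have h1 := hF (ζ, Ψ ζ + δ) (by simpa using hδ)
  rw [hsplit ζ (Ψ ζ + δ), hsplit 0 (Ψ 0), h00] at h1
  have h2 : (-c)⁻¹ * F (ζ, 0) ≤ Ψ ζ + δ - Ψ 0 := by
    rw [inv_mul_le_iff₀ (neg_pos.2 hneg)]
    linarith
  linarith

theorem env_subgradient [FiniteDimensional ℝ E] {s : ℝ} (hs : 0 < s) {f : E → ℝ} {y : E}
    (hb : ∀ ζ : E, EnvBdd s f (y + ζ)) :
    ∃ p : E, ∀ ξ : E, env s f y + ⟪p, ξ⟫ ≤ f (y + ξ) + ‖ξ‖ ^ 2 / (2 * s) := by
  obtain ⟨p, hp⟩ := exists_subgradient (env_convexOn hs hb)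
  refine ⟨p, fun ξ => ?_⟩
  have h1 := hp ξ
  have h2 := env_le_self (hb ξ)
  simp only [add_zero, norm_zero, ne_eq, OfNat.ofNat_ne_zero, not_false_eq_true, zero_pow,
    zero_div] at h1
  linarith

end Crest.Agent.R94
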