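import Crest.Agent.R94.HopfLax

/-! Row 94: Lipschitz extension. -/

set_option autoImplicit false

open scoped RealInnerProductSpace
open Filter Topology Set

namespace Crest.Agent.R94

variable {E : Type*} [NormedAddCommGroup E] [InnerProductSpace ℝ E]

/-- Normalised global Lipschitz extension of a function comparing with cones on the unit ball. -/
theorem exists_extension {u : E → ℝ} {M : ℝ} (hM : 0 < M)
    (hosc : ∀ x ∈ Metric.ball (0 : E) 1, ∀ y ∈ Metric.ball (0 : E) 1, u x - u y ≤ M)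
    (h1 : ∀ (x : E) (r₀ : ℝ), ‖x‖ + r₀ < 1 → CCA u x r₀)
    (h2 : ∀ (x : E) (r₀ : ℝ), ‖x‖ + r₀ < 1 → CCA (fun w => -u w) x r₀) :
    ∃ v : E → ℝ, LipschitzWith 1 v ∧ HLClass v ∧
      ∀ x : E, ‖x‖ ≤ 9 / 10 → u x = 20 * M * v x := by
  have h20 : (0 : ℝ) < 20 * M := by positivity
  have hball : ∀ x : E, ‖x‖ ≤ 9 / 10 → x ∈ Metric.ball (0 : E) 1 := fun x hx => by
    simp only [mem_ball_zero_iff]; linarith
  have hlip : ∀ x w : E, ‖x‖ ≤ 9 / 10 → ‖w‖ ≤ 9 / 10 → u w ≤ u x + 20 * M * ‖w - x‖ := by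
    intro x w hx hw
    by_cases hd : ‖w - x‖ ≤ 1 / 20
    · refine h1 x (1 / 20) (by linarith) 0 (1 / 20) (u x) (20 * M) le_rfl (by norm_num) le_rfl
        h20.le (fun w' hw' => ?_) (fun w' hw' => ?_) w (norm_nonneg _) hd
      · have : w' = x := sub_eq_zero.mp (norm_le_zero_iff.mp hw')
        simp [this]
      · have hw1 : w' ∈ Metric.ball (0 : E) 1 := by
          simp only [mem_ball_zero_iff]
          calc ‖w'‖ = ‖x + (w' - x)‖ := by congr 1; abel
            _ ≤ ‖x‖ + ‖w' - x‖ := norm_add_le _ _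
            _ < 1 := by linarith
        have := hosc w' hw1 x (hball x hx)
        linarith
    · have := hosc w (hball w hw) x (hball x hx)
      push Not at hd
      nlinarith
  have hL : LipschitzOnWith 1 (fun x => u x / (20 * M)) (Metric.closedBall (0 : E) (9 / 10)) := by
    refine LipschitzOnWith.of_le_add_mul 1 fun x hx y hy => ?_
    have := hlip y x (by simpa using hy) (by simpa using hx)
    rw [dist_eq_norm, NNReal.coe_one, one_mul, div_add' _ _ _ h20.ne',
      div_le_div_iff_of_pos_right h20]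
    linarith
  obtain ⟨v, hv, hEq⟩ := hL.extend_real
  have huv : ∀ x : E, ‖x‖ ≤ 9 / 10 → u x = 20 * M * v x := by
    intro x hx
    have := hEq (show x ∈ Metric.closedBall (0 : E) (9 / 10) by simpa using hx)
    simp only at this
    rw [← this]; field_simp
  have key : ∀ (f g : E → ℝ), (∀ x : E, ‖x‖ ≤ 9 / 10 → f x = 20 * M * g x) →
      (∀ (x : E) (r₀ : ℝ), ‖x‖ + r₀ < 1 → CCA f x r₀) →
      ∀ x : E, ‖x‖ ≤ 4 / 5 → CCA g x (1 / 10) := by
    intro f g hfg hf x hx r₁ r₂ c a hr₁ hr12 hr₂ ha hb1 hb2 w hw1 hw2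
    have hin : ∀ w' : E, ‖w' - x‖ ≤ r₂ → ‖w'‖ ≤ 9 / 10 := fun w' hw' => by
      calc ‖w'‖ = ‖x + (w' - x)‖ := by congr 1; abel
        _ ≤ ‖x‖ + ‖w' - x‖ := norm_add_le _ _
        _ ≤ 9 / 10 := by linarith
    have := hf x (1 / 10) (by linarith) r₁ r₂ (20 * M * c) (20 * M * a) hr₁ hr12 hr₂
      (by positivity) (fun w' hw' => by
        rw [hfg w' (hin w' (hw'.trans hr12.le))]
        have := mul_le_mul_of_nonneg_left (hb1 w' hw') h20.le
        linarith) (fun w' hw' => by
        rw [hfg w' (hin w' hw')]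
        have := mul_le_mul_of_nonneg_left (hb2 w' hw') h20.le
        linarith) w hw1 hw2
    rw [hfg w (hin w hw2)] at this
    refine le_of_mul_le_mul_left ?_ h20
    linarith
  refine ⟨v, hv, hlClass_of_cca hv (key u v huv h1) (key (fun w => -u w) (fun w => -v w)
    (fun x hx => by simp only [huv x hx]; ring) h2), huv⟩

end Crest.Agent.R94
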