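import Crest.Agent.R94.Cone

/-! Row 94: rigidity. -/

set_option autoImplicit false

open scoped RealInnerProductSpace
open Filter Topology Set

namespace Crest.Agent.R94

variable {E : Type*} [NormedAddCommGroup E] [InnerProductSpace ℝ E]

namespace RigidAux

theorem norm_comb (A B : E) (a c : ℝ) :
    ‖a • A + c • B‖ ^ 2 = a ^ 2 * ‖A‖ ^ 2 + 2 * (a * c * ⟪A, B⟫) + c ^ 2 * ‖B‖ ^ 2 := by
  rw [norm_add_sq_real, norm_smul, norm_smul, real_inner_smul_left, real_inner_smul_right, mul_pow,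
    mul_pow, Real.norm_eq_abs, Real.norm_eq_abs, sq_abs, sq_abs]
  ring

theorem force {A B : E} {a c : ℝ} (ha : 0 < a) (hc : 0 < c)
    (h : a * ‖A‖ ^ 2 / 2 + c * ‖B‖ ^ 2 / 2 ≤ ‖a • A + c • B‖ ^ 2 / (2 * (a + c))) : A = B := by
  rw [le_div_iff₀ (by positivity), norm_comb] at h
  have h1 : a * c * ‖A - B‖ ^ 2 ≤ 0 := by
    rw [norm_sub_sq_real]
    nlinarith
  have h2 : ‖A - B‖ ^ 2 ≤ 0 := by
    by_contra h3
    exact absurd h1 (not_le.2 (mul_pos (mul_pos ha hc) (not_le.1 h3)))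
  exact sub_eq_zero.1 (norm_eq_zero.1 (pow_eq_zero_iff two_ne_zero |>.1
    (le_antisymm h2 (sq_nonneg _))))

theorem le_of_large {x c q m : ℝ} (hq : 0 ≤ q) (hm : 0 ≤ m)
    (h : ∀ s, m < s → x ≤ c + q / (2 * s)) : x ≤ c := by
  refine le_of_forall_pos_le_add fun δ hδ => (h (m + 1 + q / δ) (by
    have : 0 ≤ q / δ := by positivity
    linarith)).trans ?_
  have h1 : q / (2 * (m + 1 + q / δ)) ≤ δ := by
    rw [div_le_iff₀ (by positivity)]
    have : δ * (q / δ) = q := by field_simp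
    nlinarith
  linarith

end RigidAux

open RigidAux

theorem ZCls.rigid [FiniteDimensional ℝ E] {W : E × ℝ → ℝ} (hW : ZCls W) {b : ℝ}
    (hb : ∀ ρ : ℝ, 0 < ρ → Tdn W ρ (0, 0) = b) :
    ∃ V : E, ∀ (ξ : E) (τ : ℝ), W (ξ, τ) = b + ⟪V, ξ⟫ - τ * ‖V‖ ^ 2 / 2 := by
  have hC0 : ∀ (y : E) (t ρ : ℝ) (U : E), 0 ≤ ρ →
      W (y, t) ≤ W (y - ρ • U, t - ρ) + ρ * ‖U‖ ^ 2 / 2 := fun y t ρ U hρ =>
    (hW.cone_ineq hb (y, t) hρ).trans (Tdn_le (hW.dnBdd hρ _) U)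
  have hC : ∀ (y y' η : E) (t t' ρ : ℝ), 0 < ρ → y' = y + η → t' = t + ρ →
      W (y', t') ≤ W (y, t) + ‖η‖ ^ 2 / (2 * ρ) := by
    rintro y _ η t _ ρ hρ rfl rfl
    have := hC0 (y + η) (t + ρ) ρ (ρ⁻¹ • η) hρ.le
    rw [smul_inv_smul₀ hρ.ne', add_sub_cancel_right, add_sub_cancel_right, norm_smul, norm_inv,
      Real.norm_of_nonneg hρ.le] at this
    refine this.trans (le_of_eq ?_)
    field_simp
  have hmin : ∀ K : ℝ, 0 < K → ∃ U : E, W (-(K • U), -K) = b - K * ‖U‖ ^ 2 / 2 := fun K hK => by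
    obtain ⟨U, hU⟩ := hW.exists_Tdn_eq hK.le 0 0
    rw [hb K hK, zero_sub, zero_sub] at hU
    exact ⟨U, by linarith⟩
  obtain ⟨V, hV⟩ := hmin 2 two_pos
  have ha : ∀ θ : ℝ, 0 < θ → θ ≤ 2 → W (-(θ • V), -θ) = b - θ * ‖V‖ ^ 2 / 2 := fun θ h0 h2 => by
    have h1 := Tdn_le (hW.dnBdd h0.le (0, 0)) V
    rw [hb θ h0, zero_sub, zero_sub] at h1
    have h3 := hC0 (-(θ • V)) (-θ) (2 - θ) V (by linarith)
    rw [show -(θ • V) - (2 - θ) • V = -((2 : ℝ) • V) by module, show -θ - (2 - θ) = -2 by ring,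
      hV] at h3
    linarith
  have h00 : W (0, 0) = b := by
    have h1 : Tendsto (fun θ : ℝ => W (-(θ • V), -θ)) (𝓝[>] 0) (𝓝 (W (0, 0))) := by
      have : Continuous fun θ : ℝ => W (-(θ • V), -θ) := hW.continuous.comp (by fun_prop)
      simpa using (this.tendsto 0).mono_left nhdsWithin_le_nhds
    have h2 : Tendsto (fun θ : ℝ => b - θ * ‖V‖ ^ 2 / 2) (𝓝[>] 0) (𝓝 b) := by
      have : Continuous fun θ : ℝ => b - θ * ‖V‖ ^ 2 / 2 := by fun_prop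
      simpa using (this.tendsto 0).mono_left nhdsWithin_le_nhds
    refine tendsto_nhds_unique (h1.congr' ?_) h2
    filter_upwards [Ioc_mem_nhdsGT (two_pos : (0 : ℝ) < 2)] with θ hθ
    exact ha θ hθ.1 hθ.2
  have hfwd : ∀ K : ℝ, 0 ≤ K → b + K * ‖V‖ ^ 2 / 2 ≤ W (K • V, K) := fun K hK => by
    have h0 : Tup W 0 (-V, -1) = b - ‖V‖ ^ 2 / 2 := by
      have := ha 1 one_pos one_le_two
      rw [one_smul, one_mul] at this
      rw [Tup_zero, this]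
    have h1 := le_Tup (hW.upBdd zero_le_one (-V, -1)) V
    rw [one_smul, neg_add_cancel, neg_add_cancel, h00, one_mul] at h1
    have hρ : 0 < K + 1 := by linarith
    have h2 := (hW.cvx (-V, -1)).2 (self_mem_Ici (a := (0 : ℝ))) (mem_Ici.2 hρ.le)
      (show 0 ≤ K / (K + 1) by positivity) (show 0 ≤ 1 / (K + 1) by positivity) (by field_simp)
    simp only [smul_eq_mul, mul_zero, zero_add, one_div, inv_mul_cancel₀ hρ.ne'] at h2
    have h3 : b - ‖V‖ ^ 2 / 2 ≤ Tup W (K + 1) (-V, -1) := by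
      have h4 := mul_le_mul_of_nonneg_left (h1.trans h2) hρ.le
      rw [h0, mul_add, ← mul_assoc, ← mul_assoc, mul_inv_cancel₀ hρ.ne',
        mul_div_cancel₀ _ hρ.ne'] at h4
      linarith
    obtain ⟨V', hV'⟩ := hW.exists_Tup_eq hρ.le (-V) (-1)
    have h5 := hC (-((2 : ℝ) • V)) (-V + (K + 1) • V') ((1 : ℝ) • V + (K + 1) • V') (-2)
      (-1 + (K + 1)) (1 + (K + 1)) (by linarith) (by module) (by ring)
    have h6 : V = V' := force one_pos hρ (by linarith)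
    subst h6
    rw [show -V + (K + 1) • V = K • V by module, show -1 + (K + 1) = K by ring] at hV'
    linarith
  have hbwd : ∀ K : ℝ, 0 < K → W (-(K • V), -K) = b - K * ‖V‖ ^ 2 / 2 := fun K hK => by
    obtain ⟨U, hU⟩ := hmin K hK
    have h1 := hfwd 1 zero_le_one
    have h2 := hC (-(K • U)) ((1 : ℝ) • V) (K • U + (1 : ℝ) • V) (-K) 1 (K + 1) (by linarith)
      (by module) (by ring)
    have h3 : U = V := force hK one_pos (by linarith)
    rwa [h3] at hU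
  refine ⟨V, fun ξ τ => ?_⟩
  obtain ⟨ζ, rfl⟩ : ∃ ζ, ξ = τ • V + ζ := ⟨ξ - τ • V, by abel⟩
  have e : b + ⟪V, τ • V + ζ⟫ - τ * ‖V‖ ^ 2 / 2 = b + ⟪V, ζ⟫ + τ * ‖V‖ ^ 2 / 2 := by
    rw [inner_add_right, real_inner_smul_right, real_inner_self_eq_norm_sq]
    ring
  rw [e]
  refine le_antisymm (le_of_large (sq_nonneg ‖ζ‖) (abs_nonneg τ) fun s hs => ?_) ?_
  · have hs0 : 0 < s := (abs_nonneg τ).trans_lt hs
    have h1 := hC (-((s - τ) • V)) (τ • V + ζ) (s • V + (1 : ℝ) • ζ) (-(s - τ)) τ s hs0 (by module)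
      (by ring)
    rw [hbwd _ (by linarith [le_abs_self τ]), norm_comb] at h1
    refine h1.trans (le_of_eq ?_)
    field_simp
    ring
  · refine le_of_large (sq_nonneg ‖ζ‖) (abs_nonneg τ) fun s hs => ?_
    have hs0 : 0 < s := (abs_nonneg τ).trans_lt hs
    have h1 := hC (τ • V + ζ) ((s + τ) • V) (s • V + (-1 : ℝ) • ζ) τ (s + τ) s hs0 (by module)
      (by ring)
    have h2 := (hfwd (s + τ) (by linarith [neg_abs_le τ])).trans h1
    rw [norm_comb] at h2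
    have e2 : (s ^ 2 * ‖V‖ ^ 2 + 2 * (s * -1 * ⟪V, ζ⟫) + (-1) ^ 2 * ‖ζ‖ ^ 2) / (2 * s) =
        s * ‖V‖ ^ 2 / 2 - ⟪V, ζ⟫ + ‖ζ‖ ^ 2 / (2 * s) := by
      field_simp
      ring
    rw [e2] at h2
    linarith

end Crest.Agent.R94
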