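import Crest.Agent.R94.Compact
import Crest.Agent.R94.Rigid
import Crest.Agent.R94.Resc

/-! Row 94: almost constant slope on a long window forces a small gap. -/

set_option autoImplicit false

open scoped RealInnerProductSpace
open Filter Topology Set

namespace Crest.Agent.R94

variable {E : Type*} [NormedAddCommGroup E] [InnerProductSpace ℝ E]

namespace FlatCAux

theorem const_of_concave {b : ℝ → ℝ} (hb : ConcaveOn ℝ (Set.Ici 0) b)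
    (h2 : ∀ ρ : ℝ, 0 < ρ → b (2 * ρ) = b ρ) {ρ ρ' : ℝ} (hρ : 0 < ρ) (hρ' : 0 < ρ') :
    b ρ' ≤ b ρ := by
  have hp : ∀ (n : ℕ) (x : ℝ), 0 < x → b (2 ^ n * x) = b x := by
    intro n x hx
    induction n with
    | zero => simp
    | succ n ih => rw [pow_succ', mul_assoc, h2 _ (by positivity), ih]
  obtain ⟨n, hn⟩ := pow_unbounded_of_one_lt (ρ / ρ') (one_lt_two (α := ℝ))
  obtain ⟨m, hm⟩ := pow_unbounded_of_one_lt (ρ' / ρ) (one_lt_two (α := ℝ))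
  have h1 : ρ ≤ 2 ^ n * ρ' := ((div_lt_iff₀ hρ').1 hn).le
  have h3 : ρ' / 2 ^ m ≤ ρ := by
    rw [div_le_iff₀ (by positivity), mul_comm]
    exact ((div_lt_iff₀ hρ).1 hm).le
  have h4 : b (ρ' / 2 ^ m) = b ρ' := by
    rw [← hp m _ (by positivity), mul_div_cancel₀ _ (by positivity)]
  have h5 := hb.min_le_of_mem_Icc (x := ρ' / 2 ^ m) (y := 2 ^ n * ρ') (z := ρ)
    (Set.mem_Ici.2 (by positivity)) (Set.mem_Ici.2 (by positivity)) ⟨h3, h1⟩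
  rwa [h4, hp n _ hρ', min_self] at h5

/-- a member of the class with constant slope is affine -/
theorem affine_of_slope [FiniteDimensional ℝ E] {W : E × ℝ → ℝ} (hW : ZCls W) {s₀ : ℝ}
    (hs : ∀ ρ : ℝ, 0 < ρ → bslope W (0, 0) ρ = s₀) :
    ∃ (V : E) (γ β : ℝ), ∀ (ξ : E) (τ : ℝ), W (ξ, τ) = β + ⟪V, ξ⟫ + γ * τ := by
  have hW' := hW.resc one_pos (0, 0) 0 s₀ 0
  have h1 : ∀ ρ : ℝ, 0 < ρ → Tdn (resc W (0, 0) 1 1 0 s₀ 0) (2 * ρ) (0, 0) =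
      Tdn (resc W (0, 0) 1 1 0 s₀ 0) ρ (0, 0) := by
    intro ρ hρ
    have h := hW.bslope_resc (z := (0, 0)) (V := 0) (h := s₀) (β := 0) one_pos hρ (0, 0)
    rw [pt_zero, one_mul, hs ρ hρ, sub_self, bslope, div_eq_zero_iff] at h
    exact (sub_eq_zero.1 (h.resolve_right hρ.ne')).symm
  obtain ⟨V, hV⟩ := hW'.rigid (b := Tdn (resc W (0, 0) 1 1 0 s₀ 0) 1 (0, 0)) fun ρ hρ =>
    le_antisymm (const_of_concave (hW'.ccv (0, 0)) h1 one_pos hρ)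
      (const_of_concave (hW'.ccv (0, 0)) h1 hρ one_pos)
  refine ⟨V, s₀ - ‖V‖ ^ 2 / 2, Tdn (resc W (0, 0) 1 1 0 s₀ 0) 1 (0, 0), fun ξ τ => ?_⟩
  have h := hV ξ τ
  generalize Tdn (resc W (0, 0) 1 1 0 s₀ 0) 1 (0, 0) = b at h ⊢
  simp only [resc, pt, aff, smul_zero, add_zero, zero_add, mul_one, one_smul, one_mul, one_pow,
    div_one, inner_zero_left, norm_zero, ne_eq, OfNat.ofNat_ne_zero, not_false_eq_true, zero_pow,
    zero_div] at h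
  linarith

end FlatCAux

open FlatCAux in
theorem flat_window [FiniteDimensional ℝ E] (R₀ η : ℝ) (hη : 0 < η) :
    ∃ (J : ℕ) (δ : ℝ), 1 ≤ J ∧ 0 < δ ∧ ∀ W : E × ℝ → ℝ, ZCls W → Normed W →
      bslope W (0, 0) (2 ^ J) - bslope W (0, 0) ((1 / 2) ^ J) ≤ δ →
      ∀ (y : E) (t : ℝ), ‖y‖ ≤ R₀ → |t| ≤ 1 → gap W 1 (y, t) ≤ η := by
  by_contra hcon
  push Not at hcon
  choose Wk hZ hN hs y t hy ht hgap using fun k : ℕ =>
    hcon (k + 1) (1 / ((k : ℝ) + 1)) (by omega) (by positivity)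
  obtain ⟨W, hWZ, -, hc⟩ := exists_limit Wk (fun k => (hZ k).toZLoc k) hN
  have hU : (hyperfilter ℕ : Filter ℕ) ≤ atTop := Nat.hyperfilter_le_atTop
  have hT : ∀ ρ : ℝ, 0 < ρ → Tendsto (fun k => bslope (Wk k) (0, 0) ρ) (hyperfilter ℕ : Filter ℕ)
      (𝓝 (bslope W (0, 0) ρ)) := fun ρ hρ =>
    ((hc.tendsto_Tdn hWZ.subQ hρ.le (0, 0)).sub
      (hc.tendsto_Tdn hWZ.subQ (by positivity) (0, 0))).div_const ρ
  have hle : ∀ ρ ρ' : ℝ, 0 < ρ → 0 < ρ' → bslope W (0, 0) ρ ≤ bslope W (0, 0) ρ' := by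
    intro ρ ρ' hρ hρ'
    have h0 : Tendsto (fun k : ℕ => 1 / ((k : ℝ) + 1)) (hyperfilter ℕ : Filter ℕ) (𝓝 0) :=
      tendsto_one_div_add_atTop_nhds_zero_nat.mono_left hU
    have h1 := (hT ρ' hρ').add h0
    rw [add_zero] at h1
    refine le_of_tendsto_of_tendsto (hT ρ hρ) h1 (hU ?_)
    have e1 : ∀ᶠ k : ℕ in atTop, ρ ≤ (2 : ℝ) ^ k :=
      (tendsto_pow_atTop_atTop_of_one_lt one_lt_two).eventually_ge_atTop ρ
    have e2 : ∀ᶠ k : ℕ in atTop, ((1 : ℝ) / 2) ^ k ≤ ρ' :=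
      (tendsto_pow_atTop_nhds_zero_of_lt_one (by norm_num) (by norm_num)).eventually
        (ge_mem_nhds hρ')
    filter_upwards [e1, e2] with k h2 h3
    have h4 : ρ ≤ (2 : ℝ) ^ (k + 1) := h2.trans (pow_le_pow_right₀ one_le_two (Nat.le_succ k))
    have h5 : ((1 : ℝ) / 2) ^ (k + 1) ≤ ρ' :=
      (pow_le_pow_of_le_one (by norm_num) (by norm_num) (Nat.le_succ k)).trans h3
    have h6 := (hZ k).bslope_mono (0, 0) hρ h4
    have h7 := (hZ k).bslope_mono (0, 0) (by positivity) h5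
    have h8 := hs k
    show bslope (Wk k) (0, 0) ρ ≤ bslope (Wk k) (0, 0) ρ' + 1 / ((k : ℝ) + 1)
    linarith
  obtain ⟨V, γ, β, hA⟩ := affine_of_slope hWZ (s₀ := bslope W (0, 0) 1) fun ρ hρ =>
    le_antisymm (hle _ _ hρ one_pos) (hle _ _ one_pos hρ)
  have hD : 0 < 2 + 3 * R₀ ^ 2 := by positivity
  obtain ⟨η', h0, h1, h2⟩ : ∃ η' : ℝ, 0 < η' ∧ η' ≤ 1 / 4 ∧ η' * (2 + 3 * R₀ ^ 2) ≤ η :=
    ⟨min (1 / 4) (η / (2 + 3 * R₀ ^ 2)), lt_min (by norm_num) (div_pos hη hD), min_le_left _ _,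
      (le_div_iff₀ hD).1 (min_le_right _ _)⟩
  obtain ⟨k, hk⟩ := (hc 1 η' h0).exists
  have hy2 : ‖y k‖ ^ 2 ≤ R₀ ^ 2 := pow_le_pow_left₀ (norm_nonneg _) (hy k) 2
  have h3 := (abs_le.1 (hk (y k) (t k) (ht k))).2
  have h4 : β + ⟪V, y k⟫ + γ * t k - η' * (1 + 2 * R₀ ^ 2) ≤
      env 1 (fun z => Wk k (z, t k)) (y k) := by
    refine le_env_of_affine (p := V) fun ξ => ?_
    have h5 := (abs_le.1 (hk (y k + ξ) (t k) (ht k))).1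
    rw [hA, inner_add_right] at h5
    have h6 : ‖y k + ξ‖ ^ 2 ≤ 2 * R₀ ^ 2 + 2 * ‖ξ‖ ^ 2 := by
      have h7 : ‖y k + ξ‖ ^ 2 ≤ (‖y k‖ + ‖ξ‖) ^ 2 :=
        pow_le_pow_left₀ (norm_nonneg _) (norm_add_le _ _) 2
      nlinarith [sq_nonneg (‖y k‖ - ‖ξ‖)]
    have h8 : η' * ‖y k + ξ‖ ^ 2 ≤ η' * (2 * R₀ ^ 2 + 2 * ‖ξ‖ ^ 2) :=
      mul_le_mul_of_nonneg_left h6 h0.le
    have h9 : η' * ‖ξ‖ ^ 2 ≤ 1 / 4 * ‖ξ‖ ^ 2 := mul_le_mul_of_nonneg_right h1 (sq_nonneg _)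
    show _ ≤ Wk k (y k + ξ, t k) + ‖ξ‖ ^ 2 / (2 * 1)
    nlinarith
  have h10 := hgap k
  rw [hA] at h3
  have h11 : η' * ‖y k‖ ^ 2 ≤ η' * R₀ ^ 2 := mul_le_mul_of_nonneg_left hy2 h0.le
  simp only [gap] at h10
  nlinarith

end Crest.Agent.R94
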