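import Crest.Agent.R94.Basic

/-! Row 94: comparison of frames, chains of scales, growth of the frame parameters. -/

set_option autoImplicit false

open scoped RealInnerProductSpace
open Filter Topology Set

namespace Crest.Agent.R94

variable {E : Type*} [NormedAddCommGroup E] [InnerProductSpace ℝ E]

/-- both frames evaluated at the same space-time point -/
theorem frame_key {W : E × ℝ → ℝ} {z z' : E × ℝ} {r r' : ℝ} {V V' : E} {h h' β β' : ℝ}
    (hF : IsFrame W z r 1 V h β) (hF' : IsFrame W z' r' 1 V' h' β')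
    (ht : |z'.2 - z.2| ≤ r / 2) (h2 : r' ≤ r / 2) (τ : ℝ) (ξ : E) (hτ : |τ| ≤ r') :
    |(β' - β - ⟪V, z'.1 - z.1 - (z'.2 - z.2) • V⟫ - (h + ‖V‖ ^ 2 / 2) * (z'.2 - z.2)) +
        ⟪V' - V, ξ⟫ + τ * (h' - h + ‖V' - V‖ ^ 2 / 2)| ≤
      r' + ‖ξ‖ ^ 2 / r' + r + ‖z'.1 - z.1 - (z'.2 - z.2) • V + τ • (V' - V) + ξ‖ ^ 2 / r := by
  have a1 := hF' τ ξ hτ
  have a2 := hF (z'.2 - z.2 + τ) (z'.1 - z.1 - (z'.2 - z.2) • V + τ • (V' - V) + ξ)
    ((abs_add_le _ _).trans (by linarith))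
  have e1 : z.1 + (z'.2 - z.2 + τ) • V + (z'.1 - z.1 - (z'.2 - z.2) • V + τ • (V' - V) + ξ) =
      z'.1 + τ • V' + ξ := by
    rw [add_smul, smul_sub]; abel
  have e2 : z.2 + (z'.2 - z.2 + τ) = z'.2 + τ := by ring
  rw [e1, e2, inner_add_right, inner_add_right, inner_smul_right] at a2
  have e3 : ‖V' - V‖ ^ 2 = ‖V'‖ ^ 2 - 2 * ⟪V, V'⟫ + ‖V‖ ^ 2 := by
    rw [norm_sub_sq_real, real_inner_comm]
  have e4 : ⟪V, V' - V⟫ = ⟪V, V'⟫ - ‖V‖ ^ 2 := by
    rw [inner_sub_right, real_inner_self_eq_norm_sq]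
  rw [e4] at a2
  rw [inner_sub_left, e3]
  obtain ⟨b1, b2⟩ := abs_le.1 a1
  obtain ⟨b3, b4⟩ := abs_le.1 a2
  rw [abs_le]
  constructor <;> nlinarith

theorem frame_cmp' {W : E × ℝ → ℝ} {z z' : E × ℝ} {r r' : ℝ} {V V' : E} {h h' β β' : ℝ}
    (hr : 0 < r) (hF : IsFrame W z r 1 V h β) (hF' : IsFrame W z' r' 1 V' h' β')
    (ht : |z'.2 - z.2| ≤ r / 2) (hd : ‖z'.1 - z.1 - (z'.2 - z.2) • V‖ ≤ r) (h1 : r / 4 ≤ r')
    (h2 : r' ≤ r / 2) : ‖V' - V‖ ≤ 10 ∧ |h' - h| ≤ 200 := by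
  have key := frame_key hF hF' ht h2
  have hr' : 0 < r' := by linarith
  set d := z'.1 - z.1 - (z'.2 - z.2) • V with hd_def
  set D := V' - V with hD_def
  set A := β' - β - ⟪V, d⟫ - (h + ‖V‖ ^ 2 / 2) * (z'.2 - z.2) with hA_def
  have hD : ‖D‖ ≤ 10 := by
    rcases eq_or_ne D 0 with h0 | h0
    · rw [h0, norm_zero]; norm_num
    have hn : 0 < ‖D‖ := norm_pos_iff.2 h0
    have aux : ∀ c : ℝ, |c| = r → |A + c * ‖D‖| ≤ 19 / 2 * r := by
      intro c hc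
      have k := key 0 ((c / ‖D‖) • D) (by rw [abs_zero]; exact hr'.le)
      have n1 : ‖(c / ‖D‖) • D‖ = r := by
        rw [norm_smul, Real.norm_eq_abs, abs_div, hc, abs_of_pos hn, div_mul_cancel₀ _ hn.ne']
      have n2 : ⟪D, (c / ‖D‖) • D⟫ = c * ‖D‖ := by
        rw [inner_smul_right, real_inner_self_eq_norm_sq]; field_simp
      have n3 : ‖d + (0 : ℝ) • D + (c / ‖D‖) • D‖ ≤ 2 * r := by
        rw [zero_smul, add_zero]
        exact (norm_add_le _ _).trans (by linarith)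
      have n4 : ‖d + (0 : ℝ) • D + (c / ‖D‖) • D‖ ^ 2 / r ≤ 4 * r := by
        rw [div_le_iff₀ hr]
        nlinarith [norm_nonneg (d + (0 : ℝ) • D + (c / ‖D‖) • D)]
      have n5 : r ^ 2 / r' ≤ 4 * r := by
        rw [div_le_iff₀ hr']; nlinarith
      rw [n1, n2, zero_mul, add_zero] at k
      linarith
    have k1 := abs_le.1 (aux r (abs_of_pos hr))
    have k2 := abs_le.1 (aux (-r) (by rw [abs_neg, abs_of_pos hr]))
    by_contra hh
    push Not at hh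
    nlinarith [k1.2, k2.1]
  refine ⟨hD, ?_⟩
  have aux : ∀ c : ℝ, |c| = r' → |A + c * (h' - h + ‖D‖ ^ 2 / 2)| ≤ 75 / 2 * r := by
    intro c hc
    have k := key c 0 hc.le
    have n3 : ‖d + c • D + 0‖ ≤ 6 * r := by
      rw [add_zero]
      refine (norm_add_le _ _).trans ?_
      rw [norm_smul, Real.norm_eq_abs, hc]
      nlinarith
    have n4 : ‖d + c • D + 0‖ ^ 2 / r ≤ 36 * r := by
      rw [div_le_iff₀ hr]
      nlinarith [norm_nonneg (d + c • D + 0)]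
    rw [inner_zero_right, norm_zero, add_zero] at k
    simp only [ne_eq, OfNat.ofNat_ne_zero, not_false_eq_true, zero_pow, zero_div] at k
    linarith
  have k1 := abs_le.1 (aux r' (abs_of_pos hr'))
  have k2 := abs_le.1 (aux (-r') (by rw [abs_neg, abs_of_pos hr']))
  have hG : |h' - h + ‖D‖ ^ 2 / 2| ≤ 150 := by
    rw [abs_le]
    constructor
    · by_contra hh
      push Not at hh
      nlinarith [k1.1, k2.2]
    · by_contra hh
      push Not at hh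
      nlinarith [k1.2, k2.1]
  obtain ⟨g1, g2⟩ := abs_le.1 hG
  have : ‖D‖ ^ 2 ≤ 100 := by nlinarith [norm_nonneg D]
  rw [abs_le]
  constructor <;> nlinarith [sq_nonneg ‖D‖]

/-- same point, scales `r ≤ r' ≤ 2 r` -/
theorem frame_base {W : E × ℝ → ℝ} {z : E × ℝ} {r r' : ℝ} {V V' : E} {h h' β β' : ℝ}
    (hr : 0 < r) (h1 : r ≤ r') (h2 : r' ≤ 2 * r) (hfl : Flat W z (r / 2) 1)
    (hF : IsFrame W z r 1 V h β) (hF' : IsFrame W z r' 1 V' h' β') :
    ‖V' - V‖ ≤ 400 ∧ |h' - h| ≤ 400 := by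
  obtain ⟨U, k, γ, hU⟩ := hfl
  have z1 : ∀ (ρ : ℝ), 0 < ρ → |z.2 - z.2| ≤ ρ / 2 := fun ρ hρ => by
    rw [sub_self, abs_zero]; linarith
  have z2 : ∀ (ρ : ℝ) (X : E), 0 < ρ → ‖z.1 - z.1 - (z.2 - z.2) • X‖ ≤ ρ := fun ρ X hρ => by
    rw [sub_self, sub_self, zero_smul, sub_zero, norm_zero]; exact hρ.le
  have hr' : 0 < r' := by linarith
  obtain ⟨a1, a2⟩ := frame_cmp' hr hF hU (z1 r hr) (z2 r V hr) (by linarith) le_rfl
  obtain ⟨b1, b2⟩ := frame_cmp' hr' hF' hU (z1 r' hr') (z2 r' V' hr') (by linarith) (by linarith)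
  constructor
  · have : V' - V = (U - V) - (U - V') := by abel
    rw [this]
    exact (norm_sub_le _ _).trans (by linarith)
  · obtain ⟨c1, c2⟩ := abs_le.1 a2
    obtain ⟨c3, c4⟩ := abs_le.1 b2
    rw [abs_le]
    constructor <;> linarith

/-- Two frames at nearby points and comparable scales. -/
theorem frame_cmp : ∃ C : ℝ, 0 < C ∧ ∀ (W : E × ℝ → ℝ) (z z' : E × ℝ) (r r' : ℝ) (V V' : E)
    (h h' β β' : ℝ), 0 < r → IsFrame W z r 1 V h β → IsFrame W z' r' 1 V' h' β' →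
    |z'.2 - z.2| ≤ r / 2 → ‖z'.1 - z.1 - (z'.2 - z.2) • V‖ ≤ r → r / 4 ≤ r' → r' ≤ r / 2 →
    ‖V' - V‖ ≤ C ∧ |h' - h| ≤ C := by
  refine ⟨200, by norm_num, fun W z z' r r' V V' h h' β β' hr hF hF' ht hd h1 h2 => ?_⟩
  obtain ⟨a, b⟩ := frame_cmp' hr hF hF' ht hd h1 h2
  exact ⟨by linarith, b⟩

/-- Frames at one point, `m` dyadic scales apart. -/
theorem frame_chain : ∃ C : ℝ, 0 < C ∧ ∀ (W : E × ℝ → ℝ) (z : E × ℝ) (m : ℕ) (r r' : ℝ)
    (V V' : E) (h h' β β' : ℝ), 0 < r → r ≤ r' → r' ≤ 2 ^ m * r →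
    (∀ ρ : ℝ, 0 < ρ → ρ ≤ r' → Flat W z ρ 1) →
    IsFrame W z r 1 V h β → IsFrame W z r' 1 V' h' β' →
    ‖V' - V‖ ≤ C * (m + 1) ∧ |h' - h| ≤ C * (m + 1) := by
  refine ⟨400, by norm_num, fun W z m => ?_⟩
  induction m with
  | zero =>
    intro r r' V V' h h' β β' hr h1 h2 hfl hF hF'
    rw [pow_zero, one_mul] at h2
    obtain ⟨a, b⟩ := frame_base hr h1 (by linarith) (hfl _ (by linarith) (by linarith)) hF hF'
    constructor <;> simpa
  | succ m ih =>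
    intro r r' V V' h h' β β' hr h1 h2 hfl hF hF'
    have hm : (0 : ℝ) ≤ m := Nat.cast_nonneg m
    push_cast
    rcases le_total r' (2 * r) with h3 | h3
    · obtain ⟨a, b⟩ := frame_base hr h1 h3 (hfl _ (by linarith) (by linarith)) hF hF'
      constructor <;> linarith
    · obtain ⟨U, k, γ, hU⟩ := hfl (r' / 2) (by linarith) (by linarith)
      rw [pow_succ] at h2
      obtain ⟨a1, a2⟩ := ih r (r' / 2) V U h k β γ hr (by linarith) (by linarith)
        (fun ρ h0 h4 => hfl ρ h0 (by linarith)) hF hU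
      obtain ⟨b1, b2⟩ := frame_base (r := r' / 2) (by linarith) (by linarith) (by linarith)
        (hfl _ (by linarith) (by linarith)) hU hF'
      constructor
      · have : V' - V = (V' - U) + (U - V) := by abel
        rw [this]
        exact (norm_add_le _ _).trans (by linarith)
      · obtain ⟨c1, c2⟩ := abs_le.1 a2
        obtain ⟨c3, c4⟩ := abs_le.1 b2
        rw [abs_le]
        constructor <;> linarith

end Crest.Agent.R94
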