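import Crest.Agent.R94.FlatC
import Crest.Agent.R94.Chain

/-! Row 94: the gap vanishes. -/

set_option autoImplicit false

open scoped RealInnerProductSpace
open Filter Topology Set

namespace Crest.Agent.R94

variable {E : Type*} [NormedAddCommGroup E] [InnerProductSpace ℝ E]

theorem ZCls.gapLe_zero [FiniteDimensional ℝ E] {W : E × ℝ → ℝ} (hW : ZCls W) : GapLe W 0 := by
  by_contra hcon
  simp only [GapLe, zero_mul, not_forall, not_le] at hcon
  obtain ⟨z₁, s₁, hs₁, hg₁⟩ := hcon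
  set S : Set ℝ := {x | ∃ (z : E × ℝ) (s : ℝ), 0 < s ∧ x = gap W s z / s} with hS
  have hub : ∀ x ∈ S, x ≤ 16 := by
    rintro _ ⟨z, s, hs, rfl⟩
    rw [div_le_iff₀ hs]
    exact hW.gapLe_sixteen z s hs
  have hbd : BddAbove S := ⟨16, hub⟩
  have hne : S.Nonempty := ⟨_, z₁, s₁, hs₁, rfl⟩
  set Λ := sSup S with hΛ
  have hΛ16 : Λ ≤ 16 := csSup_le hne hub
  have hGL : GapLe W Λ := fun z s hs => by
    rw [← div_le_iff₀ hs]
    exact le_csSup hbd ⟨z, s, hs, rfl⟩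
  have hΛ0 : 0 < Λ := (div_pos hg₁ hs₁).trans_le (le_csSup hbd ⟨z₁, s₁, hs₁, rfl⟩)
  obtain ⟨R₀, hR₀, hch⟩ := chainA (E := E)
  obtain ⟨J, δ, hJ, hδ, hfw⟩ := flat_window (E := E) R₀ (Λ / 4) (by positivity)
  have hJ0 : (0 : ℝ) < J := by exact_mod_cast hJ
  obtain ⟨M₀, hB⟩ := stepB (E := E) (δ / (2 * J)) (by positivity)
  set N := M₀ + 1 with hN
  set M := 2 * J * N with hM
  choose μj hμj hch using fun j => hch j (Λ / 4) (by positivity)
  obtain ⟨j₀, -, hj₀⟩ := Finset.exists_min_image (Finset.range (M + 1)) μj ⟨0, by simp⟩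
  set s : ℝ := (1 / 2) ^ M with hs
  have hs0 : 0 < s := by positivity
  obtain ⟨μ, hμ, hB⟩ := hB M (by rw [hM, hN]; nlinarith) (μj j₀ * s) (mul_pos (hμj j₀) hs0)
  obtain ⟨_, ⟨z₀, s₀, hs₀, rfl⟩, hx⟩ := exists_lt_of_lt_csSup hne (sub_lt_self Λ hμ)
  obtain ⟨V₀, h₀, b₀, hF₀⟩ := hW.flat z₀ (8 * s₀) (by positivity)
  set W₁ := Crest.Agent.R94.resc W z₀ s₀ 1 V₀ h₀ b₀ with hW₁
  have hZ₁ : ZCls W₁ := hW.resc hs₀ z₀ V₀ h₀ b₀
  have hG₁ : GapLe W₁ Λ := hW.gapLe_resc hs₀ hGL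
  obtain ⟨z, hz1, hz2⟩ := hB W₁ Λ hZ₁ (IsFrame.normed_resc hs₀ one_pos (by rwa [one_pow])) hΛ16 hG₁
    (by
      rw [hW₁, hW.gap_resc hs₀ one_pos, mul_one, pt_zero]
      exact hx.le)
  set sig : ℕ → ℝ := fun i => bslope W₁ z (2 ^ i * s) with hsig
  have hsum : ∑ i ∈ Finset.range N, (sig (2 * J * (i + 1)) - sig (2 * J * i)) ≤
      ∑ _i ∈ Finset.range N, δ := by
    rw [Finset.sum_range_sub (fun i => sig (2 * J * i)), Finset.sum_const, Finset.card_range,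
      nsmul_eq_mul]
    have h1 : (2 : ℝ) ^ M * s = 1 := by rw [hs, ← mul_pow]; norm_num
    have h2 : δ / (2 * J) * M = N * δ := by
      rw [hM]; push_cast; field_simp
    simp only [hsig, mul_zero, pow_zero, one_mul, ← hM, h1]
    linarith
  obtain ⟨i, hi, hiδ⟩ := Finset.exists_le_of_sum_le ⟨0, by simp [hN]⟩ hsum
  rw [Finset.mem_range] at hi
  set j := 2 * J * i + J with hj
  have hjM : j ≤ M := by
    have : 2 * J * (i + 1) ≤ 2 * J * N := Nat.mul_le_mul_left _ hi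
    rw [hj, hM]; nlinarith
  set r : ℝ := 2 ^ j * s with hr
  have hr0 : 0 < r := by positivity
  obtain ⟨V, h, b, hF⟩ := hZ₁.flat z (8 * r) (by positivity)
  obtain ⟨y, hy1, hy2⟩ := hch j W₁ Λ hZ₁ hΛ16 hG₁ z s hs0 (by
    have := mul_le_mul_of_nonneg_right (hj₀ j (Finset.mem_range.2 (Nat.lt_succ_of_le hjM))) hs0.le
    linarith) V h b hF
  rw [← hr] at hy1 hy2
  have h2j : (1 : ℝ) ≤ 2 ^ j := one_le_pow₀ one_le_two
  have hfin := hfw (Crest.Agent.R94.resc W₁ z r 1 V h b) (hZ₁.resc hr0 z V h b)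
    (IsFrame.normed_resc hr0 one_pos (by rwa [one_pow]))
    (by
      rw [hZ₁.bslope_resc hr0 (by positivity), hZ₁.bslope_resc hr0 (by positivity), pt_zero]
      have e1 : r * 2 ^ J = 2 ^ (2 * J * (i + 1)) * s := by
        rw [hr, hj]; ring
      have e2 : r * (1 / 2) ^ J = 2 ^ (2 * J * i) * s := by
        have : (2 : ℝ) ^ J * (1 / 2) ^ J = 1 := by rw [← mul_pow]; norm_num
        rw [hr, hj, pow_add]
        linear_combination (2 ^ (2 * J * i) * s) * this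
      rw [e1, e2]
      simp only [hsig] at hiδ
      linarith)
    (r⁻¹ • (y - z.1 + ((2 ^ j - 1) * s) • V)) (-((2 ^ j - 1) * s) / r)
    (by
      rw [norm_smul, Real.norm_eq_abs, abs_of_pos (inv_pos.2 hr0), inv_mul_le_iff₀ hr0]
      linarith)
    (by
      rw [abs_div, abs_neg, abs_of_pos hr0, abs_of_nonneg (mul_nonneg (by linarith) hs0.le),
        div_le_one hr0, hr]
      linarith)
  rw [hZ₁.gap_resc hr0 one_pos, mul_one, div_le_iff₀ hr0] at hfin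
  have hpt : pt z r 1 V (r⁻¹ • (y - z.1 + ((2 ^ j - 1) * s) • V), -((2 ^ j - 1) * s) / r) =
      (y, z.2 - (2 ^ j - 1) * s) := by
    simp only [pt, mul_one, smul_smul, mul_inv_cancel₀ hr0.ne', one_smul,
      mul_div_cancel₀ _ hr0.ne', neg_smul]
    refine Prod.ext ?_ ?_
    · simp only []; abel
    · simp only []; ring
  rw [hpt] at hfin
  have := mul_pos hΛ0 hr0
  linarith

end Crest.Agent.R94
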