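import Crest.Agent.R94.Basic

/-! Row 94: comparison with cones gives the Hopf-Lax class. -/

set_option autoImplicit false

open scoped RealInnerProductSpace
open Filter Topology Set

namespace Crest.Agent.R94

variable {E : Type*} [NormedAddCommGroup E] [InnerProductSpace ℝ E]

namespace HopfLax

theorem val_le {v : E → ℝ} (hv : LipschitzWith 1 v) (x V : E) {s : ℝ} (hs : 0 ≤ s) :
    v (x + s • V) ≤ v x + s * ‖V‖ := by
  have h := hv.le_add_mul (x + s • V) x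
  rwa [dist_eq_norm, add_sub_cancel_left, norm_smul, Real.norm_of_nonneg hs, NNReal.coe_one,
    one_mul] at h

theorem le_T {v : E → ℝ} (hv : LipschitzWith 1 v) (x : E) (t : ℝ) {s : ℝ} (hs : 0 ≤ s) (V : E) :
    v (x + s • V) - s * ‖V‖ ^ 2 / 2 ≤ Tup (fun z : E × ℝ => v z.1) s (x, t) := by
  refine le_ciSup (f := fun V : E => v (x + s • V) - s * ‖V‖ ^ 2 / 2) ⟨v x + s / 2, ?_⟩ V
  rintro _ ⟨U, rfl⟩
  have h := val_le hv x U hs
  have h2 := mul_nonneg hs (sq_nonneg (‖U‖ - 1))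
  simp only
  nlinarith

theorem ball_le {v : E → ℝ} (hv : LipschitzWith 1 v) (x : E) (t : ℝ) {s A : ℝ} (hs : 0 ≤ s)
    {w : E} (hw : ‖w - x‖ ≤ A * s) :
    v w ≤ Tup (fun z : E × ℝ => v z.1) s (x, t) + s * A ^ 2 / 2 := by
  rcases hs.eq_or_lt with rfl | hs'
  · have h1 : w = x := by
      rw [mul_zero] at hw
      exact sub_eq_zero.1 (norm_le_zero_iff.1 hw)
    have h2 := le_T hv x t le_rfl 0
    rw [h1]
    simpa using h2
  · have h2 := le_T hv x t hs (s⁻¹ • (w - x))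
    rw [smul_inv_smul₀ hs'.ne', add_sub_cancel] at h2
    have h3 : ‖s⁻¹ • (w - x)‖ ≤ A := by
      rw [norm_smul, Real.norm_of_nonneg (inv_nonneg.2 hs), inv_mul_le_iff₀ hs', mul_comm]
      exact hw
    have h4 : ‖s⁻¹ • (w - x)‖ ^ 2 ≤ A ^ 2 := pow_le_pow_left₀ (norm_nonneg _) h3 2
    have h5 := mul_le_mul_of_nonneg_left h4 hs
    linarith

theorem T_mono {v : E → ℝ} (hv : LipschitzWith 1 v) (x : E) (t : ℝ) {s s' : ℝ} (hs : 0 ≤ s)
    (h : s < s') :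
    Tup (fun z : E × ℝ => v z.1) s (x, t) ≤ Tup (fun z : E × ℝ => v z.1) s' (x, t) := by
  have hs' : 0 < s' := hs.trans_lt h
  refine ciSup_le fun V => ?_
  have h1 := le_T hv x t hs'.le ((s / s') • V)
  have h2 : 0 ≤ s / s' := div_nonneg hs hs'.le
  have h3 : s / s' ≤ 1 := (div_le_one hs').2 h.le
  rw [smul_smul, mul_div_cancel₀ _ hs'.ne', norm_smul, Real.norm_of_nonneg h2] at h1
  have h4 : s' * (s / s' * ‖V‖) ^ 2 = s / s' * (s * ‖V‖ ^ 2) := by
    field_simp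
  have h5 : s / s' * (s * ‖V‖ ^ 2) ≤ s * ‖V‖ ^ 2 := mul_le_of_le_one_left (by positivity) h3
  simp only
  linarith

theorem cvx {v : E → ℝ} (hv : LipschitzWith 1 v) {x : E} (h : CCA v x (1 / 10)) (t : ℝ) :
    ConvexOn ℝ (Set.Icc 0 (1 / 20)) (fun s => Tup (fun z : E × ℝ => v z.1) s (x, t)) := by
  refine LinearOrder.convexOn_of_lt (convex_Icc _ _) fun s₁ h₁ s₂ h₂ hlt a b ha hb hab => ?_
  simp only [smul_eq_mul]
  set T₁ := Tup (fun z : E × ℝ => v z.1) s₁ (x, t) with hT₁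
  set T₂ := Tup (fun z : E × ℝ => v z.1) s₂ (x, t) with hT₂
  have hT : T₁ ≤ T₂ := T_mono hv x t h₁.1 hlt
  have hx : v x ≤ T₁ := by simpa using le_T hv x t h₁.1 0
  obtain rfl : a = 1 - b := by linarith
  have hs0 : 0 ≤ (1 - b) * s₁ + b * s₂ := add_nonneg (mul_nonneg ha.le h₁.1) (mul_nonneg hb.le h₂.1)
  refine ciSup_le fun V => ?_
  change v (x + ((1 - b) * s₁ + b * s₂) • V) - ((1 - b) * s₁ + b * s₂) * ‖V‖ ^ 2 / 2 ≤ _
  set s := (1 - b) * s₁ + b * s₂ with hs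
  have hA := norm_nonneg V
  by_cases hV : ‖V‖ = 0 ∨ 2 ≤ ‖V‖
  · have h1 := val_le hv x V hs0
    have h2 : s * ‖V‖ ≤ s * ‖V‖ ^ 2 / 2 := by
      rcases hV with hV | hV
      · simp [hV]
      · nlinarith [mul_nonneg hs0 (mul_nonneg hA (sub_nonneg.2 hV))]
    nlinarith [mul_nonneg hb.le (sub_nonneg.2 hT)]
  · rw [not_or, not_le] at hV
    have hA' : 0 < ‖V‖ := lt_of_le_of_ne hA (Ne.symm hV.1)
    set A := ‖V‖ with hAdef
    have hd : 0 < A * s₂ - A * s₁ := by nlinarith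
    set g₁ := T₁ + s₁ * A ^ 2 / 2 with hg₁
    set g₂ := T₂ + s₂ * A ^ 2 / 2 with hg₂
    have hg : g₁ ≤ g₂ := by nlinarith [sq_nonneg A]
    set k := (g₂ - g₁) / (A * s₂ - A * s₁) with hk
    have hk' : k * (A * s₂ - A * s₁) = g₂ - g₁ := div_mul_cancel₀ _ hd.ne'
    have hn : ‖x + s • V - x‖ = A * s := by
      rw [add_sub_cancel_left, norm_smul, Real.norm_of_nonneg hs0, mul_comm]
    have h3 := h (A * s₁) (A * s₂) (g₁ - k * (A * s₁)) k (mul_nonneg hA h₁.1) (by linarith)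
      (by nlinarith [h₂.1, h₂.2, hV.2]) (div_nonneg (sub_nonneg.2 hg) hd.le)
      (fun w hw => by linarith [ball_le hv x t h₁.1 hw])
      (fun w hw => by linarith [ball_le hv x t h₂.1 hw]) (x + s • V)
      (by rw [hn]; exact mul_le_mul_of_nonneg_left (by nlinarith) hA)
      (by rw [hn]; exact mul_le_mul_of_nonneg_left (by nlinarith) hA)
    rw [hn] at h3
    have h4 : g₁ - k * (A * s₁) + k * (A * s) = (1 - b) * g₁ + b * g₂ := by
      rw [hs]
      linear_combination b * hk'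
    have h5 : (1 - b) * g₁ + b * g₂ - s * A ^ 2 / 2 = (1 - b) * T₁ + b * T₂ := by
      rw [hs, hg₁, hg₂]
      ring
    linarith

theorem Tdn_eq (v : E → ℝ) (x : E) (t s : ℝ) :
    Tdn (fun z : E × ℝ => v z.1) s (x, t) = -Tup (fun z : E × ℝ => -v z.1) s (x, t) := by
  unfold Tdn Tup
  rw [← (Equiv.neg E).iInf_comp, iInf, iSup, ← Real.sInf_neg, ← Set.image_neg_eq_neg,
    ← Set.range_comp]
  congr 2
  funext V
  simp only [Equiv.neg_apply, smul_neg, sub_neg_eq_add, norm_neg, Function.comp]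
  ring

end HopfLax

theorem hlClass_of_cca {v : E → ℝ} (hv : LipschitzWith 1 v)
    (h1 : ∀ x : E, ‖x‖ ≤ 4 / 5 → CCA v x (1 / 10))
    (h2 : ∀ x : E, ‖x‖ ≤ 4 / 5 → CCA (fun w => -v w) x (1 / 10)) : HLClass v := by
  intro y t hy
  refine ⟨HopfLax.cvx hv (h1 y hy) t, ?_⟩
  simp only [HopfLax.Tdn_eq]
  exact (HopfLax.cvx (v := fun w => -v w) hv.neg (h2 y hy) t).neg

end Crest.Agent.R94
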