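import Crest.Agent.R94.Affine

/-! Row 94: improvement of flatness. -/

set_option autoImplicit false

open scoped RealInnerProductSpace
open Filter Topology Set

namespace Crest.Agent.R94

variable {E : Type*} [NormedAddCommGroup E] [InnerProductSpace ℝ E]

theorem improve_flat [FiniteDimensional ℝ E] : ∃ R : ℝ, 8 ≤ R ∧ ∀ W : E × ℝ → ℝ,
    ZLoc W R → Normed W → Flat W (0, 0) 1 (1 / 2) := by
  by_contra hcon
  push Not at hcon
  choose Wk hZ hN hF using fun k : ℕ => hcon ((k : ℝ) + 8) (by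
    have : (0 : ℝ) ≤ k := Nat.cast_nonneg k
    linarith)
  obtain ⟨W, hW, -, hc⟩ := exists_limit Wk (fun k => (hZ k).mono (by linarith)) hN
  obtain ⟨V, γ, β, hA⟩ := hW.affine
  have hη : 0 < 1 / (2 * (1 + 2 * ‖V‖ ^ 2)) := by positivity
  obtain ⟨k, hk⟩ := (hc 1 _ hη).exists
  refine hF k ⟨V, γ + ‖V‖ ^ 2 / 2, β, fun τ ξ hτ => ?_⟩
  have h1 := hk (τ • V + ξ) τ hτ
  rw [hA, inner_add_right, real_inner_smul_right, real_inner_self_eq_norm_sq] at h1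
  simp only [zero_add]
  have h2 : ‖τ • V + ξ‖ ^ 2 ≤ 2 * ‖V‖ ^ 2 + 2 * ‖ξ‖ ^ 2 := by
    have h3 : ‖τ • V + ξ‖ ≤ ‖V‖ + ‖ξ‖ := by
      refine (norm_add_le _ _).trans ?_
      rw [norm_smul, Real.norm_eq_abs]
      nlinarith [norm_nonneg V]
    nlinarith [norm_nonneg (τ • V + ξ), norm_nonneg V, norm_nonneg ξ,
      sq_nonneg (‖V‖ - ‖ξ‖)]
  have h4 : 1 / (2 * (1 + 2 * ‖V‖ ^ 2)) * (1 + ‖τ • V + ξ‖ ^ 2) ≤ 1 / 2 * 1 + ‖ξ‖ ^ 2 / 1 := by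
    rw [one_div, inv_mul_le_iff₀ (by positivity)]
    nlinarith [sq_nonneg ‖V‖, sq_nonneg ‖ξ‖, mul_nonneg (sq_nonneg ‖V‖) (sq_nonneg ‖ξ‖)]
  refine le_trans (le_of_eq ?_) (h1.trans h4)
  congr 1
  ring

end Crest.Agent.R94
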