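import Crest.Agent.R94.Improve

/-! Row 94: geometric decay of the flatness. -/

set_option autoImplicit false

open scoped RealInnerProductSpace
open Filter Topology Set

namespace Crest.Agent.R94

variable {E : Type*} [NormedAddCommGroup E] [InnerProductSpace ℝ E]

theorem Iter.cvx {f g : ℝ → ℝ} {R r c d e : ℝ} (hf : ConvexOn ℝ (Icc 0 (1 / 20)) f) (hr : 0 < r)
    (hR : r * R ≤ 1 / 20) (he : 0 < e)
    (hg : ∀ s ∈ Icc 0 R, g s = (f (r * s) - c - d * (r * s)) / e) : ConvexOn ℝ (Icc 0 R) g := by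
  have hm : ∀ s ∈ Icc 0 R, r * s ∈ Icc (0 : ℝ) (1 / 20) := fun s hs =>
    ⟨mul_nonneg hr.le hs.1, (mul_le_mul_of_nonneg_left hs.2 hr.le).trans hR⟩
  refine ⟨convex_Icc _ _, fun x hx y hy a b ha hb hab => ?_⟩
  have h1 := hf.2 (hm x hx) (hm y hy) ha hb hab
  rw [hg _ (convex_Icc _ _ hx hy ha hb hab), hg x hx, hg y hy]
  simp only [smul_eq_mul] at h1 ⊢
  rw [show a * (r * x) + b * (r * y) = r * (a * x + b * y) by ring] at h1
  rw [← mul_div_assoc, ← mul_div_assoc, ← add_div]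
  refine div_le_div_of_nonneg_right ?_ he.le
  have : c = a * c + b * c := by rw [← add_mul, hab, one_mul]
  nlinarith

theorem Iter.lip {v : E → ℝ} (hv : LipschitzWith 1 v) (x y : E) : |v x - v y| ≤ ‖x - y‖ := by
  simpa [Real.dist_eq, dist_eq_norm] using hv.dist_le_mul x y

theorem Iter.norm_le {v : E → ℝ} (hv : LipschitzWith 1 v) {z : E × ℝ} {ρ a h β : ℝ} {V : E}
    (hρ : 0 < ρ) (ha : a ≤ 1 / 4) (hF : IsFrame (fun z : E × ℝ => v z.1) z ρ a V h β) :
    ‖V‖ ≤ 2 := by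
  rcases eq_or_ne V 0 with rfl | hV
  · simp
  have hV0 : 0 < ‖V‖ := norm_pos_iff.2 hV
  set ξ : E := (ρ / 2 / ‖V‖) • V with hξ
  have h1 : ‖ξ‖ = ρ / 2 := by
    rw [hξ, norm_smul, Real.norm_of_nonneg (by positivity), div_mul_cancel₀ _ hV0.ne']
  have h2 : ⟪V, ξ⟫ = ρ / 2 * ‖V‖ := by
    rw [hξ, real_inner_smul_right, real_inner_self_eq_norm_sq]
    field_simp
  have h3 := hF 0 ξ (by simpa using hρ.le)
  have h4 := hF 0 (-ξ) (by simpa using hρ.le)
  have h5 := Iter.lip hv (z.1 + ξ) (z.1 + -ξ)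
  have h6 : ‖z.1 + ξ - (z.1 + -ξ)‖ = ρ := by
    rw [show z.1 + ξ - (z.1 + -ξ) = (2 : ℝ) • ξ by rw [two_smul]; abel, norm_smul, h1]
    simp only [Real.norm_ofNat]
    ring
  simp only [zero_smul, add_zero, mul_zero, sub_zero, inner_neg_right, norm_neg, h1, h2] at h3 h4
  have h7 : (ρ / 2) ^ 2 / ρ = ρ / 4 := by field_simp; ring
  rw [h7] at h3 h4
  rw [h6] at h5
  have h8 := mul_le_mul_of_nonneg_right ha hρ.le
  have h9 : ρ * ‖V‖ ≤ ρ * 2 := by
    linarith [(abs_le.1 h3).1, (abs_le.1 h4).2, (abs_le.1 h5).2]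
  exact le_of_mul_le_mul_left h9 hρ

theorem Iter.upBdd {v : E → ℝ} (hv : LipschitzWith 1 v) {s : ℝ} (hs : 0 ≤ s) (z : E × ℝ) :
    UpBdd (fun z : E × ℝ => v z.1) s z := by
  refine upBdd_of_le (y := z.1) (t := z.2) (c := v z.1 + s / 2) fun V => ?_
  have h := (abs_le.1 (Iter.lip hv (z.1 + s • V) z.1)).2
  rw [add_sub_cancel_left, norm_smul, Real.norm_of_nonneg hs] at h
  nlinarith [mul_nonneg hs (sq_nonneg (‖V‖ - 1))]

theorem Iter.dnBdd {v : E → ℝ} (hv : LipschitzWith 1 v) {s : ℝ} (hs : 0 ≤ s) (z : E × ℝ) :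
    DnBdd (fun z : E × ℝ => v z.1) s z := by
  refine dnBdd_of_le (y := z.1) (t := z.2) (c := v z.1 - s / 2) fun V => ?_
  have h := (abs_le.1 (Iter.lip hv z.1 (z.1 - s • V))).2
  rw [sub_sub_cancel, norm_smul, Real.norm_of_nonneg hs] at h
  nlinarith [mul_nonneg hs (sq_nonneg (‖V‖ - 1))]

theorem iterate_flat [FiniteDimensional ℝ E] : ∃ R : ℝ, 8 ≤ R ∧ ∀ v : E → ℝ,
    LipschitzWith 1 v → HLClass v → ∀ (k : ℕ) (y : E) (t r : ℝ), ‖y‖ ≤ 1 / 2 → 0 < r →
      r ≤ (1 / 20) / R ^ k → Flat (fun z : E × ℝ => v z.1) (y, t) r ((1 / 2) ^ k / 4) := by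
  obtain ⟨R, hR, himp⟩ := improve_flat (E := E)
  have hR0 : 0 < R := by linarith
  refine ⟨R, hR, fun v hv hH => ?_⟩
  suffices key : ∀ (k : ℕ) (y : E) (t r : ℝ), ‖y‖ ≤ 1 / 2 + 6 * ((1 / 20) / R ^ k) → 0 < r →
      r ≤ (1 / 20) / R ^ k → Flat (fun z : E × ℝ => v z.1) (y, t) r ((1 / 2) ^ k / 4) from
    fun k y t r hy hr hrk => key k y t r (hy.trans (le_add_of_nonneg_right (by positivity))) hr hrk
  intro k
  induction k with
  | zero =>
    intro y t r _ hr _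
    refine ⟨0, 0, v y, fun τ ξ _ => ?_⟩
    have h := Iter.lip hv (y + ξ) y
    rw [add_sub_cancel_left] at h
    simp only [smul_zero, add_zero, inner_zero_left, sub_zero, norm_zero, pow_zero, ne_eq,
      OfNat.ofNat_ne_zero, not_false_eq_true, zero_pow, zero_div, zero_mul]
    refine h.trans ?_
    rw [← sub_le_iff_le_add', le_div_iff₀ hr]
    nlinarith [sq_nonneg (‖ξ‖ - r / 2)]
  | succ k ih =>
    intro y t r hy hr hrk
    set ρ : ℝ := (1 / 20) / R ^ k with hρ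
    have hρ0 : 0 < ρ := by positivity
    have hρ1 : ρ ≤ 1 / 20 := div_le_self (by norm_num) (one_le_pow₀ (by linarith))
    have e : (1 / 20) / R ^ (k + 1) = ρ / R := by rw [hρ, pow_succ, div_mul_eq_div_div]
    rw [e] at hy hrk
    have hrR : r * R ≤ ρ := (le_div_iff₀ hR0).1 hrk
    have hρR : ρ / R ≤ ρ / 8 := div_le_div_of_nonneg_left hρ0.le (by norm_num) hR
    set a : ℝ := (1 / 2) ^ k / 4 with ha
    have ha0 : 0 < a := by positivity
    have ha1 : a ≤ 1 / 4 :=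
      div_le_div_of_nonneg_right (pow_le_one₀ (by norm_num) (by norm_num)) (by norm_num)
    obtain ⟨l, hl, hla⟩ : ∃ l : ℝ, 0 < l ∧ l ^ 2 = a :=
      ⟨Real.sqrt a, Real.sqrt_pos.2 ha0, Real.sq_sqrt ha0.le⟩
    have hl1 : l ≤ 1 / 2 := by nlinarith
    obtain ⟨V, h, β, hF⟩ := ih y t (8 * r) (by linarith) (by positivity) (by nlinarith)
    have hV := Iter.norm_le hv (by positivity) ha1 hF
    have hpt : ∀ p : E × ℝ, ‖p.1‖ ≤ R → |p.2| ≤ R → ‖(pt (y, t) r l V p).1‖ ≤ 1 / 2 + 6 * ρ := by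
      intro p h1 h2
      refine (norm_add₃_le).trans ?_
      rw [norm_smul, norm_smul, Real.norm_eq_abs, abs_mul, abs_of_pos hr,
        Real.norm_of_nonneg (by positivity)]
      have h3 : r * |p.2| * ‖V‖ ≤ r * R * 2 := by gcongr
      have h4 : r * l * ‖p.1‖ ≤ r * (1 / 2) * R := by gcongr
      linarith
    have hZ : ZLoc (resc (fun z : E × ℝ => v z.1) (y, t) r l V h β) R := by
      refine ⟨fun p r₁ h1 h2 h3 h4 => ?_, fun p h1 h2 => ?_, fun p h1 h2 => ?_⟩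
      · obtain ⟨V₁, h₁, β₁, hF₁⟩ := ih (pt (y, t) r l V p).1 (pt (y, t) r l V p).2 (r * r₁)
          (hpt p h1 h2) (by positivity) ((mul_le_mul_of_nonneg_left h4 hr.le).trans hrR)
        have h5 := IsFrame.to_resc (h := h) (β := β) hr hl h3 hF₁
        rw [hla, div_self ha0.ne'] at h5
        exact ⟨_, _, _, h5⟩
      · exact Iter.cvx (hH (pt (y, t) r l V p).1 (pt (y, t) r l V p).2
          ((hpt p h1 h2).trans (by linarith))).1 hr (hrR.trans hρ1) (by positivity)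
          fun s hs => Tup_resc hr hl hs.1 (Iter.upBdd hv (mul_nonneg hr.le hs.1) _)
      · refine neg_convexOn_iff.1 (Iter.cvx (c := -aff r l V h β p) (d := h) (e := l ^ 2 * r)
          (hH (pt (y, t) r l V p).1 (pt (y, t) r l V p).2
          ((hpt p h1 h2).trans (by linarith))).2.neg hr (hrR.trans hρ1) (by positivity)
          fun s hs => ?_)
        simp only [Pi.neg_apply]
        rw [Tdn_resc hr hl hs.1 (Iter.dnBdd hv (mul_nonneg hr.le hs.1) _)]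
        ring
    obtain ⟨V₁, h₁, β₁, hF₁⟩ := himp _ hZ (IsFrame.normed_resc hr hl (hla ▸ hF))
    have h5 := IsFrame.of_resc hr hl one_pos hF₁
    rw [pt_zero, mul_one, hla, show 1 / 2 * a = (1 / 2) ^ (k + 1) / 4 by rw [ha]; ring] at h5
    exact ⟨_, _, _, h5⟩

end Crest.Agent.R94
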