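import Crest.Agent.R94.FrameEst
import Crest.Agent.R94.EnvConvex

/-! Row 94: the mean velocity of the end points. -/

set_option autoImplicit false

open scoped RealInnerProductSpace
open Filter Topology Set

namespace Crest.Agent.R94

variable {E : Type*} [NormedAddCommGroup E] [InnerProductSpace ℝ E]

/-- A `δ`-supergradient (up to a quadratic) of the envelope is close to the frame velocity. -/
theorem ZCls.meanVel_le {W : E × ℝ → ℝ} (hW : ZCls W) {y : E} {t s : ℝ} (hs : 0 < s) {V : E}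
    {h β : ℝ} (hF : IsFrame W (y, t) (8 * s) 1 V h β) {ε δ : ℝ} (h0 : 0 < ε) (h1 : ε ≤ s)
    (hδ : δ ≤ ε) {U : E}
    (hU : ∀ ζ : E, env s (fun y' => Tdn W ε (y', t)) (y + ζ) ≤
      env s (fun y' => Tdn W ε (y', t)) y + δ + ⟪U, ζ⟫ + ‖ζ‖ ^ 2 / (2 * ε)) :
    ‖U - V‖ ≤ 19 := by
  by_cases hUV : U - V = 0
  · rw [hUV, norm_zero]; norm_num
  have hn : 0 < ‖U - V‖ := norm_pos_iff.mpr hUV
  set e : E := ‖U - V‖⁻¹ • (U - V) with he
  have he1 : ‖e‖ = 1 := by
    rw [he, norm_smul, norm_inv, norm_norm, inv_mul_cancel₀ hn.ne']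
  have hinner : ⟪U, e⟫ - ⟪V, e⟫ = ‖U - V‖ := by
    rw [← inner_sub_left, he, real_inner_smul_right, real_inner_self_eq_norm_sq]
    field_simp
  clear_value e
  set f : E → ℝ := fun y' => Tdn W ε (y', t) with hf
  have hb : ∀ ζ : E, EnvBdd s f (y + ζ) := fun ζ => hW.envBdd hs h0.le _ t
  have hcv := (env_convexOn hs hb).2 (Set.mem_univ (-(ε • e))) (Set.mem_univ (s • e))
    (show 0 ≤ s / (s + ε) by positivity) (show 0 ≤ ε / (s + ε) by positivity)
    (by field_simp)
  have hz : (s / (s + ε)) • (-(ε • e)) + (ε / (s + ε)) • (s • e) = 0 := by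
    rw [smul_neg, smul_smul, smul_smul, ← neg_smul, ← add_smul]
    have : -(s / (s + ε) * ε) + ε / (s + ε) * s = 0 := by ring
    rw [this, zero_smul]
  rw [hz] at hcv
  have hε2 : ε ≤ 2 * s := by linarith
  have n1 : ‖-(ε • e)‖ = ε := by rw [norm_neg, norm_smul, he1, mul_one, Real.norm_of_nonneg h0.le]
  have n2 : ‖s • e‖ = s := by rw [norm_smul, he1, mul_one, Real.norm_of_nonneg hs.le]
  simp only [add_zero, norm_zero, smul_eq_mul, n1, n2] at hcv
  have a1 : env s f (y + s • e) ≤ β + s * ⟪V, e⟫ - h * ε + 8 * s + s / 8 := by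
    have := (env_le_self (hb (s • e))).trans (hF.Tdn_le hs h0.le hε2 (s • e))
    rw [n2, real_inner_smul_right] at this
    have e1 : s ^ 2 / (8 * s) = s / 8 := by field_simp
    linarith
  have a2 : β - h * ε - 8 * s ≤ env s f y := hF.le_env hs h0.le hε2
  have a3 := hU (-(ε • e))
  rw [n1, inner_neg_right, real_inner_smul_right] at a3
  have e2 : ε ^ 2 / (2 * ε) = ε / 2 := by field_simp
  have e3 : s ^ 2 / (2 * s) = s / 2 := by field_simp
  have e4 : ε ^ 2 / (2 * s) ≤ ε / 2 := by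
    rw [div_le_div_iff₀ (by positivity) (by positivity)]; nlinarith
  rw [e2] at a3
  rw [e3] at hcv
  set A := env s f y
  set B := env s f (y + -(ε • e))
  set D := env s f (y + s • e)
  have hse : 0 < s + ε := by positivity
  have h5 : (s + ε) * A ≤ s * (B + ε / 2) + ε * (D + s / 2) := by
    have e5 : s / (s + ε) * (B + ε ^ 2 / (2 * s)) + ε / (s + ε) * (D + s / 2) =
        (s * (B + ε ^ 2 / (2 * s)) + ε * (D + s / 2)) / (s + ε) := by field_simp
    rw [e5, le_div_iff₀ hse] at hcv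
    have := mul_le_mul_of_nonneg_left e4 hs.le
    simp only [ne_eq, OfNat.ofNat_ne_zero, not_false_eq_true, zero_pow, zero_div, add_zero] at hcv
    nlinarith
  have h6 : s * ε * ‖U - V‖ ≤ s * ε * 19 := by
    rw [← hinner]
    have b1 := mul_le_mul_of_nonneg_left a1 h0.le
    have b2 := mul_le_mul_of_nonneg_left a2 h0.le
    have b3 := mul_le_mul_of_nonneg_left a3 hs.le
    have b4 := mul_le_mul_of_nonneg_left hδ hs.le
    have b5 : 0 < s * ε := by positivity
    nlinarith
  exact le_of_mul_le_mul_left h6 (by positivity)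

end Crest.Agent.R94
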