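import Crest.Agent.R94.Attain

/-! Row 94: one-step moves of the regularised functions. -/

set_option autoImplicit false

open scoped RealInnerProductSpace
open Filter Topology Set

namespace Crest.Agent.R94

variable {E : Type*} [NormedAddCommGroup E] [InnerProductSpace ℝ E]

theorem norm_half_sq_le (a b : E) : ‖(1 / 2 : ℝ) • (a + b)‖ ^ 2 ≤ (‖a‖ ^ 2 + ‖b‖ ^ 2) / 2 := by
  rw [norm_smul, mul_pow, Real.norm_eq_abs, sq_abs]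
  have h1 : ‖a + b‖ ^ 2 ≤ (‖a‖ + ‖b‖) ^ 2 :=
    pow_le_pow_left₀ (norm_nonneg _) (norm_add_le a b) 2
  nlinarith [sq_nonneg (‖a‖ - ‖b‖)]

theorem norm_add_smul_sq (a ζ : E) (c : ℝ) :
    ‖a + c • ζ‖ ^ 2 = ‖a‖ ^ 2 + 2 * c * ⟪a, ζ⟫ + c ^ 2 * ‖ζ‖ ^ 2 := by
  rw [norm_add_sq_real, real_inner_smul_right, norm_smul, mul_pow, Real.norm_eq_abs, sq_abs]
  ring

theorem ZCls.Tup_mid {W : E × ℝ → ℝ} (hW : ZCls W) {σ : ℝ} (hσ : 0 < σ) (z : E × ℝ) :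
    2 * Tup W σ z ≤ W z + Tup W (2 * σ) z := by
  have h := (hW.cvx z).2 (mem_Ici.2 (le_refl (0 : ℝ))) (mem_Ici.2 (by positivity : 0 ≤ 2 * σ))
    (by norm_num : (0 : ℝ) ≤ 1 / 2) (by norm_num : (0 : ℝ) ≤ 1 / 2) (by norm_num)
  simp only [smul_eq_mul, Tup_zero] at h
  rw [show 1 / 2 * 0 + 1 / 2 * (2 * σ) = σ by ring] at h
  linarith

theorem ZCls.Tdn_mid {W : E × ℝ → ℝ} (hW : ZCls W) {σ : ℝ} (hσ : 0 < σ) (z : E × ℝ) :
    W z + Tdn W (2 * σ) z ≤ 2 * Tdn W σ z := by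
  have h := (hW.ccv z).2 (mem_Ici.2 (le_refl (0 : ℝ))) (mem_Ici.2 (by positivity : 0 ≤ 2 * σ))
    (by norm_num : (0 : ℝ) ≤ 1 / 2) (by norm_num : (0 : ℝ) ≤ 1 / 2) (by norm_num)
  simp only [smul_eq_mul, Tdn_zero] at h
  rw [show 1 / 2 * 0 + 1 / 2 * (2 * σ) = σ by ring] at h
  linarith

/-- Moves of `u = Tup W (2σ)`: forward along the maximiser, backward along anything. -/
theorem ZCls.up_move [FiniteDimensional ℝ E] {W : E × ℝ → ℝ} (hW : ZCls W) {σ : ℝ} (hσ : 0 < σ)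
    (y : E) (t : ℝ) : ∃ V : E,
    (∀ V' : E, 2 * Tup W (2 * σ) (y, t) + σ * ‖V‖ ^ 2 / 2 - σ * ‖V'‖ ^ 2 / 2 ≤
      Tup W (2 * σ) (y + σ • V, t + σ) + Tup W (2 * σ) (y - σ • V', t - σ)) ∧
    ∀ ζ : E, Tup W (2 * σ) (y, t) + ⟪V, ζ⟫ - ‖ζ‖ ^ 2 / (4 * σ) ≤ Tup W (2 * σ) (y + ζ, t) := by
  have h2σ : 0 ≤ 2 * σ := by positivity
  obtain ⟨V, hV⟩ := hW.exists_Tup_eq h2σ y t
  refine ⟨V, fun V' => ?_, fun ζ => ?_⟩
  · have h1 := le_Tup (hW.upBdd hσ.le (y + σ • V, t + σ)) V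
    rw [show y + σ • V + σ • V = y + (2 * σ) • V by module,
      show t + σ + σ = t + 2 * σ by ring] at h1
    have h2 := le_Tup (hW.upBdd hσ.le (y, t)) V
    have h3 := hW.Tup_mid hσ (y + σ • V, t + σ)
    have h4 : Tup W σ (y, t) ≤ Tup W (2 * σ) (y - σ • V', t - σ) + σ * ‖V'‖ ^ 2 / 2 := by
      refine Tup_le fun V'' => ?_
      have h5 := le_Tup (hW.upBdd h2σ (y - σ • V', t - σ)) ((1 / 2 : ℝ) • (V' + V''))
      rw [show y - σ • V' + (2 * σ) • (1 / 2 : ℝ) • (V' + V'') = y + σ • V'' by module,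
        show t - σ + 2 * σ = t + σ by ring] at h5
      have h6 := mul_le_mul_of_nonneg_left (norm_half_sq_le V' V'') hσ.le
      linarith
    linarith
  · have h1 := le_Tup (hW.upBdd h2σ (y + ζ, t)) (V + (-(1 / (2 * σ))) • ζ)
    have e1 : y + ζ + (2 * σ) • (V + (-(1 / (2 * σ))) • ζ) = y + (2 * σ) • V := by
      rw [smul_add, smul_smul, show 2 * σ * -(1 / (2 * σ)) = -1 by field_simp]
      module
    rw [e1, norm_add_smul_sq] at h1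
    have e2 : 2 * σ * (‖V‖ ^ 2 + 2 * -(1 / (2 * σ)) * ⟪V, ζ⟫ + (-(1 / (2 * σ))) ^ 2 * ‖ζ‖ ^ 2) / 2 =
        2 * σ * ‖V‖ ^ 2 / 2 - ⟪V, ζ⟫ + ‖ζ‖ ^ 2 / (4 * σ) := by
      field_simp
      ring
    linarith

/-- Moves of `v = Tdn W (2σ)`: backward along the minimiser, forward along anything. -/
theorem ZCls.dn_move [FiniteDimensional ℝ E] {W : E × ℝ → ℝ} (hW : ZCls W) {σ : ℝ} (hσ : 0 < σ)
    (y : E) (t : ℝ) : ∃ U : E,
    (∀ U' : E, Tdn W (2 * σ) (y + σ • U', t + σ) + Tdn W (2 * σ) (y - σ • U, t - σ) ≤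
      2 * Tdn W (2 * σ) (y, t) + σ * ‖U'‖ ^ 2 / 2 - σ * ‖U‖ ^ 2 / 2) ∧
    ∀ ζ : E, Tdn W (2 * σ) (y + ζ, t) ≤ Tdn W (2 * σ) (y, t) + ⟪U, ζ⟫ + ‖ζ‖ ^ 2 / (4 * σ) := by
  have h2σ : 0 ≤ 2 * σ := by positivity
  obtain ⟨U, hU⟩ := hW.exists_Tdn_eq h2σ y t
  refine ⟨U, fun U' => ?_, fun ζ => ?_⟩
  · have h1 := Tdn_le (hW.dnBdd hσ.le (y - σ • U, t - σ)) U
    rw [show y - σ • U - σ • U = y - (2 * σ) • U by module,
      show t - σ - σ = t - 2 * σ by ring] at h1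
    have h2 := Tdn_le (hW.dnBdd hσ.le (y, t)) U
    have h3 := hW.Tdn_mid hσ (y - σ • U, t - σ)
    have h4 : Tdn W (2 * σ) (y + σ • U', t + σ) - σ * ‖U'‖ ^ 2 / 2 ≤ Tdn W σ (y, t) := by
      refine le_Tdn fun U'' => ?_
      have h5 := Tdn_le (hW.dnBdd h2σ (y + σ • U', t + σ)) ((1 / 2 : ℝ) • (U' + U''))
      rw [show y + σ • U' - (2 * σ) • (1 / 2 : ℝ) • (U' + U'') = y - σ • U'' by module,
        show t + σ - 2 * σ = t - σ by ring] at h5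
      have h6 := mul_le_mul_of_nonneg_left (norm_half_sq_le U' U'') hσ.le
      linarith
    linarith
  · have h1 := Tdn_le (hW.dnBdd h2σ (y + ζ, t)) (U + (1 / (2 * σ)) • ζ)
    have e1 : y + ζ - (2 * σ) • (U + (1 / (2 * σ)) • ζ) = y - (2 * σ) • U := by
      rw [smul_add, smul_smul, show 2 * σ * (1 / (2 * σ)) = 1 by field_simp]
      module
    rw [e1, norm_add_smul_sq] at h1
    have e2 : 2 * σ * (‖U‖ ^ 2 + 2 * (1 / (2 * σ)) * ⟪U, ζ⟫ + (1 / (2 * σ)) ^ 2 * ‖ζ‖ ^ 2) / 2 =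
        2 * σ * ‖U‖ ^ 2 / 2 + ⟪U, ζ⟫ + ‖ζ‖ ^ 2 / (4 * σ) := by
      field_simp
      ring
    linarith

end Crest.Agent.R94
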