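import Crest.Agent.R94.Growth
import Crest.Agent.R94.FrameEst

/-! Row 94: upper bounds for the regularised gap; mean velocity. -/

set_option autoImplicit false

open scoped RealInnerProductSpace
open Filter Topology Set

namespace Crest.Agent.R94

variable {E : Type*} [NormedAddCommGroup E] [InnerProductSpace ℝ E]

theorem ZCls.upperU_Tup {W : E × ℝ → ℝ} (hW : ZCls W) (z : E × ℝ) {ε s : ℝ} (hs : 0 < s)
    (h0 : 0 ≤ ε) (h1 : ε ≤ s) : Tup W ε z ≤ (1 - ε / s) * W z + ε / s * Tup W s z := by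
  have ha0 : 0 ≤ ε / s := by positivity
  have ha1 : 0 ≤ 1 - ε / s := by rw [sub_nonneg, div_le_one hs]; exact h1
  have h := (hW.cvx z).2 (Set.mem_Ici.2 (le_refl (0 : ℝ))) (Set.mem_Ici.2 hs.le)
    ha1 ha0 (by ring)
  simp only [smul_eq_mul, mul_zero, zero_add, Tup_zero] at h
  rwa [div_mul_cancel₀ _ hs.ne'] at h

theorem ZCls.upperU_Tdn {W : E × ℝ → ℝ} (hW : ZCls W) (z : E × ℝ) {ε s : ℝ} (hs : 0 < s)
    (h0 : 0 ≤ ε) (h1 : ε ≤ s) : (1 - ε / s) * W z + ε / s * Tdn W s z ≤ Tdn W ε z := by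
  have ha0 : 0 ≤ ε / s := by positivity
  have ha1 : 0 ≤ 1 - ε / s := by rw [sub_nonneg, div_le_one hs]; exact h1
  have h := (hW.ccv z).2 (Set.mem_Ici.2 (le_refl (0 : ℝ))) (Set.mem_Ici.2 hs.le)
    ha1 ha0 (by ring)
  simp only [smul_eq_mul, mul_zero, zero_add, Tdn_zero] at h
  rwa [div_mul_cancel₀ _ hs.ne'] at h

/-- `ε ↦ Gf W ε s z` is convex, hence controlled by its values at `0` and `s`. -/
theorem ZCls.Gf_le {W : E × ℝ → ℝ} (hW : ZCls W) {y : E} {t s : ℝ} (hs : 0 < s) {V : E}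
    {h β : ℝ} (hF : IsFrame W (y, t) (8 * s) 1 V h β) {ε : ℝ} (h0 : 0 ≤ ε) (h1 : ε ≤ s) :
    Gf W ε s (y, t) ≤ gap W s (y, t) + ε * (2 * h + 32) := by
  have ha0 : 0 ≤ ε / s := by positivity
  have ha1 : 0 ≤ 1 - ε / s := by rw [sub_nonneg, div_le_one hs]; exact h1
  have hT := hW.upperU_Tup (y, t) hs h0 h1
  have henv : (1 - ε / s) * env s (fun y' => W (y', t)) y +
      ε / s * env s (fun y' => Tdn W s (y', t)) y ≤ env s (fun y' => Tdn W ε (y', t)) y := by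
    refine le_env fun ι _ w ξ hw hw1 hw0 => ?_
    have e1 := env_le (hW.envBdd_zero hs y t) w ξ hw hw1 hw0
    have e2 := env_le (hW.envBdd hs hs.le y t) w ξ hw hw1 hw0
    refine (add_le_add (mul_le_mul_of_nonneg_left e1 ha1)
      (mul_le_mul_of_nonneg_left e2 ha0)).trans ?_
    rw [Finset.mul_sum, Finset.mul_sum, ← Finset.sum_add_distrib]
    refine Finset.sum_le_sum fun i _ => ?_
    have e3 := mul_le_mul_of_nonneg_left (hW.upperU_Tdn (y + ξ i, t) hs h0 h1) (hw i)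
    linarith
  have h2 := hF.Tup_le hs hs.le (by linarith)
  have h3 := abs_le.1 (hF.abs_self hs)
  have h4 := hF.le_env hs hs.le (by linarith)
  have h5 : env s (fun y' => W (y', t)) y ≤ W (y, t) := env_le_self (hW.envBdd_zero hs y t)
  have h6 : ε / s * (Tup W s (y, t) - W (y, t)) ≤ ε / s * (h * s + 16 * s) :=
    mul_le_mul_of_nonneg_left (by linarith [h3.1]) ha0
  have h7 : ε / s * (env s (fun y' => W (y', t)) y - env s (fun y' => Tdn W s (y', t)) y) ≤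
      ε / s * (h * s + 16 * s) :=
    mul_le_mul_of_nonneg_left (by linarith [h3.2]) ha0
  have h8 : ε / s * (h * s + 16 * s) = ε * (h + 16) := by field_simp
  simp only [Gf, gap]
  linarith

theorem ZCls.h_mono {W : E × ℝ → ℝ} (hW : ZCls W) {y : E} {t s s' : ℝ} (hs : 0 < s)
    (hss : s ≤ s') {V V' : E} {h h' β β' : ℝ} (hF : IsFrame W (y, t) (8 * s) 1 V h β)
    (hF' : IsFrame W (y, t) (8 * s') 1 V' h' β') : h ≤ h' + 32 := by
  have hs' : 0 < s' := hs.trans_le hss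
  have ha0 : 0 ≤ s / s' := by positivity
  have hT := hW.upperU_Tup (y, t) hs' hs.le hss
  have h1 := hF.le_Tup hs hs.le (by linarith)
  have h2 := abs_le.1 (hF.abs_self hs)
  have h3 := hF'.Tup_le hs' hs'.le (by linarith)
  have h4 := abs_le.1 (hF'.abs_self hs')
  have h6 : s / s' * (Tup W s' (y, t) - W (y, t)) ≤ s / s' * (h' * s' + 16 * s') :=
    mul_le_mul_of_nonneg_left (by linarith [h4.1]) ha0
  have h8 : s / s' * (h' * s' + 16 * s') = s * (h' + 16) := by field_simp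
  have h9 : s * h ≤ s * (h' + 32) := by linarith [h2.2]
  exact le_of_mul_le_mul_left h9 hs

theorem h_upper : ∃ K : ℝ, 0 < K ∧ ∀ (W : E × ℝ → ℝ), ZCls W → Normed W →
    ∀ (y : E) (t : ℝ), |t| ≤ 1 →
      (∀ (s : ℝ) (V : E) (h β : ℝ), 0 < s → s ≤ 2 → IsFrame W (y, t) (8 * s) 1 V h β →
        2 * h + 32 ≤ K * √(1 + ‖y‖)) ∧ bslope W (y, t) 1 ≤ K * √(1 + ‖y‖) := by
  obtain ⟨C, hC, hG⟩ := frame_growth_sqrt (E := E)
  refine ⟨2 * C + 96, by positivity, fun W hW hN y t ht => ?_⟩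
  obtain ⟨V2, h2, β2, hF2⟩ := hW.flat (y, t) (8 * 2) (by norm_num)
  have hq : 1 ≤ √(1 + ‖y‖) := by
    rw [Real.one_le_sqrt]
    linarith [norm_nonneg y]
  have hh2 : h2 ≤ C * √(1 + ‖y‖) := by
    have h := (hG W 0 y t (8 * 2) V2 h2 β2 hW hN (by linarith) (by norm_num) (by norm_num) hF2).2
    rw [Nat.cast_zero, zero_add] at h
    exact (le_abs_self _).trans h
  have hpos : 0 ≤ C * √(1 + ‖y‖) := by positivity
  refine ⟨fun s V h β hs hs2 hF => ?_, ?_⟩
  · have := hW.h_mono hs hs2 hF hF2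
    nlinarith
  · obtain ⟨V1, h1, β1, hF1⟩ := hW.flat (y, t) (8 * 1) (by norm_num)
    have e1 := hW.h_mono one_pos (by norm_num) hF1 hF2
    have e2 := (abs_le.1 (hF1.bslope_near one_pos)).2
    nlinarith

end Crest.Agent.R94
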