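import Crest.Agent.R94.StepS
import Crest.Agent.R94.UpperU
import Crest.Agent.R94.MeanVel

/-! Row 94: second difference inequality for the penalised supremum. -/

set_option autoImplicit false

open scoped RealInnerProductSpace
open Filter Topology Set

namespace Crest.Agent.R94

variable {E : Type*} [NormedAddCommGroup E] [InnerProductSpace ℝ E]

theorem pstep_err {p : E} {e δ : ℝ} (he : 0 < e)
    (h : ∀ ζ : E, ⟪p, ζ⟫ ≤ 2 * δ + 2 * (‖ζ‖ ^ 2 / e)) : e * ‖p‖ ^ 2 ≤ 16 * δ := by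
  have h1 := h ((e / 4) • p)
  have h2 : ‖(e / 4) • p‖ ^ 2 / e = e / 16 * ‖p‖ ^ 2 := by
    rw [norm_smul, mul_pow, Real.norm_eq_abs, sq_abs]
    field_simp
    ring
  rw [real_inner_smul_right, real_inner_self_eq_norm_sq, h2] at h1
  linarith

theorem pstep_real {σ a lam C X M n r d u v q : ℝ} (hσ : 0 < σ) (hσ1 : 2 * σ ≤ 1) (ha : 0 < a)
    (hM : 1 ≤ M) (haM : a * M ^ 2 = lam ^ 2) (hlam : 0 < lam)
    (hl : lam * (3299 + 36 * C ^ 2) ≤ 1 / 10) (hX : 0 ≤ X) (_hn : 0 ≤ n)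
    (hy : a * n ^ 2 ≤ 2 * (1 + X)) (hq : q ^ 2 ≤ 16 * σ ^ 2 / 1000) (hr : r ^ 2 = 1 + n)
    (hd0 : 0 ≤ d) (hd : d ≤ q + 4 * σ * a * n) (hu0 : 0 ≤ u) (hu : u ≤ 19 + C * (M + r))
    (hv0 : 0 ≤ v) (hv : v ≤ u + d) :
    20 / 1000 + 9 * (a * (a * n ^ 2)) + a * (v ^ 2 + u ^ 2) ≤ (1 + X) / 4 := by
  have hC : 0 ≤ C ^ 2 := sq_nonneg C
  have hl1 : lam ≤ 1 := by nlinarith [mul_nonneg hlam.le hC]
  have hl2 : lam ^ 2 ≤ lam := by nlinarith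
  have ha1 : a ≤ lam ^ 2 := by
    rw [← haM]
    exact le_mul_of_one_le_right ha.le (one_le_pow₀ hM)
  have ha2 : a ≤ lam := ha1.trans hl2
  have ha3 : a ≤ 1 := ha2.trans hl1
  have hX1 : 0 ≤ 1 + X := by linarith
  have h1 : a * (a * n ^ 2) ≤ lam ^ 2 * (2 * (1 + X)) :=
    mul_le_mul ha1 hy (by positivity) (by positivity)
  have h1' : a * (a * n ^ 2) ≤ 2 * (lam * (1 + X)) := by
    have := mul_le_mul_of_nonneg_right hl2 hX1
    linarith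
  have h2 : a * n ≤ 2 * (lam * (1 + X)) := by
    refine le_of_pow_le_pow_left₀ two_ne_zero (by positivity) ?_
    have h3 : lam ^ 2 * (1 + X) ≤ lam ^ 2 * (1 + X) ^ 2 :=
      mul_le_mul_of_nonneg_left (le_self_pow₀ (by linarith) two_ne_zero) (by positivity)
    have h4 : 0 ≤ lam ^ 2 * (1 + X) ^ 2 := by positivity
    calc (a * n) ^ 2 = a * (a * n ^ 2) := by ring
      _ ≤ 4 * (lam ^ 2 * (1 + X) ^ 2) := by linarith
      _ = _ := by ring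
  have hs : σ ^ 2 ≤ 1 / 4 := by nlinarith
  have h3 : d ^ 2 ≤ 8 / 1000 + 8 * (a * (a * n ^ 2)) := by
    have b1 : d ^ 2 ≤ (q + 4 * σ * a * n) ^ 2 := pow_le_pow_left₀ hd0 hd 2
    have b2 : σ ^ 2 * (a * (a * n ^ 2)) ≤ 1 / 4 * (a * (a * n ^ 2)) :=
      mul_le_mul_of_nonneg_right hs (by positivity)
    nlinarith [sq_nonneg (q - 4 * σ * a * n)]
  have h4 : a * d ^ 2 ≤ d ^ 2 := mul_le_of_le_one_left (by positivity) ha3
  have h5 : v ^ 2 ≤ 2 * u ^ 2 + 2 * d ^ 2 := by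
    have b1 : v ^ 2 ≤ (u + d) ^ 2 := pow_le_pow_left₀ hv0 hv 2
    nlinarith [sq_nonneg (u - d)]
  have h6 : u ^ 2 ≤ 3 * (361 + C ^ 2 * M ^ 2 + C ^ 2 * (1 + n)) := by
    have b1 : u ^ 2 ≤ (19 + C * (M + r)) ^ 2 := pow_le_pow_left₀ hu0 hu 2
    rw [← hr]
    nlinarith [sq_nonneg (19 - C * M), sq_nonneg (19 - C * r), sq_nonneg (C * M - C * r)]
  have h7 : a * u ^ 2 ≤ 3 * (361 * a + C ^ 2 * lam ^ 2 + C ^ 2 * a + C ^ 2 * (a * n)) := by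
    rw [← haM]
    have := mul_le_mul_of_nonneg_left h6 ha.le
    linarith
  have h8 : a * v ^ 2 ≤ 2 * (a * u ^ 2) + 2 * (a * d ^ 2) := by
    have := mul_le_mul_of_nonneg_left h5 ha.le
    linarith
  have h9 : lam ≤ lam * (1 + X) := le_mul_of_one_le_right hlam.le (by linarith)
  have c1 := mul_le_mul_of_nonneg_left (hl2.trans h9) hC
  have c2 := mul_le_mul_of_nonneg_left (ha2.trans h9) hC
  have c3 := mul_le_mul_of_nonneg_left h2 hC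
  have c4 := mul_le_mul_of_nonneg_right hl hX1
  nlinarith

theorem pstep_num (y V U V₀ : E) {σ a lam C X M : ℝ} (hσ : 0 < σ) (hσ1 : 2 * σ ≤ 1) (ha : 0 < a)
    (hM : 1 ≤ M) (haM : a * M ^ 2 = lam ^ 2) (hlam : 0 < lam)
    (hl : lam * (3299 + 36 * C ^ 2) ≤ 1 / 10) (hX : 0 ≤ X) (hy : a * ‖y‖ ^ 2 ≤ 2 * (1 + X))
    (hq : ‖V - U - (4 * σ * a) • y‖ ^ 2 ≤ 16 * σ ^ 2 / 1000) (hU : ‖U - V₀‖ ≤ 19)
    (hV : ‖V₀‖ ≤ C * (M + √(1 + ‖y‖))) :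
    4 * σ ^ 2 / 1000 + a * (2 * σ * ⟪y, V - U⟫ + σ ^ 2 * (‖V‖ ^ 2 + ‖U‖ ^ 2)) ≤
      σ ^ 2 * ((1 + X) / 4) := by
  obtain ⟨p, hp⟩ : ∃ p, p = V - U - (4 * σ * a) • y := ⟨_, rfl⟩
  rw [← hp] at hq
  have hD : V - U = p + (4 * σ * a) • y := by rw [hp, sub_add_cancel]
  have h1 : ⟪y, V - U⟫ ≤ ‖y‖ * ‖p‖ + 4 * σ * a * ‖y‖ ^ 2 := by
    rw [hD, inner_add_right, real_inner_smul_right, real_inner_self_eq_norm_sq]
    linarith [real_inner_le_norm y p]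
  have h2 : ‖V - U‖ ≤ ‖p‖ + 4 * σ * a * ‖y‖ := by
    rw [hD]
    refine (norm_add_le _ _).trans (le_of_eq ?_)
    rw [norm_smul, Real.norm_of_nonneg (by positivity)]
  have h3 : ‖U‖ ≤ 19 + C * (M + √(1 + ‖y‖)) := by
    have := norm_add_le (U - V₀) V₀
    rw [sub_add_cancel] at this
    linarith
  have h4 : ‖V‖ ≤ ‖U‖ + ‖V - U‖ := by
    have := norm_add_le U (V - U)
    rwa [add_sub_cancel] at this
  have h5 := pstep_real hσ hσ1 ha hM haM hlam hl hX (norm_nonneg y) hy hq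
    (Real.sq_sqrt (by positivity)) (norm_nonneg _) h2 (norm_nonneg _) h3 (norm_nonneg _) h4
  have h6 := mul_le_mul_of_nonneg_left h5 (sq_nonneg σ)
  have h7 := mul_le_mul_of_nonneg_left h1 (show 0 ≤ a * (2 * σ) by positivity)
  nlinarith [sq_nonneg (σ * a * ‖y‖ - ‖p‖)]

theorem pstep [FiniteDimensional ℝ E] : ∃ c : ℝ, 0 < c ∧ c ≤ 1 ∧ ∀ (M : ℕ) (W : E × ℝ → ℝ)
    (Λ σ L X t : ℝ), 1 ≤ M → ZCls W → Normed W → 0 < σ → 2 * σ ≤ (1 / 2) ^ M →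
    -1 ≤ t - σ → t + σ ≤ 1 - (1 / 2) ^ M → 0 ≤ X →
    (∀ (t' : ℝ) (y : E), t' = t - σ ∨ t' = t ∨ t' = t + σ →
      phi W Λ (2 * σ) (c / (M : ℝ) ^ 2) t' y ≤ 2 * σ * (L - c / (M : ℝ) ^ 2 * ‖y‖ ^ 2 / 2)) →
    L - mfun W Λ (2 * σ) (c / (M : ℝ) ^ 2) t / (2 * σ) ≤ X →
    2 * mfun W Λ (2 * σ) (c / (M : ℝ) ^ 2) t - 2 * σ * (σ ^ 2 * ((1 + X) / 4)) ≤
      mfun W Λ (2 * σ) (c / (M : ℝ) ^ 2) (t + σ) + mfun W Λ (2 * σ) (c / (M : ℝ) ^ 2) (t - σ) := by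
  obtain ⟨C, hC, hG⟩ := frame_growth_sqrt (E := E)
  obtain ⟨lam, hlam, hl⟩ : ∃ lam : ℝ, 0 < lam ∧ lam * (3299 + 36 * C ^ 2) ≤ 1 / 10 :=
    ⟨1 / 10 / (3299 + 36 * C ^ 2), by positivity, le_of_eq (div_mul_cancel₀ _ (by positivity))⟩
  have hl1 : lam ^ 2 ≤ 1 := by
    have : lam ≤ 1 := by nlinarith [mul_nonneg hlam.le (sq_nonneg C)]
    nlinarith
  refine ⟨lam ^ 2, by positivity, hl1, fun M W Λ σ L X t hM hW hN hσ hσM ht1 ht2 hX hb hm => ?_⟩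
  have hM' : (1 : ℝ) ≤ M := by exact_mod_cast hM
  obtain ⟨a, ha⟩ : ∃ a, a = lam ^ 2 / (M : ℝ) ^ 2 := ⟨_, rfl⟩
  rw [← ha] at hb hm ⊢
  have ha0 : 0 < a := by rw [ha]; positivity
  have haM : a * (M : ℝ) ^ 2 = lam ^ 2 := by rw [ha]; field_simp
  have ha1 : a ≤ 1 := by
    rw [ha]
    exact (div_le_self (by positivity) (one_le_pow₀ hM')).trans hl1
  have hp0 : (0 : ℝ) < (1 / 2) ^ M := by positivity
  have hp1 : ((1 : ℝ) / 2) ^ M ≤ 1 := pow_le_one₀ (by norm_num) (by norm_num)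
  have hσ1 : 2 * σ ≤ 1 := hσM.trans hp1
  have hle : ∀ (t' : ℝ) (y : E), t' = t - σ ∨ t' = t ∨ t' = t + σ →
      phi W Λ (2 * σ) a t' y ≤ mfun W Λ (2 * σ) a t' := fun t' y h => by
    refine le_ciSup (f := fun y : E => phi W Λ (2 * σ) a t' y) ⟨2 * σ * L, ?_⟩ y
    rintro _ ⟨z, rfl⟩
    refine (hb t' z h).trans (mul_le_mul_of_nonneg_left ?_ (by positivity))
    exact sub_le_self _ (by positivity)
  obtain ⟨δ, hδ⟩ : ∃ δ, δ = 2 * σ * (σ ^ 2 / 1000) := ⟨_, rfl⟩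
  have hδ0 : 0 < δ := by rw [hδ]; positivity
  have hδ1 : δ ≤ 2 * σ := by
    rw [hδ]
    exact mul_le_of_le_one_right (by positivity) (by nlinarith)
  obtain ⟨y, hy⟩ : ∃ y : E, mfun W Λ (2 * σ) a t - δ < phi W Λ (2 * σ) a t y :=
    exists_lt_of_lt_ciSup (f := fun y : E => phi W Λ (2 * σ) a t y) (sub_lt_self _ hδ0)
  have hy2 : a * ‖y‖ ^ 2 ≤ 2 * (1 + X) := by
    have h1 := hb t y (Or.inr (Or.inl rfl))
    rw [sub_le_comm, le_div_iff₀ (by positivity)] at hm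
    refine le_of_mul_le_mul_left ?_ hσ
    linarith
  obtain ⟨V, U, s1, s2, s3⟩ := hW.stepS (s := 1 - t) hσ (by linarith) hδ0 y t
  obtain ⟨V₀, h, β, hF⟩ := hW.flat (y, t) (8 * (1 - t)) (by linarith)
  have hU : ‖U - V₀‖ ≤ 19 :=
    hW.meanVel_le (by linarith) hF (ε := 2 * σ) (by positivity) (by linarith) hδ1 fun ζ => by
      rw [show 2 * (2 * σ) = 4 * σ by ring]
      exact s3 ζ
  have hV := (hG W M y t _ V₀ h β hW hN (abs_le.2 ⟨by linarith, by linarith⟩) (by linarith)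
    (by linarith) hF).1
  have hq : ‖V - U - (4 * σ * a) • y‖ ^ 2 ≤ 16 * σ ^ 2 / 1000 := by
    have h1 := pstep_err (p := V - U - (4 * σ * a) • y) (δ := δ) (show 0 < 2 * σ by positivity)
      fun ζ => by
        have b1 := s2 ζ
        have b2 := hle t (y + ζ) (Or.inr (Or.inl rfl))
        have b3 : 2 * σ * a * ‖ζ‖ ^ 2 ≤ ‖ζ‖ ^ 2 / (2 * σ) :=
          (mul_le_of_le_one_left (by positivity)
            (mul_le_one₀ hσ1 ha0.le ha1)).trans (le_div_self (by positivity) (by positivity) hσ1)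
        unfold phi at hy b2
        rw [norm_add_sq_real] at b2
        rw [inner_sub_left, real_inner_smul_left]
        linarith
    refine le_of_mul_le_mul_left ?_ (show 0 < 2 * σ by positivity)
    rw [hδ] at h1
    linarith
  have key := mul_le_mul_of_nonneg_left
    (pstep_num y V U V₀ hσ hσ1 ha0 hM' haM hlam hl hX hy2 hq hU hV) (show 0 ≤ 2 * σ by positivity)
  have b1 := hle (t + σ) (y + σ • V) (Or.inr (Or.inr rfl))
  have b2 := hle (t - σ) (y - σ • U) (Or.inl rfl)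
  unfold phi at hy b1 b2
  rw [norm_add_sq_real, real_inner_smul_right, norm_smul, Real.norm_of_nonneg hσ.le,
    show 1 - (t + σ) = 1 - t - σ by ring] at b1
  rw [norm_sub_sq_real, real_inner_smul_right, norm_smul, Real.norm_of_nonneg hσ.le,
    show 1 - (t - σ) = 1 - t + σ by ring] at b2
  rw [inner_sub_right] at key
  rw [hδ] at hy s1
  linarith

end Crest.Agent.R94
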