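import Crest.Agent.R94.ReinitEnd
import Crest.Agent.R94.EnvConvex

/-! Row 94: re-initialisation. -/

set_option autoImplicit false

open scoped RealInnerProductSpace
open Filter Topology Set

namespace Crest.Agent.R94

variable {E : Type*} [NormedAddCommGroup E] [InnerProductSpace ℝ E]

theorem reinit_variance {ι : Type} [Fintype ι] (w : ι → ℝ) (a : ι → E) (h1 : ∑ i, w i = 1) :
    ∑ i, w i * ‖a i - ∑ j, w j • a j‖ ^ 2 = ∑ i, w i * ‖a i‖ ^ 2 - ‖∑ j, w j • a j‖ ^ 2 := by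
  set b : E := ∑ j, w j • a j with hb
  have h2 : ∑ i, w i * ⟪a i, b⟫ = ‖b‖ ^ 2 := by
    rw [← real_inner_self_eq_norm_sq]
    conv_rhs => rw [hb, sum_inner]
    exact Finset.sum_congr rfl fun i _ => by rw [real_inner_smul_left]
  have h3 : ∀ i, w i * ‖a i - b‖ ^ 2 = w i * ‖a i‖ ^ 2 - 2 * (w i * ⟪a i, b⟫) + w i * ‖b‖ ^ 2 := by
    intro i
    rw [norm_sub_sq_real]
    ring
  simp only [h3, Finset.sum_add_distrib, Finset.sum_sub_distrib, ← Finset.mul_sum,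
    ← Finset.sum_mul, h1, h2]
  ring

theorem reinit_jensen {ι : Type} [Fintype ι] (w : ι → ℝ) (a : ι → E) (hw : ∀ i, 0 ≤ w i)
    (h1 : ∑ i, w i = 1) : ‖∑ j, w j • a j‖ ^ 2 ≤ ∑ i, w i * ‖a i‖ ^ 2 := by
  have h := reinit_variance w a h1
  have h0 : 0 ≤ ∑ i, w i * ‖a i - ∑ j, w j • a j‖ ^ 2 :=
    Finset.sum_nonneg fun i _ => mul_nonneg (hw i) (sq_nonneg _)
  linarith

theorem reinit_Tdn_lower {W : E × ℝ → ℝ} (hN : Normed W) (p : E) {ρ : ℝ} (h0 : 0 ≤ ρ)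
    (h2 : ρ ≤ 2) : -8 - ‖p‖ ^ 2 / 4 ≤ Tdn W ρ (p, 1) := by
  refine le_Tdn fun U => ?_
  have h := (abs_le.1 (hN.abs_le (p - ρ • U) (τ := 1 - ρ) (by rw [abs_le]; constructor <;> linarith))).1
  have h3 : ‖p - ρ • U‖ ≤ ‖p‖ + ρ * ‖U‖ := by
    refine (norm_sub_le _ _).trans ?_
    rw [norm_smul, Real.norm_of_nonneg h0]
  have h4 : ‖p - ρ • U‖ ^ 2 ≤ (‖p‖ + ρ * ‖U‖) ^ 2 := pow_le_pow_left₀ (norm_nonneg _) h3 2
  have h5 : 0 ≤ ρ * (2 - ρ) * ‖U‖ ^ 2 := by
    have : 0 ≤ 2 - ρ := by linarith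
    positivity
  nlinarith [sq_nonneg (‖p‖ - ρ * ‖U‖)]

theorem reinit [FiniteDimensional ℝ E] : ∃ C : ℝ, 0 < C ∧ ∀ (W : E × ℝ → ℝ), ZCls W → Normed W →
    ∀ ε : ℝ, 0 < ε → ε ≤ 1 / 7 → ∃ w : E, ‖w‖ ≤ C ∧
      gap W 1 (0, 0) - C * ε ≤ Gf W ε (1 + ε) (-(ε • w), -ε) := by
  refine ⟨316, by norm_num, fun W hW hN ε h0 h1 => ?_⟩
  set E0 : ℝ := env 1 (fun y => W (y, 0)) 0 with hE0def
  have hE0 : -8 ≤ E0 := by
    refine le_env_of_affine (p := 0) fun ξ => ?_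
    have h := (abs_le.1 (hN.abs_le (0 + ξ) (τ := 0) (by norm_num))).1
    rw [zero_add] at h ⊢
    rw [inner_zero_left]
    nlinarith [sq_nonneg ‖ξ‖]
  obtain ⟨p, hp⟩ := env_subgradient (s := 1) one_pos (f := fun y => W (y, 0)) (y := 0)
    (fun ζ => hW.envBdd_zero one_pos _ 0)
  have hp' : ∀ ξ : E, E0 + ⟪p, ξ⟫ ≤ W (ξ, 0) + ‖ξ‖ ^ 2 / 2 := by
    intro ξ
    have h := hp ξ
    rw [zero_add, mul_one] at h
    exact h
  have hp40 : ‖p‖ ^ 2 ≤ 40 := by
    have h := hp' ((4 / 5 : ℝ) • p)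
    have h2 := (abs_le.1 (hN.abs_le ((4 / 5 : ℝ) • p) (τ := 0) (by norm_num))).2
    rw [real_inner_smul_right, real_inner_self_eq_norm_sq] at h
    have h3 : ‖(4 / 5 : ℝ) • p‖ ^ 2 = 16 / 25 * ‖p‖ ^ 2 := by
      rw [norm_smul, Real.norm_of_nonneg (by norm_num)]
      ring
    rw [h3] at h h2
    linarith
  have hb1 : E0 + ‖p‖ ^ 2 / 2 ≤ Tdn W 1 (p, 1) := by
    refine le_Tdn fun U => ?_
    have h := hp' (p - U)
    rw [inner_sub_right, real_inner_self_eq_norm_sq, norm_sub_sq_real] at h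
    rw [one_smul, sub_self]
    linarith
  have hb1' : Tdn W 1 (p, 1) ≤ 13 := by
    have h := Tdn_le (hW.dnBdd zero_le_one (p, 1)) 0
    have h2 := (abs_le.1 (hN.abs_le p (τ := 0) (by norm_num))).2
    rw [smul_zero, sub_zero, sub_self, norm_zero] at h
    linarith
  have hK1 : Tdn W 1 (p, 1) - Tdn W (1 / 2) (p, 1) ≤ 31 := by
    have := reinit_Tdn_lower hN p (ρ := 1 / 2) (by norm_num) (by norm_num)
    linarith
  have hK2 : Tdn W 1 (p, 1) - Tdn W 2 (p, 1) ≤ 31 := by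
    have := reinit_Tdn_lower hN p (ρ := 2) (by norm_num) (by norm_num)
    linarith
  obtain ⟨ι, _, w, y, hw, hw1, hw0, hsum⟩ := env_approx 1 (fun y => W (y, 0)) 0 h0
  simp only [zero_add, mul_one] at hsum
  rw [← hE0def] at hsum
  set d : ι → ℝ := fun i => W (y i, 0) + ‖y i‖ ^ 2 / 2 - ⟪p, y i⟫ - E0 with hd
  have hdsum : ∑ i, w i * d i ≤ ε := by
    have h2 : ∑ i, w i * ⟪p, y i⟫ = 0 := by
      have : ∑ i, w i * ⟪p, y i⟫ = ⟪p, ∑ i, w i • y i⟫ := by
        rw [inner_sum]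
        exact Finset.sum_congr rfl fun i _ => by rw [real_inner_smul_right]
      rw [this, hw0, inner_zero_right]
    have h3 : ∀ i, w i * d i = w i * (W (y i, 0) + ‖y i‖ ^ 2 / 2) - w i * ⟪p, y i⟫ - w i * E0 := by
      intro i
      simp only [hd]
      ring
    simp only [h3, Finset.sum_sub_distrib, ← Finset.sum_mul, hw1, h2]
    linarith
  have hx : ∀ i, W (y i, 0) + ‖p - y i‖ ^ 2 / 2 ≤ Tdn W 1 (p, 1) + d i := by
    intro i
    rw [norm_sub_sq_real]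
    simp only [hd]
    linarith
  choose U hU1 hU2 using fun i =>
    hW.reinit_end h0 h1 (by norm_num : (0 : ℝ) ≤ 31) p (y i) (hx i) hK1 hK2
  set v : ι → E := fun i => (2 : ℝ) • U i - (p - y i) with hv
  set vb : E := ∑ j, w j • v j with hvb
  have hA : ‖∑ j, w j • (U j - (p - y j))‖ ^ 2 ≤ 189 := by
    refine (reinit_jensen w _ hw hw1).trans ?_
    have h2 : ε * ∑ i, w i * ‖U i - (p - y i)‖ ^ 2 ≤ ∑ i, w i * (3 * d i + 6 * 31 * ε) := by
      rw [Finset.mul_sum]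
      refine Finset.sum_le_sum fun i _ => ?_
      have := mul_le_mul_of_nonneg_left (hU1 i) (hw i)
      linarith
    have h3 : ∑ i, w i * (3 * d i + 6 * 31 * ε) = 3 * ∑ i, w i * d i + 6 * 31 * ε := by
      have h4 : ∀ i, w i * (3 * d i + 6 * 31 * ε) = 3 * (w i * d i) + w i * (6 * 31 * ε) := by
        intro i
        ring
      simp only [h4, Finset.sum_add_distrib, ← Finset.mul_sum, ← Finset.sum_mul, hw1]
      ring
    have h5 : ε * ∑ i, w i * ‖U i - (p - y i)‖ ^ 2 ≤ ε * 189 := by linarith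
    exact le_of_mul_le_mul_left h5 h0
  have hvb2 : vb = (2 : ℝ) • ∑ j, w j • (U j - (p - y j)) + p := by
    have h2 : ∀ j, w j • v j = (2 : ℝ) • (w j • (U j - (p - y j))) + w j • p - w j • y j := by
      intro j
      simp only [hv]
      module
    simp only [hvb, h2, Finset.sum_sub_distrib, Finset.sum_add_distrib, ← Finset.smul_sum,
      ← Finset.sum_smul, hw1, hw0, one_smul, sub_zero]
  refine ⟨vb, ?_, ?_⟩
  · have h2 : ‖∑ j, w j • (U j - (p - y j))‖ ≤ 14 := by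
      nlinarith [norm_nonneg (∑ j, w j • (U j - (p - y j)))]
    have h3 : ‖p‖ ≤ 7 := by nlinarith [norm_nonneg p]
    rw [hvb2]
    refine (norm_add_le _ _).trans ?_
    rw [norm_smul, Real.norm_of_nonneg (by norm_num)]
    linarith
  · have hT : W (0, 0) - ε * ‖vb‖ ^ 2 / 2 ≤ Tup W ε (-(ε • vb), -ε) := by
      have h := le_Tup (hW.upBdd h0.le (-(ε • vb), -ε)) vb
      rwa [neg_add_cancel, neg_add_cancel] at h
    have h1ε : (0 : ℝ) < 1 + ε := by linarith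
    have hz : ∑ i, w i • (y i - ε • (v i - vb)) = 0 := by
      have h2 : ∀ i, w i • (y i - ε • (v i - vb)) = w i • y i - ε • (w i • v i) + w i • (ε • vb) := by
        intro i
        module
      simp only [h2, Finset.sum_sub_distrib, Finset.sum_add_distrib, ← Finset.smul_sum,
        ← Finset.sum_smul, hw1, hw0, one_smul, ← hvb]
      simp
    have henv := env_le (hW.envBdd h1ε h0.le (-(ε • vb)) (-ε)) w
      (fun i => y i - ε • (v i - vb)) hw hw1 hz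
    have hterm : ∀ i, w i * (Tdn W ε (-(ε • vb) + (y i - ε • (v i - vb)), -ε) +
        ‖y i - ε • (v i - vb)‖ ^ 2 / (2 * (1 + ε))) ≤
        w i * (W (y i, 0) + ‖y i‖ ^ 2 / 2) + 5 * (w i * d i) + w i * (10 * 31 * ε) -
          ε / 2 * (w i * ‖v i‖ ^ 2) + ε / 2 * (w i * ‖v i - vb‖ ^ 2) := by
      intro i
      have e1 : -(ε • vb) + (y i - ε • (v i - vb)) = y i - ε • v i := by module
      have e2 := norm_add_sq_div_le (y i) (-(ε • (v i - vb))) one_pos h0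
      have e3 : ‖-(ε • (v i - vb))‖ ^ 2 / ε = ε * ‖v i - vb‖ ^ 2 := by
        rw [norm_neg, norm_smul, Real.norm_of_nonneg h0.le]
        field_simp
      rw [e3, ← sub_eq_add_neg, div_one] at e2
      have e4 : ‖y i - ε • (v i - vb)‖ ^ 2 / (2 * (1 + ε)) =
          ‖y i - ε • (v i - vb)‖ ^ 2 / (1 + ε) / 2 := by
        field_simp
      have e5 := hU2 i
      rw [e1, e4]
      have e6 : Tdn W ε (y i - ε • v i, -ε) + ‖y i - ε • (v i - vb)‖ ^ 2 / (1 + ε) / 2 ≤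
          (W (y i, 0) + ‖y i‖ ^ 2 / 2) + 5 * d i + 10 * 31 * ε - ε / 2 * ‖v i‖ ^ 2 +
            ε / 2 * ‖v i - vb‖ ^ 2 := by
        simp only [hv] at e2 ⊢
        linarith
      have := mul_le_mul_of_nonneg_left e6 (hw i)
      linarith
    have hvar := reinit_variance w v hw1
    rw [← hvb] at hvar
    have hS := henv.trans (Finset.sum_le_sum fun i _ => hterm i)
    simp only [Finset.sum_add_distrib, Finset.sum_sub_distrib, ← Finset.mul_sum,
      ← Finset.sum_mul, hw1, hvar] at hS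
    simp only [gap, Gf, ← hE0def]
    linarith

end Crest.Agent.R94
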