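import Crest.Agent.R94.PStep
import Crest.Agent.R94.Reinit
import Crest.Agent.R94.Discrete

/-! Row 94: persistence of near-contact points. -/

set_option autoImplicit false

open scoped RealInnerProductSpace
open Filter Topology Set

namespace Crest.Agent.R94

variable {E : Type*} [NormedAddCommGroup E] [InnerProductSpace ℝ E]

theorem persist [FiniteDimensional ℝ E] : ∃ C c K : ℝ, 0 < C ∧ 0 < c ∧ 0 < K ∧
    ∀ (M : ℕ) (L η : ℝ), 1 ≤ M → 0 ≤ L →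
    (∀ ρ : ℝ, 0 ≤ ρ → K * √(1 + ρ) ≤ L + c / (M : ℝ) ^ 2 * ρ ^ 2 / 2) → 0 < η →
    ∃ μ : ℝ, 0 < μ ∧ ∀ (W : E × ℝ → ℝ) (Λ : ℝ), ZCls W → Normed W → Λ ≤ 16 → GapLe W Λ →
      Λ - μ ≤ gap W 1 (0, 0) → ∀ s : ℝ, s = 2 ∨ s = (1 / 2) ^ M →
      ∃ y : E, c / (M : ℝ) ^ 2 * ‖y‖ ^ 2 ≤ C * (L + 1) ∧ Λ * s - η ≤ gap W s (y, 1 - s) ∧
        -(C * (L + 1)) ≤ bslope W (y, 1 - s) s ∧ bslope W (y, 1 - s) 1 ≤ C * (L + 1) := by
  classical
  obtain ⟨K, hK, hup⟩ := h_upper (E := E)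
  obtain ⟨c, hc, hc1, hps⟩ := pstep (E := E)
  obtain ⟨Cr, hCr, hre⟩ := reinit (E := E)
  set D : ℝ := 17 + Cr + Cr ^ 2 with hD
  have hD0 : 0 < D := by positivity
  refine ⟨16 * D + 40, c, K, by positivity, hc, hK, fun M L η hM hL hKL hη => ?_⟩
  set a : ℝ := c / (M : ℝ) ^ 2 with ha
  have hM1 : (1 : ℝ) ≤ M := by exact_mod_cast hM
  have ha0 : 0 < a := by positivity
  have ha1 : a ≤ 1 := by
    rw [ha, div_le_one (by positivity)]
    nlinarith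
  set δ : ℝ := (1 / 2) ^ M with hδ
  have hδ0 : 0 < δ := by positivity
  have hδ2 : δ ≤ 1 / 2 := by
    have := pow_le_pow_of_le_one (a := (1 / 2 : ℝ)) (by norm_num) (by norm_num) hM
    rwa [pow_one] at this
  have hδA : (2 : ℝ) ^ M * δ = 1 := by rw [hδ, ← mul_pow]; norm_num
  set X₀ : ℝ := 8 * (L + D) + 1 with hX₀
  have hX₀0 : 0 < X₀ := by positivity
  obtain ⟨B, hB⟩ := exists_nat_ge (7 + (2 * X₀ + 2 + L) / η)
  have hq : 0 ≤ (2 * X₀ + 2 + L) / η := by positivity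
  have hB7 : (7 : ℝ) ≤ B := by linarith
  have hB0 : (0 : ℝ) < B := by linarith
  set σ : ℝ := δ / B with hσ
  have hσ0 : 0 < σ := by positivity
  have hσB : σ * B = δ := div_mul_cancel₀ _ hB0.ne'
  have he7 : 2 * σ ≤ 1 / 7 := by nlinarith
  have heδ : 2 * σ ≤ δ := by nlinarith
  have he0 : 0 < 2 * σ := by positivity
  have heη : 2 * σ * (2 * X₀ + 2 + L) ≤ η := by
    have h1 : 2 * X₀ + 2 + L ≤ B * η := by
      rw [← div_le_iff₀ hη]; linarith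
    calc _ ≤ 2 * σ * (B * η) := by gcongr
      _ = 2 * δ * η := by rw [← hσB]; ring
      _ ≤ 2 * (1 / 2) * η := by gcongr
      _ = η := by ring
  obtain ⟨n, hn⟩ : ∃ n : ℕ, (n : ℝ) * σ = 2 - δ := by
    refine ⟨(2 * 2 ^ M - 1) * B, ?_⟩
    have h1 : 1 ≤ 2 * 2 ^ M := by have := Nat.one_le_two_pow (n := M); omega
    push_cast [Nat.cast_sub h1]
    linear_combination (2 * 2 ^ M - 1) * hσB + 2 * hδA
  obtain ⟨i₀, hi₀⟩ : ∃ i₀ : ℕ, (i₀ : ℝ) * σ = 1 - 2 * σ := by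
    refine ⟨2 ^ M * B - 2, ?_⟩
    have h0 : 7 ≤ B := by exact_mod_cast hB7
    have h1 : 2 ≤ 2 ^ M * B := by
      have := Nat.one_le_two_pow (n := M)
      nlinarith
    push_cast [Nat.cast_sub h1]
    linear_combination 2 ^ M * hσB + hδA
  have hi₀n : i₀ ≤ n := by
    have : (i₀ : ℝ) * σ ≤ n * σ := by linarith
    exact_mod_cast le_of_mul_le_mul_right this hσ0
  refine ⟨2 * σ, he0, fun W Λ hW hN hΛ hG hgap => ?_⟩
  -- the frame estimates
  have key : ∀ (t : ℝ) (y : E), -1 ≤ t → t ≤ 1 - δ → ∃ h : ℝ,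
      Gf W (2 * σ) (1 - t) (y, t) ≤ gap W (1 - t) (y, t) + 2 * σ * (2 * h + 32) ∧
      2 * h + 32 ≤ L + a * ‖y‖ ^ 2 / 2 ∧ h - 16 ≤ bslope W (y, t) (1 - t) ∧
      bslope W (y, t) 1 ≤ L + a * ‖y‖ ^ 2 / 2 := by
    intro t y h1 h2
    have hs : 0 < 1 - t := by linarith
    obtain ⟨V, h, β, hF⟩ := hW.flat (y, t) (8 * (1 - t)) (by positivity)
    obtain ⟨h3, h4⟩ := hup W hW hN y t (abs_le.2 ⟨h1, by linarith⟩)
    have h5 := hKL ‖y‖ (norm_nonneg _)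
    refine ⟨h, hW.Gf_le hs hF he0.le (by linarith), (h3 _ V h β hs (by linarith) hF).trans h5, ?_,
      h4.trans h5⟩
    have := (abs_le.1 (hF.bslope_near hs)).1
    linarith
  have hphi : ∀ (t : ℝ) (y : E), -1 ≤ t → t ≤ 1 - δ →
      phi W Λ (2 * σ) a t y ≤ 2 * σ * (L - a * ‖y‖ ^ 2 / 2) := by
    intro t y h1 h2
    obtain ⟨h, h3, h4, -, -⟩ := key t y h1 h2
    have h5 := hG (y, t) (1 - t) (by linarith)
    have h6 := mul_le_mul_of_nonneg_left h4 he0.le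
    unfold phi
    linarith
  have hphi' : ∀ (t : ℝ) (y : E), -1 ≤ t → t ≤ 1 - δ → phi W Λ (2 * σ) a t y ≤ 2 * σ * L := by
    intro t y h1 h2
    refine (hphi t y h1 h2).trans (mul_le_mul_of_nonneg_left ?_ he0.le)
    have : 0 ≤ a * ‖y‖ ^ 2 / 2 := by positivity
    linarith
  have hle : ∀ (t : ℝ) (y : E), -1 ≤ t → t ≤ 1 - δ →
      phi W Λ (2 * σ) a t y ≤ mfun W Λ (2 * σ) a t := fun t y h1 h2 =>
    le_ciSup (f := fun y => phi W Λ (2 * σ) a t y)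
      ⟨2 * σ * L, by rintro _ ⟨y, rfl⟩; exact hphi' t y h1 h2⟩ y
  have hm : ∀ t : ℝ, -1 ≤ t → t ≤ 1 - δ → mfun W Λ (2 * σ) a t ≤ 2 * σ * L := fun t h1 h2 =>
    ciSup_le fun y => hphi' t y h1 h2
  -- the grid
  set x : ℕ → ℝ := fun i => L - mfun W Λ (2 * σ) a (-1 + i * σ) / (2 * σ) with hx
  have hlo : ∀ i : ℕ, -1 ≤ -1 + i * σ := fun i => le_add_of_nonneg_right (by positivity)
  have hhi : ∀ i : ℕ, i ≤ n → -1 + i * σ ≤ 1 - δ := fun i hi => by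
    have : (i : ℝ) * σ ≤ n * σ := by gcongr
    linarith
  have hx0 : ∀ i, i ≤ n → 0 ≤ x i := fun i hi => by
    have := hm _ (hlo i) (hhi i hi)
    rw [hx, sub_nonneg, div_le_iff₀ he0]
    linarith
  obtain ⟨j, hj, hjm⟩ := Finset.exists_max_image (Finset.range (n + 1)) x ⟨0, by simp⟩
  have hjn : j ≤ n := Nat.lt_succ_iff.1 (Finset.mem_range.1 hj)
  have hX : ∀ i, i ≤ n → x i ≤ x j := fun i hi => hjm i (Finset.mem_range.2 (Nat.lt_succ_iff.2 hi))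
  have hX0 := hx0 j hjn
  have hsec : ∀ i, i + 2 ≤ n → x (i + 2) + x i - 2 * x (i + 1) ≤ σ ^ 2 * ((1 + x j) / 4) := by
    intro i hi
    have e1 : -1 + ((i + 1 : ℕ) : ℝ) * σ - σ = -1 + i * σ := by push_cast; ring
    have e2 : -1 + ((i + 1 : ℕ) : ℝ) * σ + σ = -1 + ((i + 2 : ℕ) : ℝ) * σ := by push_cast; ring
    have h1 := hps M W Λ σ L (x j) (-1 + ((i + 1 : ℕ) : ℝ) * σ) hM hW hN hσ0 heδ
      (by rw [e1]; exact hlo i) (by rw [e2]; exact hhi _ hi) hX0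
      (by
        rintro t' y (rfl | rfl | rfl)
        · rw [e1]; exact hphi _ y (hlo _) (hhi _ (by omega))
        · exact hphi _ y (hlo _) (hhi _ (by omega))
        · rw [e2]; exact hphi _ y (hlo _) (hhi _ hi))
      (hX (i + 1) (by omega))
    rw [e1, e2] at h1
    have h2 : x (i + 2) + x i - 2 * x (i + 1) =
        (2 * mfun W Λ (2 * σ) a (-1 + ((i + 1 : ℕ) : ℝ) * σ) -
          mfun W Λ (2 * σ) a (-1 + ((i + 2 : ℕ) : ℝ) * σ) -
          mfun W Λ (2 * σ) a (-1 + i * σ)) / (2 * σ) := by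
      simp only [hx]
      ring
    rw [h2, div_le_iff₀ he0]
    linarith
  have hdb := discrete_bound n i₀ σ ((1 + x j) / 4) x hσ0 (by positivity) hi₀n (by linarith)
    (by linarith) (by rw [sub_mul]; linarith) hx0 hsec j hjn
  have hxi₀ : x i₀ ≤ L + D := by
    obtain ⟨w, hw, hw'⟩ := hre W hW hN (2 * σ) he0 he7
    have e1 : -1 + (i₀ : ℝ) * σ = -(2 * σ) := by linarith
    have h1 := hle (-(2 * σ)) (-((2 * σ) • w)) (by linarith) (by linarith)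
    have h2 : 2 * σ * a * ‖-((2 * σ) • w)‖ ^ 2 ≤ 2 * σ * Cr ^ 2 := by
      rw [norm_neg, norm_smul, Real.norm_of_nonneg he0.le, mul_assoc (2 * σ)]
      refine mul_le_mul_of_nonneg_left ?_ he0.le
      calc a * (2 * σ * ‖w‖) ^ 2 ≤ 1 * (1 * Cr) ^ 2 := by gcongr; linarith
        _ = _ := by ring
    have h3 : Λ * (2 * σ) ≤ 16 * (2 * σ) := by gcongr
    unfold phi at h1
    rw [sub_neg_eq_add] at h1
    have h4 : -(D * (2 * σ)) ≤ mfun W Λ (2 * σ) a (-(2 * σ)) := by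
      rw [hD]; linarith
    simp only [hx, e1]
    have h5 : -D ≤ mfun W Λ (2 * σ) a (-(2 * σ)) / (2 * σ) := by
      rw [le_div_iff₀ he0]; linarith
    linarith
  have hXX : x j ≤ X₀ := by linarith
  -- conclusion
  have fin : ∀ i, i ≤ n → ∀ s : ℝ, 1 - s = -1 + i * σ →
      ∃ y : E, a * ‖y‖ ^ 2 ≤ (16 * D + 40) * (L + 1) ∧ Λ * s - η ≤ gap W s (y, 1 - s) ∧
        -((16 * D + 40) * (L + 1)) ≤ bslope W (y, 1 - s) s ∧
        bslope W (y, 1 - s) 1 ≤ (16 * D + 40) * (L + 1) := by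
    intro i hi s hs
    have h1 := hlo i
    have h2 := hhi i hi
    have h3 : L - mfun W Λ (2 * σ) a (-1 + i * σ) / (2 * σ) ≤ X₀ := (hX i hi).trans hXX
    rw [← hs] at h1 h2 h3
    have h4 : (L - X₀) * (2 * σ) ≤ mfun W Λ (2 * σ) a (1 - s) := by
      rw [← le_div_iff₀ he0]; linarith
    obtain ⟨y, hy⟩ := exists_lt_of_lt_ciSup (f := fun y => phi W Λ (2 * σ) a (1 - s) y)
      (b := (L - X₀ - 1) * (2 * σ)) (lt_of_lt_of_le (by linarith) h4)
    have h5 := hphi _ y h1 h2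
    have h6 : a * ‖y‖ ^ 2 / 2 ≤ X₀ + 1 := by
      have : (L - X₀ - 1) * (2 * σ) ≤ (L - a * ‖y‖ ^ 2 / 2) * (2 * σ) := by linarith
      have := le_of_mul_le_mul_right this he0
      linarith
    obtain ⟨h, k1, k2, k3, k4⟩ := key _ y h1 h2
    unfold phi at hy
    rw [sub_sub_cancel] at hy k1 k3
    have h7 : 0 ≤ 2 * σ * a * ‖y‖ ^ 2 := by positivity
    have h8 : 0 ≤ L * (2 * σ) := by positivity
    have h9 := hG (y, 1 - s) s (by linarith)
    have h10 := mul_le_mul_of_nonneg_left (k2.trans (add_le_add_right h6 L)) he0.le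
    have h11 : -(X₀ + 1) ≤ 2 * h + 32 := by
      have : -(X₀ + 1) * (2 * σ) ≤ (2 * h + 32) * (2 * σ) := by linarith
      exact le_of_mul_le_mul_right this he0
    have h12 : 0 ≤ D * L := by positivity
    exact ⟨y, by linarith, by linarith, by linarith, by linarith⟩
  rintro s (rfl | rfl)
  · exact fin 0 (Nat.zero_le _) 2 (by norm_num)
  · exact fin n le_rfl δ (by linarith)

end Crest.Agent.R94
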