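import Crest.Agent.R94.Attain

/-! Row 94: re-initialisation, one end point. -/

set_option autoImplicit false

open scoped RealInnerProductSpace
open Filter Topology Set

namespace Crest.Agent.R94

variable {E : Type*} [NormedAddCommGroup E] [InnerProductSpace ℝ E]

theorem ZCls.reinit_end [FiniteDimensional ℝ E] {W : E × ℝ → ℝ} (hW : ZCls W) {ε K d : ℝ}
    (h0 : 0 < ε) (h1 : ε ≤ 1 / 7) (hK : 0 ≤ K) (c x : E)
    (hx : W (x, 0) + ‖c - x‖ ^ 2 / 2 ≤ Tdn W 1 (c, 1) + d)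
    (hK1 : Tdn W 1 (c, 1) - Tdn W (1 / 2) (c, 1) ≤ K)
    (hK2 : Tdn W 1 (c, 1) - Tdn W 2 (c, 1) ≤ K) :
    ∃ U : E, ε * ‖U - (c - x)‖ ^ 2 ≤ 3 * d + 6 * K * ε ∧
      Tdn W ε (x - ε • ((2 : ℝ) • U - (c - x)), -ε) ≤
        W (x, 0) - ε * ‖(2 : ℝ) • U - (c - x)‖ ^ 2 / 2 + 5 * d + 10 * K * ε := by
  obtain ⟨V, rfl⟩ : ∃ V, c = x + V := ⟨c - x, by abel⟩
  rw [add_sub_cancel_left] at hx ⊢
  have hm : ∀ {s : ℝ}, 0 ≤ s → s ∈ Set.Ici (0 : ℝ) := fun h => h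
  -- (a)
  have ha1 := (hW.ccv (x + V, 1)).2 (hm zero_le_one) (hm (s := 1 / 2) (by norm_num))
    (show 0 ≤ 1 - 2 * ε by linarith) (show 0 ≤ 2 * ε by linarith) (by ring)
  have ha2 := (hW.ccv (x + V, 1)).2 (hm zero_le_one) (hm (s := 2) (by norm_num))
    (show 0 ≤ 1 - 2 * ε by linarith) (show 0 ≤ 2 * ε by linarith) (by ring)
  simp only [smul_eq_mul] at ha1 ha2
  rw [show (1 - 2 * ε) * 1 + 2 * ε * (1 / 2) = 1 - ε by ring] at ha1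
  rw [show (1 - 2 * ε) * 1 + 2 * ε * 2 = 1 + 2 * ε by ring] at ha2
  have hk1 := mul_le_mul_of_nonneg_left hK1 h0.le
  have hk2 := mul_le_mul_of_nonneg_left hK2 h0.le
  -- (b)
  have hb := Tdn_le (hW.dnBdd (s := 1 - ε) (by linarith) (x + V, 1)) V
  rw [show x + V - (1 - ε) • V = x + ε • V by module, show 1 - (1 - ε) = ε by ring] at hb
  -- (c)
  have hc1 := Tdn_le (hW.dnBdd h0.le (x + ε • V, ε)) V
  rw [add_sub_cancel_right, sub_self] at hc1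
  have hc2 := (hW.ccv (x + ε • V, ε)).2 (hm (s := 3 * ε) (by linarith)) (hm le_rfl)
    (show (0 : ℝ) ≤ 1 / 3 by norm_num) (show (0 : ℝ) ≤ 2 / 3 by norm_num) (by norm_num)
  simp only [smul_eq_mul, Tdn_zero] at hc2
  rw [show 1 / 3 * (3 * ε) + 2 / 3 * 0 = ε by ring] at hc2
  -- (d)
  obtain ⟨U, hU⟩ := hW.exists_Tdn_eq (s := 3 * ε) (by linarith) (x + ε • V) ε
  -- (e)
  have hp : (0 : ℝ) < 1 + 2 * ε := by linarith
  have he := Tdn_le (hW.dnBdd hp.le (x + V, 1)) ((1 + 2 * ε)⁻¹ • ((1 - ε) • V + (3 * ε) • U))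
  rw [smul_inv_smul₀ hp.ne', show x + V - ((1 - ε) • V + (3 * ε) • U) = x + ε • V - (3 * ε) • U by
    module, show 1 - (1 + 2 * ε) = ε - 3 * ε by ring] at he
  have hUV : ‖U - V‖ ^ 2 = ‖U‖ ^ 2 - 2 * ⟪U, V⟫ + ‖V‖ ^ 2 := norm_sub_sq_real U V
  have hn : (1 + 2 * ε) * ‖(1 + 2 * ε)⁻¹ • ((1 - ε) • V + (3 * ε) • U)‖ ^ 2 ≤
      (1 - ε) * ‖V‖ ^ 2 + 3 * ε * ‖U‖ ^ 2 - 2 * ε * ‖U - V‖ ^ 2 := by
    have h2 : ‖(1 - ε) • V + (3 * ε) • U‖ ^ 2 =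
        (1 - ε) ^ 2 * ‖V‖ ^ 2 + 2 * ((1 - ε) * (3 * ε) * ⟪U, V⟫) + (3 * ε) ^ 2 * ‖U‖ ^ 2 := by
      rw [norm_add_sq_real, norm_smul, norm_smul, mul_pow, mul_pow, Real.norm_eq_abs,
        Real.norm_eq_abs, sq_abs, sq_abs, real_inner_smul_left, real_inner_smul_right,
        real_inner_comm, mul_assoc (1 - ε)]
    rw [norm_smul, mul_pow, Real.norm_eq_abs, sq_abs, h2, ← mul_assoc,
      show (1 + 2 * ε) * (1 + 2 * ε)⁻¹ ^ 2 = (1 + 2 * ε)⁻¹ by field_simp, inv_mul_le_iff₀ hp]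
    have h3 : 0 ≤ ε * (1 - 7 * ε) * ‖U - V‖ ^ 2 :=
      mul_nonneg (mul_nonneg h0.le (by linarith)) (sq_nonneg _)
    rw [hUV] at h3 ⊢
    nlinarith [h3]
  have hmain : ε * ‖U - V‖ ^ 2 ≤ 3 * d + 6 * K * ε := by linarith
  refine ⟨U, hmain, ?_⟩
  -- (f)
  have hf := Tdn_le (hW.dnBdd h0.le (x - ε • ((2 : ℝ) • U - V), -ε)) U
  rw [show x - ε • ((2 : ℝ) • U - V) - ε • U = x + ε • V - (3 * ε) • U by module,
    show -ε - ε = ε - 3 * ε by ring] at hf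
  have h2 : ‖(2 : ℝ) • U - V‖ ^ 2 = 2 * ‖U‖ ^ 2 - ‖V‖ ^ 2 + 2 * ‖U - V‖ ^ 2 := by
    rw [hUV, norm_sub_sq_real, norm_smul, real_inner_smul_left, Real.norm_two]
    ring
  rw [h2]
  linarith

end Crest.Agent.R94
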