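import Crest.Agent.R94.Persist

/-! Row 94: the two consequences of persistence, and the backward chain. -/

set_option autoImplicit false

open scoped RealInnerProductSpace
open Filter Topology Set

namespace Crest.Agent.R94

variable {E : Type*} [NormedAddCommGroup E] [InnerProductSpace ℝ E]

/-- The admissible level `L = θ M + K²/(4θ) + K⁴/(32 θ² c)`. -/
theorem stepAB_adm {K c θ m : ℝ} (hc : 0 < c) (hθ : 0 < θ) (hm : 1 ≤ m) (ρ : ℝ) (hρ : 0 ≤ ρ) :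
    K * √(1 + ρ) ≤ (θ * m + K ^ 2 / (4 * θ) + (K ^ 2 / (4 * θ)) ^ 2 / (2 * c))
      + c / m ^ 2 * ρ ^ 2 / 2 := by
  have hm0 : 0 < m := by linarith
  set a : ℝ := K ^ 2 / (4 * θ) with ha
  have ha0 : 0 ≤ a := by positivity
  set r : ℝ := √(1 + ρ) with hr
  have hr2 : r ^ 2 = 1 + ρ := Real.sq_sqrt (by linarith)
  have h1 : K * r ≤ θ * m + a / m * (1 + ρ) := by
    have e : θ * m + a / m * (1 + ρ) - K * r = (2 * θ * m - K * r) ^ 2 / (4 * θ * m) := by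
      rw [← hr2, ha]; field_simp; ring
    have : 0 ≤ (2 * θ * m - K * r) ^ 2 / (4 * θ * m) := by positivity
    linarith
  have h2 : a / m ≤ a := div_le_self ha0 hm
  have h3 : a / m * ρ ≤ a ^ 2 / (2 * c) + c / m ^ 2 * ρ ^ 2 / 2 := by
    have e : a ^ 2 / (2 * c) + c / m ^ 2 * ρ ^ 2 / 2 - a / m * ρ
        = (a - c * (ρ / m)) ^ 2 / (2 * c) := by
      field_simp; ring
    have : 0 ≤ (a - c * (ρ / m)) ^ 2 / (2 * c) := by positivity
    linarith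
  have h4 : a / m * (1 + ρ) = a / m + a / m * ρ := by ring
  linarith

/-- Step A: a near-contact point at scale 1 gives one at scale 2, same centre time. -/
theorem stepA [FiniteDimensional ℝ E] : ∃ R₁ : ℝ, 0 < R₁ ∧ ∀ η : ℝ, 0 < η → ∃ μ : ℝ, 0 < μ ∧
    ∀ (W : E × ℝ → ℝ) (Λ : ℝ), ZCls W → Normed W → Λ ≤ 16 → GapLe W Λ →
      Λ - μ ≤ gap W 1 (0, 0) → ∃ y : E, ‖y‖ ≤ R₁ ∧ Λ * 2 - η ≤ gap W 2 (y, -1) := by
  obtain ⟨C, c, K, hC, hc, hK, H⟩ := persist (E := E)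
  set L : ℝ := 1 * 1 + K ^ 2 / (4 * 1) + (K ^ 2 / (4 * 1)) ^ 2 / (2 * c) with hL
  have hL0 : 0 ≤ L := by positivity
  refine ⟨√(C * (L + 1) / c) + 1, by positivity, fun η hη => ?_⟩
  obtain ⟨μ, hμ, H'⟩ := H 1 L η le_rfl hL0 (fun ρ hρ => by
    have := stepAB_adm (K := K) hc one_pos (le_refl (1 : ℝ)) ρ hρ
    simpa [hL] using this) hη
  refine ⟨μ, hμ, fun W Λ hW hN hΛ hG h0 => ?_⟩
  obtain ⟨y, hy, hg, -, -⟩ := H' W Λ hW hN hΛ hG h0 2 (Or.inl rfl)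
  refine ⟨y, ?_, ?_⟩
  · have h1 : ‖y‖ ^ 2 ≤ C * (L + 1) / c := by
      rw [le_div_iff₀ hc]
      simp only [Nat.cast_one, one_pow, div_one] at hy
      linarith
    have h2 : ‖y‖ ≤ √(C * (L + 1) / c) := Real.le_sqrt_of_sq_le h1
    linarith
  · have e : (1 : ℝ) - 2 = -1 := by norm_num
    rwa [e] at hg

/-- Step B: a near-contact point at scale `2^{-M}` with sublinear drift of the slope. -/
theorem stepB [FiniteDimensional ℝ E] (θ : ℝ) (hθ : 0 < θ) : ∃ M₀ : ℕ, ∀ M : ℕ, M₀ ≤ M →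
    ∀ η : ℝ, 0 < η → ∃ μ : ℝ, 0 < μ ∧
    ∀ (W : E × ℝ → ℝ) (Λ : ℝ), ZCls W → Normed W → Λ ≤ 16 → GapLe W Λ →
      Λ - μ ≤ gap W 1 (0, 0) → ∃ z : E × ℝ, Λ * (1 / 2) ^ M - η ≤ gap W ((1 / 2) ^ M) z ∧
        bslope W z 1 - bslope W z ((1 / 2) ^ M) ≤ θ * M := by
  obtain ⟨C, c, K, hC, hc, hK, H⟩ := persist (E := E)
  set t : ℝ := θ / (4 * C) with ht
  have ht0 : 0 < t := by positivity
  set B : ℝ := K ^ 2 / (4 * t) + (K ^ 2 / (4 * t)) ^ 2 / (2 * c) with hB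
  have hB0 : 0 ≤ B := by positivity
  obtain ⟨N, hN⟩ := exists_nat_ge (4 * C * (B + 1) / θ)
  refine ⟨max N 1, fun M hM η hη => ?_⟩
  have hM1 : 1 ≤ M := le_trans (le_max_right _ _) hM
  have hMN : (N : ℝ) ≤ M := by exact_mod_cast le_trans (le_max_left _ _) hM
  have hM1' : (1 : ℝ) ≤ M := by exact_mod_cast hM1
  obtain ⟨μ, hμ, H'⟩ := H M (t * M + B) η hM1 (by positivity) (fun ρ hρ => by
    have := stepAB_adm (K := K) hc ht0 hM1' ρ hρ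
    rw [hB]; linarith) hη
  refine ⟨μ, hμ, fun W Λ hW hNm hΛ hG h0 => ?_⟩
  obtain ⟨y, -, hg, h1, h2⟩ := H' W Λ hW hNm hΛ hG h0 ((1 / 2) ^ M) (Or.inr rfl)
  refine ⟨(y, 1 - (1 / 2) ^ M), hg, ?_⟩
  have h3 : 4 * C * (B + 1) ≤ θ * M := by
    have := (div_le_iff₀ hθ).1 (hN.trans hMN)
    linarith
  have h4 : C * (t * M) = θ * M / 4 := by rw [ht]; field_simp
  have h5 : C * (t * M + B + 1) = C * (t * M) + C * (B + 1) := by ring
  linarith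

end Crest.Agent.R94
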