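import Crest.Agent.R94.Moves

/-! Row 94: the two-sided transport inequality for the regularised gap. -/

set_option autoImplicit false

open scoped RealInnerProductSpace
open Filter Topology Set

namespace Crest.Agent.R94

variable {E : Type*} [NormedAddCommGroup E] [InnerProductSpace ℝ E]

theorem StepS.sum_inner {ι : Type} [Fintype ι] (w : ι → ℝ) (ξ : ι → E) (p : E) :
    ∑ i, w i * ⟪p, ξ i⟫ = ⟪p, ∑ i, w i • ξ i⟫ := by
  rw [inner_sum]; exact Finset.sum_congr rfl fun i _ => by rw [real_inner_smul_right]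

theorem StepS.quad {σ s : ℝ} (hσ : 0 < σ) (hs : σ < s) (V U D ξ : E) :
    ‖(1 - σ / s) • ξ‖ ^ 2 / (2 * (s - σ)) + ‖ξ - σ • D‖ ^ 2 / (2 * (s + σ)) +
      (σ * ‖V - s⁻¹ • ξ‖ ^ 2 / 2 - σ * ‖U + D‖ ^ 2 / 2) ≤
      2 * (‖ξ‖ ^ 2 / (2 * s)) + (σ * ‖V‖ ^ 2 / 2 - σ * ‖U‖ ^ 2 / 2) - σ / s * ⟪V, ξ⟫ -
        σ * ⟪U, D⟫ := by
  have h0 : 0 < s := hσ.trans hs
  have h1 : s - σ ≠ 0 := (sub_pos.2 hs).ne'
  have h2 := norm_add_sq_div_le ξ (-(σ • D)) h0 hσ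
  rw [← sub_eq_add_neg, norm_neg, norm_smul, Real.norm_of_nonneg hσ.le] at h2
  have h3 : ‖ξ - σ • D‖ ^ 2 / (2 * (s + σ)) = ‖ξ - σ • D‖ ^ 2 / (s + σ) / 2 := by
    rw [div_div, mul_comm]
  have h4 : ‖(1 - σ / s) • ξ‖ ^ 2 / (2 * (s - σ)) + (‖ξ‖ ^ 2 / s + (σ * ‖D‖) ^ 2 / σ) / 2 +
      (σ * ‖V - s⁻¹ • ξ‖ ^ 2 / 2 - σ * ‖U + D‖ ^ 2 / 2) =
      2 * (‖ξ‖ ^ 2 / (2 * s)) + (σ * ‖V‖ ^ 2 / 2 - σ * ‖U‖ ^ 2 / 2) - σ / s * ⟪V, ξ⟫ -
        σ * ⟪U, D⟫ := by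
    rw [norm_sub_sq_real, norm_add_sq_real, norm_smul, norm_smul, mul_pow, mul_pow, mul_pow,
      real_inner_smul_right, Real.norm_eq_abs, Real.norm_eq_abs, sq_abs, sq_abs]
    field_simp
    ring
  linarith

theorem ZCls.stepS [FiniteDimensional ℝ E] {W : E × ℝ → ℝ} (hW : ZCls W) {σ s δ : ℝ}
    (hσ : 0 < σ) (hs : σ < s) (hδ : 0 < δ) (y : E) (t : ℝ) : ∃ V U : E,
    2 * Gf W (2 * σ) s (y, t) - 2 * δ ≤
      Gf W (2 * σ) (s - σ) (y + σ • V, t + σ) + Gf W (2 * σ) (s + σ) (y - σ • U, t - σ) ∧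
    (∀ ζ : E, Gf W (2 * σ) s (y, t) - δ + ⟪V - U, ζ⟫ - ‖ζ‖ ^ 2 / (2 * σ) ≤
      Gf W (2 * σ) s (y + ζ, t)) ∧
    (∀ ζ : E, env s (fun y' => Tdn W (2 * σ) (y', t)) (y + ζ) ≤
      env s (fun y' => Tdn W (2 * σ) (y', t)) y + δ + ⟪U, ζ⟫ + ‖ζ‖ ^ 2 / (4 * σ)) := by
  have h0 : 0 < s := hσ.trans hs
  have h2σ : 0 ≤ 2 * σ := by positivity
  obtain ⟨V, hV1, hV2⟩ := hW.up_move hσ y t
  obtain ⟨ι, _, w, ξ, hw, h1, hξ, hap⟩ := env_approx s (fun y' => Tdn W (2 * σ) (y', t)) y hδ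
  choose U hU1 hU2 using fun i => hW.dn_move hσ (y + ξ i) t
  set U₀ : E := ∑ i, w i • U i with hU₀
  have hD : ∑ i, w i • (U i - U₀) = 0 := by
    simp only [smul_sub, Finset.sum_sub_distrib, ← Finset.sum_smul, h1, one_smul, ← hU₀, sub_self]
  have p3 : ∀ ζ : E, env s (fun y' => Tdn W (2 * σ) (y', t)) (y + ζ) ≤
      env s (fun y' => Tdn W (2 * σ) (y', t)) y + δ + ⟪U₀, ζ⟫ + ‖ζ‖ ^ 2 / (4 * σ) := fun ζ => by
    refine (env_le (hW.envBdd h0 h2σ (y + ζ) t) w ξ hw h1 hξ).trans ?_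
    have a1 : ∑ i, w i * (Tdn W (2 * σ) (y + ζ + ξ i, t) + ‖ξ i‖ ^ 2 / (2 * s)) ≤
        ∑ i, w i * ((Tdn W (2 * σ) (y + ξ i, t) + ‖ξ i‖ ^ 2 / (2 * s)) + ⟪ζ, U i⟫ +
          ‖ζ‖ ^ 2 / (4 * σ)) := by
      refine Finset.sum_le_sum fun i _ => mul_le_mul_of_nonneg_left ?_ (hw i)
      have := hU2 i ζ
      rw [add_right_comm, real_inner_comm] at this
      linarith
    simp only [mul_add (w _) (_ + _), Finset.sum_add_distrib, ← Finset.sum_mul, h1,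
      StepS.sum_inner, ← hU₀] at a1
    rw [real_inner_comm]
    linarith
  refine ⟨V, U₀, ?_, fun ζ => ?_, p3⟩
  · have a1 := env_le (hW.envBdd (sub_pos.2 hs) h2σ (y + σ • V) (t + σ)) w
      (fun i => (1 - σ / s) • ξ i) hw h1
      (by simp only [smul_comm (w _), ← Finset.smul_sum, hξ, smul_zero])
    have a2 := env_le (hW.envBdd (add_pos h0 hσ) h2σ (y - σ • U₀) (t - σ)) w
      (fun i => ξ i - σ • (U i - U₀)) hw h1
      (by simp only [smul_sub (w _) (ξ _), smul_comm (w _) σ, Finset.sum_sub_distrib,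
        ← Finset.smul_sum, hξ, hD, smul_zero, sub_zero])
    have a3 := (add_le_add a1 a2).trans (show _ ≤ ∑ i, w i * (2 * (Tdn W (2 * σ) (y + ξ i, t) +
        ‖ξ i‖ ^ 2 / (2 * s)) + (σ * ‖V‖ ^ 2 / 2 - σ * ‖U₀‖ ^ 2 / 2) - σ / s * ⟪V, ξ i⟫ -
          σ * ⟪U₀, U i - U₀⟫) from ?_)
    · simp only [mul_sub (w _) (_ + _ - _), mul_sub (w _) (_ + _), mul_add (w _) (2 * _),
        mul_left_comm (w _) 2, mul_left_comm (w _) σ, mul_left_comm (w _) (σ / s),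
        Finset.sum_add_distrib, Finset.sum_sub_distrib, ← Finset.sum_mul, ← Finset.mul_sum, h1,
        StepS.sum_inner, hD, hξ, inner_zero_right] at a3
      have a4 := hV1 U₀
      simp only [Gf]
      linarith
    rw [← Finset.sum_add_distrib]
    refine Finset.sum_le_sum fun i _ => ?_
    rw [← mul_add]
    refine mul_le_mul_of_nonneg_left ?_ (hw i)
    have b1 := hU1 i (V - s⁻¹ • ξ i)
    have b2 := StepS.quad hσ hs V U₀ (U i - U₀) (ξ i)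
    rw [add_sub_cancel] at b2
    rw [show y + σ • V + (1 - σ / s) • ξ i = y + ξ i + σ • (V - s⁻¹ • ξ i) by
      rw [div_eq_mul_inv]; module,
      show y - σ • U₀ + (ξ i - σ • (U i - U₀)) = y + ξ i - σ • U i by module]
    linarith
  · have a1 := p3 ζ
    have a2 := hV2 ζ
    have a3 : ‖ζ‖ ^ 2 / (2 * σ) = ‖ζ‖ ^ 2 / (4 * σ) + ‖ζ‖ ^ 2 / (4 * σ) := by
      field_simp; ring
    simp only [Gf, inner_sub_left]
    linarith

end Crest.Agent.R94
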