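import Crest.Agent.R94.Basic

/-! Row 94: locally uniform limits along the hyperfilter. -/

set_option autoImplicit false

open scoped RealInnerProductSpace
open Filter Topology Set

namespace Crest.Agent.R94

variable {E : Type*} [NormedAddCommGroup E] [InnerProductSpace ℝ E]

theorem exists_ultralimit {X : Type*} [NormedAddCommGroup X] [ProperSpace X] (f : ℕ → X → ℝ)
    (hbdd : ∀ x : X, ∃ C : ℝ, ∀ᶠ k in atTop, |f k x| ≤ C)
    (heq : ∀ ρ η : ℝ, 0 < η → ∃ θ : ℝ, 0 < θ ∧ ∀ᶠ k in atTop, ∀ x x' : X, ‖x‖ ≤ ρ → ‖x'‖ ≤ ρ →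
      dist x x' ≤ θ → |f k x - f k x'| ≤ η) :
    ∃ g : X → ℝ, ∀ ρ η : ℝ, 0 < η → ∀ᶠ k in (hyperfilter ℕ : Filter ℕ), ∀ x : X, ‖x‖ ≤ ρ →
      |f k x - g x| ≤ η := by
  have hle : (hyperfilter ℕ : Filter ℕ) ≤ atTop := Nat.hyperfilter_le_atTop
  have hlim : ∀ x : X, ∃ a : ℝ, Tendsto (fun k => f k x) (hyperfilter ℕ : Filter ℕ) (𝓝 a) := by
    intro x
    obtain ⟨C, hC⟩ := hbdd x
    obtain ⟨a, -, ha⟩ := (isCompact_Icc (a := -C) (b := C)).ultrafilter_le_nhds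
      ((hyperfilter ℕ).map fun k => f k x) (by
        rw [Ultrafilter.coe_map, le_principal_iff, mem_map]
        filter_upwards [hle hC] with k hk
        exact abs_le.1 hk)
    exact ⟨a, ha⟩
  choose g hg using hlim
  refine ⟨g, fun ρ η hη => ?_⟩
  obtain ⟨θ, hθ, hf⟩ := heq ρ (η / 3) (by positivity)
  have hf' := hle hf
  have hgc : ∀ x x' : X, ‖x‖ ≤ ρ → ‖x'‖ ≤ ρ → dist x x' ≤ θ → |g x - g x'| ≤ η / 3 := by
    intro x x' hx hx' hd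
    refine le_of_tendsto ((hg x).sub (hg x')).abs ?_
    filter_upwards [hf'] with k hk
    exact hk x x' hx hx' hd
  obtain ⟨T, hT, hfin, hcov⟩ := finite_cover_balls_of_compact (isCompact_closedBall (0 : X) ρ) hθ
  have hev : ∀ᶠ k in (hyperfilter ℕ : Filter ℕ), ∀ y ∈ T, |f k y - g y| ≤ η / 3 := by
    refine (eventually_all_finite hfin).2 fun y _ => ?_
    filter_upwards [Metric.tendsto_nhds.1 (hg y) (η / 3) (by positivity)] with k hk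
    rw [Real.dist_eq] at hk
    exact hk.le
  filter_upwards [hf', hev] with k hk hk' x hx
  obtain ⟨y, hy, hxy⟩ := mem_iUnion₂.1 (hcov (mem_closedBall_zero_iff.2 hx))
  have hy' : ‖y‖ ≤ ρ := mem_closedBall_zero_iff.1 (hT hy)
  have hd : dist x y ≤ θ := (Metric.mem_ball.1 hxy).le
  have h1 := abs_le.1 (hk x y hx hy' hd)
  have h2 := abs_le.1 (hk' y hy)
  have h3 := abs_le.1 (hgc x y hx hy' hd)
  rw [abs_le]
  constructor <;> linarith [h1.1, h1.2, h2.1, h2.2, h3.1, h3.2]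

/-- Locally uniform convergence and uniform subquadratic growth give weighted convergence. -/
theorem wconv_of_locUnif {l : Filter ℕ} [l.NeBot] {Wk : ℕ → E × ℝ → ℝ} {W : E × ℝ → ℝ}
    (hconv : ∀ ρ η : ℝ, 0 < η → ∀ᶠ k in l, ∀ z : E × ℝ, ‖z‖ ≤ ρ → |Wk k z - W z| ≤ η)
    (hgr : ∀ ρ η : ℝ, 0 < η → ∃ C : ℝ, ∀ᶠ k in l, ∀ (ξ : E) (τ : ℝ), |τ| ≤ ρ →
      |Wk k (ξ, τ)| ≤ C + η * ‖ξ‖ ^ 2) :
    WConv l Wk W ∧ SubQ W := by
  have hlim : ∀ {ρ η C : ℝ}, (∀ᶠ k in l, ∀ (ξ : E) (τ : ℝ), |τ| ≤ ρ →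
      |Wk k (ξ, τ)| ≤ C + η * ‖ξ‖ ^ 2) → ∀ (ξ : E) (τ : ℝ), |τ| ≤ ρ →
      |W (ξ, τ)| ≤ C + η * ‖ξ‖ ^ 2 := by
    intro ρ η C hC ξ τ hτ
    refine le_of_forall_pos_le_add fun δ hδ => ?_
    obtain ⟨k, hk, hk'⟩ := (hC.and (hconv ‖(ξ, τ)‖ δ hδ)).exists
    have h1 := abs_le.1 (hk ξ τ hτ)
    have h2 := abs_le.1 (hk' (ξ, τ) le_rfl)
    rw [abs_le]
    constructor <;> linarith [h1.1, h1.2, h2.1, h2.2]
  refine ⟨fun R η hη => ?_, fun R η hη => ?_⟩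
  · obtain ⟨C, hC⟩ := hgr R (η / 4) (by positivity)
    have hW := hlim hC
    filter_upwards [hC, hconv (max R (Real.sqrt (4 * C / η))) η hη] with k hk hk' ξ τ hτ
    have hξ : 0 ≤ η * ‖ξ‖ ^ 2 := by positivity
    by_cases hc : ‖ξ‖ ≤ Real.sqrt (4 * C / η)
    · have h1 := hk' (ξ, τ) (by
        rw [Prod.norm_def]
        exact max_le (le_max_of_le_right hc) (le_max_of_le_left hτ))
      linarith
    · have h0 : 4 * C / η < ‖ξ‖ ^ 2 := Real.lt_sq_of_sqrt_lt (not_le.1 hc)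
      rw [div_lt_iff₀ hη] at h0
      have h1 := abs_le.1 (hk ξ τ hτ)
      have h2 := abs_le.1 (hW ξ τ hτ)
      rw [abs_le]
      constructor <;> linarith [h1.1, h1.2, h2.1, h2.2]
  · obtain ⟨C, hC⟩ := hgr R η hη
    exact ⟨C, hlim hC⟩

end Crest.Agent.R94
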